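import Vale.Agent.P126.MathlibUsed
import Vale.Agent.P126.Defs

set_option linter.all false

section

section

section

/-!
# P126, counterexample: a greedy code

A maximal set of words with pairwise small agreement sets has at least `q ^ t` elements.
-/

namespace Vale.Agent.P126.CE

open Classical in
/-- The number of words which agree with `c` on `T`. -/
theorem code_card_agree {r : ℕ} {A' : Type} [Fintype A'] (c : Fin r → A')
    (T : Finset (Fin r)) :
    (Finset.univ.filter (fun x : Fin r → A' => ∀ s ∈ T, x s = c s)).card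
      = Fintype.card A' ^ (r - T.card) := by
  have h1 : (Finset.univ.filter (fun x : Fin r → A' => ∀ s ∈ T, x s = c s))
      = Fintype.piFinset (fun s => if s ∈ T then ({c s} : Finset A') else Finset.univ) := by
    ext x
    simp only [Finset.mem_filter, Finset.mem_univ, true_and, Fintype.mem_piFinset]
    constructor
    · intro hx s
      by_cases hs : s ∈ T
      · simp [hs, hx s hs]
      · simp only [hs, ↓reduceIte, Finset.mem_univ]
    · intro hx s hs
      have h2 := hx s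
      simpa [hs] using h2
  rw [h1, Fintype.card_piFinset]
  have h2 : ∀ s, (if s ∈ T then ({c s} : Finset A') else Finset.univ).card
      = if s ∈ T then 1 else Fintype.card A' := by
    intro s
    by_cases hs : s ∈ T
    · simp [hs]
    · simp only [hs, ↓reduceIte, Finset.card_univ]
  rw [Finset.prod_congr rfl (fun s _ => h2 s), Finset.prod_ite]
  simp only [Finset.prod_const_one, one_mul, Finset.prod_const]
  congr 1
  have h3 : (Finset.univ.filter (fun s => s ∉ T)) = Tᶜ := by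
    ext s
    simp only [Finset.mem_filter, Finset.mem_univ, true_and, Finset.mem_compl]
  rw [h3, Finset.card_compl, Fintype.card_fin]

open Classical in
/-- T2 (Code.lean). -/
theorem exists_code (r t : ℕ) (htr : t < r) (A' : Type) [Fintype A']
    (h : 2 ^ r ≤ Fintype.card A') :
    ∃ C : Finset (Fin r → A'), Fintype.card A' ^ t ≤ C.card ∧
      ∀ x ∈ C, ∀ y ∈ C, x ≠ y → (Finset.univ.filter (fun s => x s = y s)).card ≤ t := by
  set q := Fintype.card A' with hq
  let good : Finset (Fin r → A') → Prop := fun C =>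
    ∀ x ∈ C, ∀ y ∈ C, x ≠ y → (Finset.univ.filter (fun s => x s = y s)).card ≤ t
  obtain ⟨C, hC, hmax⟩ := Finset.exists_max_image
    (Finset.univ.filter (fun C : Finset (Fin r → A') => good C)) (fun C => C.card)
    ⟨∅, by simp only [ne_eq, Finset.mem_filter, Finset.mem_univ, Finset.notMem_empty, IsEmpty.forall_iff, implies_true, and_self, good]⟩
  have hgood : good C := by simpa only [Finset.mem_filter, Finset.mem_univ, true_and] using hC
  refine ⟨C, ?_, hgood⟩
  -- every word is close to some codeword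
  have hcov : ∀ x : Fin r → A', ∃ c ∈ C,
      t + 1 ≤ (Finset.univ.filter (fun s => x s = c s)).card := by
    intro x
    by_contra hne
    push Not at hne
    have hx : x ∉ C := by
      intro hx
      have h1 := hne x hx
      simp only [Finset.filter_true, Finset.card_univ, Fintype.card_fin, Order.lt_add_one_iff] at h1
      omega
    have hins : good (insert x C) := by
      intro y hy z hz hyz
      rw [Finset.mem_insert] at hy hz
      rcases hy with rfl | hy
      · rcases hz with rfl | hz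
        · exact absurd rfl hyz
        · exact Nat.lt_succ_iff.mp (hne z hz)
      · rcases hz with rfl | hz
        · have h1 := hne y hy
          have h2 : (Finset.univ.filter (fun s => y s = z s))
              = (Finset.univ.filter (fun s => z s = y s)) := by
            ext s
            simp only [Finset.mem_filter, Finset.mem_univ, true_and, eq_comm]
          rw [h2]
          exact Nat.lt_succ_iff.mp h1
        · exact hgood y hy z hz hyz
    have h1 := hmax (insert x C) (by simpa only [Finset.mem_filter, Finset.mem_univ, true_and] using hins)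
    simp only [Finset.card_insert_of_notMem hx] at h1
    omega
  -- counting
  have hsub : (Finset.univ : Finset (Fin r → A')) ⊆ C.biUnion (fun c =>
      (Finset.powersetCard (t + 1) (Finset.univ : Finset (Fin r))).biUnion (fun T =>
        Finset.univ.filter (fun x : Fin r → A' => ∀ s ∈ T, x s = c s))) := by
    intro x _
    obtain ⟨c, hc, hcard⟩ := hcov x
    obtain ⟨T, hT, hTc⟩ := Finset.exists_subset_card_eq hcard
    rw [Finset.mem_biUnion]
    refine ⟨c, hc, ?_⟩
    rw [Finset.mem_biUnion]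
    refine ⟨T, by simp only [Finset.mem_powersetCard, Finset.subset_univ, hTc, Nat.add_left_cancel_iff, and_self], ?_⟩
    simp only [Finset.mem_filter, Finset.mem_univ, true_and]
    intro s hs
    have h1 := hT hs
    simpa only [Finset.mem_filter, Finset.mem_univ, true_and] using h1
  have hcount : q ^ r ≤ C.card * (2 ^ r * q ^ (r - (t + 1))) := by
    have h1 := Finset.card_le_card hsub
    rw [Finset.card_univ, Fintype.card_fun, Fintype.card_fin] at h1
    refine h1.trans ?_
    refine (Finset.card_biUnion_le).trans ?_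
    rw [← smul_eq_mul (C.card), ← Finset.sum_const]
    refine Finset.sum_le_sum (fun c _ => ?_)
    refine (Finset.card_biUnion_le).trans ?_
    have h2 : ∀ T ∈ Finset.powersetCard (t + 1) (Finset.univ : Finset (Fin r)),
        (Finset.univ.filter (fun x : Fin r → A' => ∀ s ∈ T, x s = c s)).card
          = q ^ (r - (t + 1)) := by
      intro T hT
      rw [code_card_agree, (Finset.mem_powersetCard.mp hT).2]
    rw [Finset.sum_congr rfl h2, Finset.sum_const, smul_eq_mul]
    refine Nat.mul_le_mul_right _ ?_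
    rw [Finset.card_powersetCard, Finset.card_univ, Fintype.card_fin]
    exact Nat.choose_le_two_pow _ _
  have hqpos : 0 < q := lt_of_lt_of_le (by positivity) h
  have hsplit : q ^ r = q ^ t * (q * q ^ (r - (t + 1))) := by
    rw [← mul_assoc, ← pow_succ, ← pow_add]
    congr 1
    omega
  have hle : q ^ t * (q * q ^ (r - (t + 1))) ≤ C.card * (q * q ^ (r - (t + 1))) := by
    rw [← hsplit]
    refine hcount.trans ?_
    exact Nat.mul_le_mul_left _ (Nat.mul_le_mul_right _ h)
  exact Nat.le_of_mul_le_mul_right hle (by (clear * - hqpos; positivity))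

end Vale.Agent.P126.CE
end
end
end

section

section

section

/-!
# P126, counterexample: basic combinatorial definitions
-/

namespace Vale.Agent.P126.CE

/-- `top (i, u) z`: the words `u` and `z` agree strictly before the time `i` and differ at `i`. -/
def top {I A : Type} [LinearOrder I] (w : I × (I → A)) (z : I → A) : Prop :=
  (∀ i' < w.1, w.2 i' = z i') ∧ w.2 w.1 ≠ z w.1

open Classical in
/-- Interpolation between the kernels `b` and `bp` with error `δ`, `N` possible data and `K`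
possible patterns. -/
def Interp {W X : Type} [Fintype W] (b bp : W → X → Prop) (δ : ℝ) (K N : ℕ) : Prop :=
  ∃ (P Q : Type) (_ : Fintype P) (_ : Fintype Q) (ev : P → X → Q),
    Fintype.card P ≤ N ∧ Fintype.card Q ≤ K ∧
    ∀ lam : W → ℝ, (∀ w, 0 ≤ lam w) → ∃ (p : P) (th : W → Q → Prop), ∀ z : X,
      (∑ w, if (b w z ∧ ¬ th w (ev p z)) ∨ (th w (ev p z) ∧ ¬ bp w z) then lam w else 0)
        ≤ δ * ∑ w, lam w

/-- A system of kernels of level `k`. -/
structure Sys (k : ℕ) (I A : Type) [Fintype I] [LinearOrder I] [Fintype A] (δ : ℝ) (K N : ℕ) where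
  /-- the kernels; only `b 0, …, b k` matter -/
  b : ℕ → (I × (I → A)) → (I → A) → Prop
  top_iff : ∀ w z, b k w z ↔ top w z
  mono : ∀ j < k, ∀ w z, b (j + 1) w z → b j w z
  diff : ∀ j ≤ k, ∀ w z, b j w z → w.2 w.1 ≠ z w.1
  interp : ∀ j < k, Interp (b (j + 1)) (b j) δ K N

/-- The inductive claim. -/
def Claim (k : ℕ) : Prop :=
  ∀ D β : ℕ, 0 < D → 0 < β →
    ∃ (I : Type) (_ : Fintype I) (_ : LinearOrder I) (_ : Nonempty I) (K Q0 : ℕ), ∀ Q ≥ Q0,
      ∃ (A : Type) (_ : Fintype A) (N : ℕ), Q ≤ Fintype.card A ∧ 1 ≤ N ∧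
        N ^ β ≤ Fintype.card A ^ Fintype.card I ∧ Nonempty (Sys k I A (1 / (D : ℝ)) K N)

/-- The combinatorial core of the counterexample. -/
def Core : Prop :=
  ∀ κ m : ℕ, ∃ (nW nX N : ℕ) (f : Fin nW → Fin nX → ℝ) (cls : (Fin nW → ℝ) → Fin N),
    0 < nW ∧
    (∀ x y : Fin nX, x ≠ y → ∃ w, (κ : ℝ) ≤ |f w x - f w y|) ∧
    (∀ lam mu : Fin nW → ℝ, ∑ w, |lam w| ≤ 1 → ∑ w, |mu w| ≤ 1 → cls lam = cls mu →
      ∀ x, |∑ w, (lam w - mu w) * f w x| ≤ 4) ∧
    N ^ m < nX

end Vale.Agent.P126.CE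
end
end
end

section

section

section

/-!
# P126, counterexample: block projections and lifted kernels
-/

namespace Vale.Agent.P126.CE

section
variable {B J A A' S : Type}

/-- The projection of the word `z` to the block `β`, with every letter replaced by the coordinate
`s` of its codeword. -/
def pr (c : A → S → A') (s : S) (β : B) (z : (B ×ₗ J) → A) : J → A' :=
  fun j => c (z (toLex (β, j))) s

/-- The block of the time of `w`. -/
def blk (w : (B ×ₗ J) × ((B ×ₗ J) → A)) : B := (ofLex w.1).1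

/-- The position inside of the block of the time of `w`. -/
def pos (w : (B ×ₗ J) × ((B ×ₗ J) → A)) : J := (ofLex w.1).2

/-- The projection of `w`. -/
def pw (c : A → S → A') (s : S) (w : (B ×ₗ J) × ((B ×ₗ J) → A)) : J × (J → A') :=
  (pos w, pr c s (blk w) w.2)

/-- The lifted kernel. -/
def lift (c : A → S → A') (b : J × (J → A') → (J → A') → Prop)
    (w : (B ×ₗ J) × ((B ×ₗ J) → A)) (z : (B ×ₗ J) → A) : Prop :=
  ∃ s, b (pw c s w) (pr c s (blk w) z)

end

end Vale.Agent.P126.CE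
end
end
end

section

section

section

/-!
# P126, counterexample: interpolation of lifted kernels
-/

open Finset

namespace Vale.Agent.P126.CE

section
variable {B J A A' S : Type} [Fintype B] [LinearOrder B] [Fintype J] [LinearOrder J]
  [Fintype A] [Fintype A'] [Fintype S]

open Classical in
/-- T3 (Lift.lean). -/
theorem interp_lift (c : A → S → A') (b bp : J × (J → A') → (J → A') → Prop) (δ : ℝ)
    (K N : ℕ) (h : Interp b bp δ K N) :
    Interp (lift (B := B) c b) (lift (B := B) c bp) (Fintype.card S * δ)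
      (K ^ (Fintype.card S * Fintype.card B)) (N ^ (Fintype.card S * Fintype.card B)) := by
  obtain ⟨P, Q, hP, hQ, ev, hPN, hQK, hmain⟩ := h
  refine ⟨S × B → P, S × B → Q, inferInstance, inferInstance,
    fun p z sb => ev (p sb) (pr c sb.1 sb.2 z), ?_, ?_, ?_⟩
  · rw [Fintype.card_fun, Fintype.card_prod]
    exact Nat.pow_le_pow_left hPN _
  · rw [Fintype.card_fun, Fintype.card_prod]
    exact Nat.pow_le_pow_left hQK _
  intro lam hlam
  let lam' : S → B → (J × (J → A')) → ℝ := fun s β w' =>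
    ∑ w : (B ×ₗ J) × ((B ×ₗ J) → A), if blk w = β ∧ pw c s w = w' then lam w else 0
  have hlam' : ∀ s β w', 0 ≤ lam' s β w' := by
    intro s β w'
    refine sum_nonneg fun w _ => ?_
    split_ifs
    · exact hlam w
    · exact le_rfl
  have hch : ∀ sb : S × B, ∃ (p : P) (th : (J × (J → A')) → Q → Prop), ∀ z : J → A',
      (∑ w, if (b w z ∧ ¬ th w (ev p z)) ∨ (th w (ev p z) ∧ ¬ bp w z) then
        lam' sb.1 sb.2 w else 0) ≤ δ * ∑ w, lam' sb.1 sb.2 w :=
    fun sb => hmain (lam' sb.1 sb.2) (hlam' sb.1 sb.2)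
  choose p th hth using hch
  refine ⟨p, fun w π => ∃ s, th (s, blk w) (pw c s w) (π (s, blk w)), ?_⟩
  intro z
  -- the failure set of `(s, β)`
  let F : S → B → (J × (J → A')) → Prop := fun s β w' =>
    (b w' (pr c s β z) ∧ ¬ th (s, β) w' (ev (p (s, β)) (pr c s β z))) ∨
      (th (s, β) w' (ev (p (s, β)) (pr c s β z)) ∧ ¬ bp w' (pr c s β z))
  have hF : ∀ s β, (∑ w', if F s β w' then lam' s β w' else 0) ≤ δ * ∑ w', lam' s β w' :=
    fun s β => hth (s, β) (pr c s β z)
  have hmass : ∀ s, ∑ β, ∑ w', lam' s β w' = ∑ w, lam w := by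
    intro s
    have h1 : ∀ β, ∑ w', lam' s β w' =
        ∑ w : (B ×ₗ J) × ((B ×ₗ J) → A), if blk w = β then lam w else 0 := by
      intro β
      show ∑ w', ∑ w : (B ×ₗ J) × ((B ×ₗ J) → A),
        (if blk w = β ∧ pw c s w = w' then lam w else 0) = _
      rw [sum_comm]
      refine sum_congr rfl fun w _ => ?_
      by_cases hb : blk w = β
      · simp only [hb, true_and, if_true]
        rw [sum_ite_eq]
        simp only [mem_univ, ↓reduceIte]
      · simp only [hb, false_and, ↓reduceIte, sum_const_zero]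
    rw [sum_congr rfl fun β _ => h1 β, sum_comm]
    refine sum_congr rfl fun w _ => ?_
    rw [sum_ite_eq]
    simp only [mem_univ, ↓reduceIte]
  have hfail : ∀ s, ∑ β, ∑ w', (if F s β w' then lam' s β w' else 0) =
      ∑ w : (B ×ₗ J) × ((B ×ₗ J) → A), if F s (blk w) (pw c s w) then lam w else 0 := by
    intro s
    have h1 : ∀ β, ∑ w', (if F s β w' then lam' s β w' else 0) =
        ∑ w : (B ×ₗ J) × ((B ×ₗ J) → A),
          if blk w = β then (if F s β (pw c s w) then lam w else 0) else 0 := by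
      intro β
      have h2 : ∀ w', (if F s β w' then lam' s β w' else 0) =
          ∑ w : (B ×ₗ J) × ((B ×ₗ J) → A),
            if pw c s w = w' then (if blk w = β then (if F s β w' then lam w else 0) else 0)
              else 0 := by
        intro w'
        by_cases hf : F s β w'
        · rw [if_pos hf]
          show ∑ w : (B ×ₗ J) × ((B ×ₗ J) → A),
            (if blk w = β ∧ pw c s w = w' then lam w else 0) = _
          refine sum_congr rfl fun w _ => ?_
          by_cases hb : blk w = β <;> by_cases hw : pw c s w = w' <;> simp [hb, hw, hf]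
        · rw [if_neg hf]
          symm
          refine sum_eq_zero fun w _ => ?_
          simp [hf]
      rw [sum_congr rfl fun w' _ => h2 w', sum_comm]
      refine sum_congr rfl fun w _ => ?_
      rw [sum_ite_eq]
      simp only [mem_univ, ↓reduceIte]
    rw [sum_congr rfl fun β _ => h1 β, sum_comm]
    refine sum_congr rfl fun w _ => ?_
    rw [sum_ite_eq]
    simp only [mem_univ, ↓reduceIte]
  refine le_trans (b := ∑ w : (B ×ₗ J) × ((B ×ₗ J) → A), ∑ s,
          if F s (blk w) (pw c s w) then lam w else 0) ?_ ?_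
  · refine sum_le_sum fun w _ => ?_
    have hnn : ∀ s ∈ (univ : Finset S), 0 ≤ if F s (blk w) (pw c s w) then lam w else 0 := by
      intro s _
      split_ifs
      · exact hlam w
      · exact le_rfl
    split_ifs with hbad
    · obtain ⟨s, hs⟩ : ∃ s, F s (blk w) (pw c s w) := by
        rcases hbad with ⟨⟨s, hs⟩, hno⟩ | ⟨⟨s, hs⟩, hno⟩
        · exact ⟨s, Or.inl ⟨hs, fun h' => hno ⟨s, h'⟩⟩⟩
        · exact ⟨s, Or.inr ⟨hs, fun h' => hno ⟨s, h'⟩⟩⟩
      have h1 := single_le_sum hnn (mem_univ s)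
      rw [if_pos hs] at h1
      exact h1
    · exact sum_nonneg hnn
  calc (∑ w : (B ×ₗ J) × ((B ×ₗ J) → A), ∑ s,
          if F s (blk w) (pw c s w) then lam w else 0)
    _ = ∑ s, ∑ β, ∑ w', (if F s β w' then lam' s β w' else 0) := by
        rw [sum_comm]
        exact sum_congr rfl fun s _ => (hfail s).symm
    _ ≤ ∑ s : S, ∑ β, δ * ∑ w', lam' s β w' :=
        sum_le_sum fun s _ => sum_le_sum fun β _ => hF s β
    _ = ∑ s : S, δ * ∑ w, lam w := by
        refine sum_congr rfl fun s _ => ?_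
        rw [← mul_sum, hmass s]
    _ = Fintype.card S * δ * ∑ w, lam w := by
        rw [sum_const, nsmul_eq_mul, card_univ]
        ring

end

end Vale.Agent.P126.CE
end
end
end

section

section

section

/-!
# P126, counterexample: monotonicity of interpolation
-/

namespace Vale.Agent.P126.CE

theorem Interp.mono {W X : Type} [Fintype W] {b bp : W → X → Prop} {δ δ' : ℝ} {K K' N N' : ℕ}
    (h : Interp b bp δ K N) (hδ : δ ≤ δ') (hK : K ≤ K') (hN : N ≤ N') :
    Interp b bp δ' K' N' := by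
  obtain ⟨P, Q, iP, iQ, ev, h1, h2, h3⟩ := h
  refine ⟨P, Q, iP, iQ, ev, h1.trans hN, h2.trans hK, fun lam h0 => ?_⟩
  obtain ⟨p, th, h4⟩ := h3 lam h0
  exact ⟨p, th, fun z => (h4 z).trans
    (mul_le_mul_of_nonneg_right hδ (Finset.sum_nonneg (fun w _ => h0 w)))⟩

end Vale.Agent.P126.CE
end
end
end

section

section

section

/-!
# P126, counterexample: the claim implies the combinatorial core
-/

namespace Vale.Agent.P126.CE

open Finset Classical

/-- The mass of the points `w` with `b w z`. -/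
noncomputable def mass {W X : Type} [Fintype W] (lam : W → ℝ) (b : W → X → Prop) (z : X) : ℝ :=
  ∑ w, if b w z then lam w else 0

theorem mass_nonneg {W X : Type} [Fintype W] (lam : W → ℝ) (h0 : ∀ w, 0 ≤ lam w)
    (b : W → X → Prop) (z : X) : 0 ≤ mass lam b z := by
  unfold mass
  refine Finset.sum_nonneg fun w _ => ?_
  split_ifs
  · exact h0 w
  · exact le_rfl

theorem mass_le {W X : Type} [Fintype W] (lam : W → ℝ) (h0 : ∀ w, 0 ≤ lam w)
    (b : W → X → Prop) (z : X) : mass lam b z ≤ ∑ w, lam w := by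
  unfold mass
  refine Finset.sum_le_sum fun w _ => ?_
  split_ifs
  · exact le_rfl
  · exact h0 w

theorem mass_le_add {W X : Type} [Fintype W] (lam : W → ℝ) (h0 : ∀ w, 0 ≤ lam w)
    (b b' c : W → X → Prop) (z : X) (h : ∀ w, b w z → b' w z ∨ c w z) :
    mass lam b z ≤ mass lam b' z + mass lam c z := by
  unfold mass
  rw [← Finset.sum_add_distrib]
  refine Finset.sum_le_sum fun w _ => ?_
  have := h0 w
  by_cases hb : b w z
  · rcases h w hb with h1 | h1
    · rw [if_pos hb, if_pos h1]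
      split_ifs <;> linarith
    · rw [if_pos hb, if_pos h1]
      split_ifs <;> linarith
  · rw [if_neg hb]
    split_ifs <;> linarith

/-- A finite class map for one interpolation. -/
theorem class_map {W X : Type} [Fintype W] {b bp : W → X → Prop} {δ : ℝ} {K N : ℕ}
    (h : Interp b bp δ K N) (hδ : 0 ≤ δ) (R : ℕ) (hR : 0 < R) :
    ∃ cl : (W → ℝ) → Fin (N * (R + 1) ^ K), ∀ lam mu : W → ℝ,
      (∀ w, 0 ≤ lam w) → (∀ w, 0 ≤ mu w) → ∑ w, lam w ≤ 1 → ∑ w, mu w ≤ 1 →
      cl lam = cl mu → ∀ z, ∃ g : ℝ,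
        mass lam b z - δ ≤ g + 1 / R ∧ g ≤ mass lam bp z + δ ∧
        mass mu b z - δ ≤ g + 1 / R ∧ g ≤ mass mu bp z + δ := by
  obtain ⟨P, Q, _, _, ev, hP, hQ, hI⟩ := h
  have hR' : (0 : ℝ) < R := by exact_mod_cast hR
  have hcard : Fintype.card (P × (Q → Fin (R + 1))) ≤ Fintype.card (Fin (N * (R + 1) ^ K)) := by
    rw [Fintype.card_prod, Fintype.card_fun, Fintype.card_fin, Fintype.card_fin]
    exact Nat.mul_le_mul hP (Nat.pow_le_pow_right (by omega) hQ)
  obtain ⟨em⟩ := Function.Embedding.nonempty_of_card_le hcard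
  have : Nonempty P := ⟨(hI (fun _ => 0) (fun _ => le_rfl)).choose⟩
  choose! p th hth using hI
  let G : (W → ℝ) → Q → ℝ := fun lam π => ∑ w, if th lam w π then lam w else 0
  let dat : (W → ℝ) → P × (Q → Fin (R + 1)) := fun lam =>
    (p lam, fun π => Fin.ofNat (R + 1) (⌊(R : ℝ) * G lam π⌋₊))
  have key : ∀ lam : W → ℝ, (∀ w, 0 ≤ lam w) → ∑ w, lam w ≤ 1 → ∀ z,
      mass lam b z - δ ≤ ((((dat lam).2 (ev (dat lam).1 z) : Fin (R + 1)) : ℕ) : ℝ) / R + 1 / R ∧
      ((((dat lam).2 (ev (dat lam).1 z) : Fin (R + 1)) : ℕ) : ℝ) / R ≤ mass lam bp z + δ := by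
    intro lam h0 h1 z
    have hs0 : 0 ≤ ∑ w, lam w := Finset.sum_nonneg fun w _ => h0 w
    have herr := hth lam h0 z
    have herr' : mass lam (fun w z => (b w z ∧ ¬ th lam w (ev (p lam) z)) ∨
        (th lam w (ev (p lam) z) ∧ ¬ bp w z)) z ≤ δ := by
      have h3 : δ * ∑ w, lam w ≤ δ := by nlinarith only [hδ, h1]
      refine le_trans (le_of_eq ?_) (le_trans herr h3)
      unfold mass
      exact Finset.sum_congr rfl fun w _ => by split_ifs <;> rfl
    have hG0 : 0 ≤ G lam (ev (p lam) z) :=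
      mass_nonneg (X := Q) lam h0 (fun w π => th lam w π) (ev (p lam) z)
    have hG1 : G lam (ev (p lam) z) ≤ 1 :=
      le_trans (mass_le (X := Q) lam h0 (fun w π => th lam w π) (ev (p lam) z)) h1
    have e1 : mass lam b z ≤ G lam (ev (p lam) z) + δ := by
      have := mass_le_add lam h0 b (fun w z => th lam w (ev (p lam) z))
        (fun w z => (b w z ∧ ¬ th lam w (ev (p lam) z)) ∨
          (th lam w (ev (p lam) z) ∧ ¬ bp w z)) z (by
          intro w hb
          by_cases ht : th lam w (ev (p lam) z)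
          · exact Or.inl ht
          · exact Or.inr (Or.inl ⟨hb, ht⟩))
      have h2 : mass lam (fun w z => th lam w (ev (p lam) z)) z = G lam (ev (p lam) z) := rfl
      rw [h2] at this
      linarith only [herr', this]
    have e2 : G lam (ev (p lam) z) ≤ mass lam bp z + δ := by
      have := mass_le_add lam h0 (fun w z => th lam w (ev (p lam) z)) bp
        (fun w z => (b w z ∧ ¬ th lam w (ev (p lam) z)) ∨
          (th lam w (ev (p lam) z) ∧ ¬ bp w z)) z (by
          intro w hb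
          by_cases ht : bp w z
          · exact Or.inl ht
          · exact Or.inr (Or.inr ⟨hb, ht⟩))
      have h2 : mass lam (fun w z => th lam w (ev (p lam) z)) z = G lam (ev (p lam) z) := rfl
      rw [h2] at this
      linarith only [herr', this]
    have hfl : ⌊(R : ℝ) * G lam (ev (p lam) z)⌋₊ ≤ R := by
      have : (R : ℝ) * G lam (ev (p lam) z) ≤ R := by nlinarith only [hG1]
      exact Nat.floor_le_of_le this
    have hval : ((((dat lam).2 (ev (dat lam).1 z) : Fin (R + 1)) : ℕ) : ℝ)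
        = (⌊(R : ℝ) * G lam (ev (p lam) z)⌋₊ : ℝ) := by
      have : (((dat lam).2 (ev (dat lam).1 z) : Fin (R + 1)) : ℕ)
          = ⌊(R : ℝ) * G lam (ev (p lam) z)⌋₊ % (R + 1) := rfl
      rw [this, Nat.mod_eq_of_lt (by omega)]
    rw [hval]
    have f1 : (⌊(R : ℝ) * G lam (ev (p lam) z)⌋₊ : ℝ) ≤ (R : ℝ) * G lam (ev (p lam) z) :=
      Nat.floor_le (by (clear * - hR hG0; positivity))
    have f2 : (R : ℝ) * G lam (ev (p lam) z) < (⌊(R : ℝ) * G lam (ev (p lam) z)⌋₊ : ℝ) + 1 :=
      Nat.lt_floor_add_one _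
    constructor
    · have : G lam (ev (p lam) z) ≤ (⌊(R : ℝ) * G lam (ev (p lam) z)⌋₊ : ℝ) / R + 1 / R := by
        rw [← add_div, le_div_iff₀ hR']
        linarith only [f2]
      linarith only [e1, this]
    · have : (⌊(R : ℝ) * G lam (ev (p lam) z)⌋₊ : ℝ) / R ≤ G lam (ev (p lam) z) := by
        rw [div_le_iff₀ hR']
        linarith only [f1]
      linarith only [e2, this]
  refine ⟨fun lam => em (dat lam), ?_⟩
  intro lam mu hl hm hl1 hm1 hcl z
  have hd : dat lam = dat mu := em.injective hcl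
  refine ⟨((((dat lam).2 (ev (dat lam).1 z) : Fin (R + 1)) : ℕ) : ℝ) / R,
    (key lam hl hl1 z).1, (key lam hl hl1 z).2, ?_, ?_⟩
  · rw [hd]; exact (key mu hm hm1 z).1
  · rw [hd]; exact (key mu hm hm1 z).2

/-- The number of classes of all the interpolations of a system is small. -/
theorem pow_card_lt (k m K N R β x : ℕ) (hN : 1 ≤ N) (hβ : β = 4 * (k + 1) * (m + 1))
    (h1 : N ^ β ≤ x) (h2 : ((R + 1) ^ K) ^ β < x) :
    ((N * (R + 1) ^ K) ^ k * (N * (R + 1) ^ K) ^ k) ^ m < x := by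
  have hR : 1 ≤ (R + 1) ^ K := Nat.one_le_pow _ _ (by omega)
  have hx : 0 < x := lt_of_le_of_lt (Nat.zero_le _) h2
  set y := ((N * (R + 1) ^ K) ^ k * (N * (R + 1) ^ K) ^ k) ^ m with hy
  have hy' : y = (N * (R + 1) ^ K) ^ (2 * k * m) := by
    rw [hy, ← pow_add, ← pow_mul]
    ring_nf
  have hle : 2 * (2 * k * m) ≤ β := by
    rw [hβ]
    nlinarith only []
  have h3 : y ^ 2 < x ^ 2 := by
    calc y ^ 2 = N ^ (2 * (2 * k * m)) * ((R + 1) ^ K) ^ (2 * (2 * k * m)) := by
          rw [hy', ← pow_mul, mul_pow]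
          ring_nf
      _ ≤ N ^ β * ((R + 1) ^ K) ^ β :=
          Nat.mul_le_mul (Nat.pow_le_pow_right hN hle) (Nat.pow_le_pow_right hR hle)
      _ ≤ x * ((R + 1) ^ K) ^ β := Nat.mul_le_mul_right _ h1
      _ < x * x := Nat.mul_lt_mul_of_pos_left h2 hx
      _ = x ^ 2 := by ring
  exact lt_of_pow_lt_pow_left₀ 2 (Nat.zero_le _) h3

/-- The class map of a system for nonnegative weights. -/
theorem class_pos {I A : Type} [Fintype I] [LinearOrder I] [Fintype A] {k K N : ℕ}
    (s : Sys k I A (1 / ((4 * k + 4 : ℕ) : ℝ)) K N) :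
    ∃ cl : (I × (I → A) → ℝ) → (Fin k → Fin (N * (2 * k + 1 + 1) ^ K)),
      ∀ lam mu : I × (I → A) → ℝ,
        (∀ w, 0 ≤ lam w) → (∀ w, 0 ≤ mu w) → ∑ w, lam w ≤ 1 → ∑ w, mu w ≤ 1 →
        cl lam = cl mu → ∀ z,
          (∑ j ∈ range (k + 1), mass lam (s.b j) z) - ∑ j ∈ range (k + 1), mass mu (s.b j) z
            ≤ 2 := by
  have hδ : (0 : ℝ) ≤ 1 / ((4 * k + 4 : ℕ) : ℝ) := by positivity
  have hcm := fun j : Fin k => class_map (s.interp j j.2) hδ (2 * k + 1) (by omega)
  choose cl hcl using hcm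
  refine ⟨fun lam j => cl j lam, ?_⟩
  intro lam mu hl hm hl1 hm1 hc z
  have hk : ∀ j ∈ range k, mass lam (s.b (j + 1)) z - mass mu (s.b j) z
      ≤ 2 * (1 / ((4 * k + 4 : ℕ) : ℝ)) + 1 / ((2 * k + 1 : ℕ) : ℝ) := by
    intro j hj
    have hj' : j < k := Finset.mem_range.mp hj
    obtain ⟨g, h1, _, _, h4⟩ := hcl ⟨j, hj'⟩ lam mu hl hm hl1 hm1 (congrFun hc ⟨j, hj'⟩) z
    simp only at h1 h4
    linarith only [h1, h4]
  have hsum := Finset.sum_le_sum hk
  rw [Finset.sum_sub_distrib, Finset.sum_const, Finset.card_range, nsmul_eq_mul] at hsum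
  rw [Finset.sum_range_succ' (fun j => mass lam (s.b j) z),
    Finset.sum_range_succ (fun j => mass mu (s.b j) z)]
  have h0 : mass lam (s.b 0) z ≤ 1 := le_trans (mass_le lam hl _ z) hl1
  have hkk : 0 ≤ mass mu (s.b k) z := mass_nonneg mu hm _ z
  have hb : (k : ℝ) * (2 * (1 / ((4 * k + 4 : ℕ) : ℝ)) + 1 / ((2 * k + 1 : ℕ) : ℝ)) ≤ 1 := by
    have hk0 : (0 : ℝ) ≤ k := Nat.cast_nonneg k
    have e1 : (k : ℝ) * (2 * (1 / ((4 * k + 4 : ℕ) : ℝ))) ≤ 1 / 2 := by
      rw [mul_one_div, mul_div_assoc', div_le_div_iff₀ (by positivity) (by norm_num)]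
      push_cast
      linarith only []
    have e2 : (k : ℝ) * (1 / ((2 * k + 1 : ℕ) : ℝ)) ≤ 1 / 2 := by
      rw [mul_one_div, div_le_div_iff₀ (by positivity) (by norm_num)]
      push_cast
      linarith only []
    rw [mul_add]
    linarith only [e1, e2]
  linarith only [hsum, h0, hkk, hb]

theorem all_of_top {I A : Type} [Fintype I] [LinearOrder I] [Fintype A] {k K N : ℕ} {δ : ℝ}
    (s : Sys k I A δ K N) (w : I × (I → A)) (z : I → A) (h : top w z) :
    ∀ d ≤ k, s.b (k - d) w z := by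
  intro d
  induction d with
  | zero =>
    intro _
    exact (s.top_iff w z).2 h
  | succ d ih =>
    intro hd
    have h1 := ih (by omega)
    have h2 : k - d = (k - (d + 1)) + 1 := by omega
    rw [h2] at h1
    exact s.mono _ (by omega) w z h1

/-- T4: the claim implies the combinatorial core. -/
theorem core_of_claim (h : ∀ k, Claim k) : Core := by
  intro κ m
  set k := κ with hkdef
  obtain ⟨I, _, _, _, K, Q0, hI⟩ := h k (4 * k + 4) (4 * (k + 1) * (m + 1)) (by omega) (by positivity)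
  obtain ⟨A, _, N, hAQ, hN, hNβ, ⟨s⟩⟩ := hI
    (max Q0 (((2 * k + 1 + 1) ^ K) ^ (4 * (k + 1) * (m + 1)) + 1)) (le_max_left _ _)
  have hA1 : ((2 * k + 1 + 1) ^ K) ^ (4 * (k + 1) * (m + 1)) < Fintype.card A := by
    have := le_trans (le_max_right Q0 _) hAQ
    omega
  have hA0 : 0 < Fintype.card A := by omega
  have hX : Fintype.card A ≤ Fintype.card A ^ Fintype.card I :=
    Nat.le_self_pow (Fintype.card_pos.ne') _
  have hAne : Nonempty A := Fintype.card_pos_iff.1 hA0
  obtain ⟨cl, hcl⟩ := class_pos s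
  -- the class map on signed weights
  let Cl := (Fin k → Fin (N * (2 * k + 1 + 1) ^ K)) × (Fin k → Fin (N * (2 * k + 1 + 1) ^ K))
  let pos : (I × (I → A) → ℝ) → (I × (I → A) → ℝ) := fun lam w => max (lam w) 0
  let neg : (I × (I → A) → ℝ) → (I × (I → A) → ℝ) := fun lam w => max (-lam w) 0
  let f : I × (I → A) → (I → A) → ℝ := fun w z => ∑ j ∈ range (k + 1), if s.b j w z then 1 else 0
  have hmass : ∀ (lam : I × (I → A) → ℝ) (z : I → A),
      ∑ w, lam w * f w z = ∑ j ∈ range (k + 1), mass lam (s.b j) z := by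
    intro lam z
    simp only [f, mass, Finset.mul_sum]
    rw [Finset.sum_comm]
    refine Finset.sum_congr rfl fun j _ => Finset.sum_congr rfl fun w _ => ?_
    split_ifs <;> simp
  have hpn : ∀ lam : I × (I → A) → ℝ, ∀ w, lam w = pos lam w - neg lam w := by
    intro lam w
    simp only [pos, neg]
    rcases le_total (lam w) 0 with h | h
    · rw [max_eq_right h, max_eq_left (by linarith only [h])]; ring
    · rw [max_eq_left h, max_eq_right (by linarith only [h])]; ring
  have hp0 : ∀ lam : I × (I → A) → ℝ, ∀ w, 0 ≤ pos lam w := fun lam w => le_max_right _ _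
  have hn0 : ∀ lam : I × (I → A) → ℝ, ∀ w, 0 ≤ neg lam w := fun lam w => le_max_right _ _
  have hp1 : ∀ lam : I × (I → A) → ℝ, ∑ w, |lam w| ≤ 1 → ∑ w, pos lam w ≤ 1 := by
    intro lam h
    refine le_trans (Finset.sum_le_sum fun w _ => ?_) h
    exact max_le (le_abs_self _) (abs_nonneg _)
  have hn1 : ∀ lam : I × (I → A) → ℝ, ∑ w, |lam w| ≤ 1 → ∑ w, neg lam w ≤ 1 := by
    intro lam h
    refine le_trans (Finset.sum_le_sum fun w _ => ?_) h
    exact max_le (neg_le_abs _) (abs_nonneg _)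
  let eW := Fintype.equivFin (I × (I → A))
  let eX := Fintype.equivFin (I → A)
  let eC := Fintype.equivFin Cl
  refine ⟨Fintype.card (I × (I → A)), Fintype.card (I → A), Fintype.card Cl,
    fun w x => f (eW.symm w) (eX.symm x),
    fun lam => eC (cl (pos fun w => lam (eW w)), cl (neg fun w => lam (eW w))), ?_, ?_, ?_, ?_⟩
  · exact Fintype.card_pos
  · intro x y hxy
    have hne : eX.symm x ≠ eX.symm y := fun h => hxy (eX.symm.injective h)
    set x' := eX.symm x
    set y' := eX.symm y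
    have hS : (univ.filter (fun i => x' i ≠ y' i)).Nonempty := by
      obtain ⟨i, hi⟩ := Function.ne_iff.1 hne
      exact ⟨i, by simpa using hi⟩
    set i := (univ.filter (fun i => x' i ≠ y' i)).min' hS with hidef
    have hi : x' i ≠ y' i := by
      have := Finset.min'_mem _ hS
      simpa using this
    have hlt : ∀ i' < i, x' i' = y' i' := by
      intro i' hi'
      by_contra hcon
      have : i ≤ i' := Finset.min'_le _ _ (by simpa using hcon)
      exact absurd hi' (not_lt.2 this)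
    refine ⟨eW (i, x'), ?_⟩
    simp only [Equiv.symm_apply_apply]
    have h1 : f (i, x') x' = 0 := by
      simp only [f]
      refine Finset.sum_eq_zero fun j hj => ?_
      rw [if_neg]
      intro hb
      exact s.diff j (by simpa using Nat.lt_succ_iff.1 (Finset.mem_range.1 hj)) (i, x') x' hb rfl
    have h2 : f (i, x') y' = k + 1 := by
      simp only [f]
      have : ∀ j ∈ range (k + 1), (if s.b j (i, x') y' then (1 : ℝ) else 0) = 1 := by
        intro j hj
        rw [if_pos]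
        have hj' : j ≤ k := Nat.lt_succ_iff.1 (Finset.mem_range.1 hj)
        have := all_of_top s (i, x') y' ⟨hlt, hi⟩ (k - j) (by omega)
        rwa [show k - (k - j) = j by omega] at this
      rw [Finset.sum_congr rfl this]
      simp only [sum_const, card_range, nsmul_eq_mul, Nat.cast_add, Nat.cast_one, mul_one]
    change (κ : ℝ) ≤ |f (i, x') x' - f (i, x') y'|
    rw [h1, h2, zero_sub, abs_neg, abs_of_nonneg (by (clear * -; positivity))]
    linarith only []
  · intro lam mu hl hm hc x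
    have hc' := eC.injective hc
    have hc1 := (Prod.mk.inj hc').1
    have hc2 := (Prod.mk.inj hc').2
    set lam' : I × (I → A) → ℝ := fun w => lam (eW w) with hlam'
    set mu' : I × (I → A) → ℝ := fun w => mu (eW w) with hmu'
    have hl' : ∑ w, |lam' w| ≤ 1 := by
      have : ∑ w, |lam' w| = ∑ w, |lam w| := eW.sum_comp (fun w => |lam w|)
      rw [this]; exact hl
    have hm' : ∑ w, |mu' w| ≤ 1 := by
      have : ∑ w, |mu' w| = ∑ w, |mu w| := eW.sum_comp (fun w => |mu w|)
      rw [this]; exact hm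
    set z := eX.symm x
    have hsum : ∑ w, (lam w - mu w) * f (eW.symm w) z = ∑ w, (lam' w - mu' w) * f w z := by
      rw [← eW.sum_comp]
      refine Finset.sum_congr rfl fun w _ => ?_
      simp [hlam', hmu']
    have hsplit : ∑ w, (lam' w - mu' w) * f w z
        = ((∑ w, pos lam' w * f w z) - ∑ w, pos mu' w * f w z)
          - ((∑ w, neg lam' w * f w z) - ∑ w, neg mu' w * f w z) := by
      rw [← Finset.sum_sub_distrib, ← Finset.sum_sub_distrib, ← Finset.sum_sub_distrib]
      refine Finset.sum_congr rfl fun w _ => ?_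
      rw [hpn lam' w, hpn mu' w]
      ring
    change |∑ w, (lam w - mu w) * f (eW.symm w) z| ≤ 4
    rw [hsum, hsplit, hmass, hmass, hmass, hmass]
    have a1 := hcl (pos lam') (pos mu') (hp0 _) (hp0 _) (hp1 _ hl') (hp1 _ hm') hc1 z
    have a2 := hcl (pos mu') (pos lam') (hp0 _) (hp0 _) (hp1 _ hm') (hp1 _ hl') hc1.symm z
    have a3 := hcl (neg lam') (neg mu') (hn0 _) (hn0 _) (hn1 _ hl') (hn1 _ hm') hc2 z
    have a4 := hcl (neg mu') (neg lam') (hn0 _) (hn0 _) (hn1 _ hm') (hn1 _ hl') hc2.symm z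
    rw [abs_le]
    constructor <;> linarith only [a1, a4, a2, a3]
  · have hcard : Fintype.card Cl
        = (N * (2 * k + 1 + 1) ^ K) ^ k * (N * (2 * k + 1 + 1) ^ K) ^ k := by
      simp only [Cl, Fintype.card_prod, Fintype.card_fun, Fintype.card_fin]
    rw [hcard, Fintype.card_fun]
    exact pow_card_lt k m K N (2 * k + 1) _ _ hN rfl hNβ (lt_of_lt_of_le hA1 hX)

end Vale.Agent.P126.CE
end
end
end

section

section

section

/-!
# P126: the exponential tilt lemma (finite, combinatorial core)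

`F` is a convex set of functions on a finite set `ι`.  A prior is a strictly positive
probability vector on `ι`.  For a prior `ν`, a point `x` and a tolerance `δ`,
`Bd F δ ν x D` says that `β (f x - δ) - log ∑ ν e^{β f} ≤ D` for all `β ≥ 0`, `f ∈ F`.
-/

open Finset Real

namespace Vale.Agent.P126

variable {ι : Type*} [Fintype ι]

/-- partition function -/
noncomputable def Zf (ν h : ι → ℝ) : ℝ := ∑ i, ν i * Real.exp (h i)

/-- potential bound -/
def Bd (F : Set (ι → ℝ)) (δ : ℝ) (ν : ι → ℝ) (x : ι) (D : ℝ) : Prop :=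
  ∀ β : ℝ, 0 ≤ β → ∀ f ∈ F, β * (f x - δ) - Real.log (Zf ν (β • f)) ≤ D

/-- prior -/
def IsPrior (ν : ι → ℝ) : Prop := (∀ i, 0 < ν i) ∧ ∑ i, ν i = 1

/-- exponential tilt -/
noncomputable def tilt (ν h : ι → ℝ) : ι → ℝ := fun i => ν i * Real.exp (h i) / Zf ν h

theorem Zf_pos [Nonempty ι] {ν : ι → ℝ} (hν : ∀ i, 0 < ν i) (h : ι → ℝ) : 0 < Zf ν h := by
  unfold Zf
  exact Finset.sum_pos (fun i _ => mul_pos (hν i) (Real.exp_pos _)) Finset.univ_nonempty

theorem tilt_isPrior [Nonempty ι] {ν : ι → ℝ} (hν : IsPrior ν) (h : ι → ℝ) :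
    IsPrior (tilt ν h) := by
  have hZ := Zf_pos hν.1 h
  refine ⟨fun i => div_pos (mul_pos (hν.1 i) (Real.exp_pos _)) hZ, ?_⟩
  unfold tilt
  rw [← Finset.sum_div]
  exact div_self (ne_of_gt hZ)

theorem Zf_tilt [Nonempty ι] {ν : ι → ℝ} (hν : ∀ i, 0 < ν i) (h k : ι → ℝ) :
    Zf (tilt ν h) k = Zf ν (h + k) / Zf ν h := by
  unfold tilt
  simp only [Zf, Pi.add_apply, Real.exp_add]
  rw [Finset.sum_div]
  refine Finset.sum_congr rfl fun i _ => ?_
  ring

theorem Zf_zero {ν : ι → ℝ} (hν : IsPrior ν) : Zf ν 0 = 1 := by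
  simp only [Zf, Pi.zero_apply, exp_zero, mul_one, hν.2]

theorem Bd_mono {F : Set (ι → ℝ)} {δ δ' : ℝ} {ν : ι → ℝ} {x : ι} {D D' : ℝ}
    (h : Bd F δ ν x D) (hδ : δ ≤ δ') (hD : D ≤ D') : Bd F δ' ν x D' := by
  intro β hβ f hf
  have := h β hβ f hf
  have h2 : β * (f x - δ') ≤ β * (f x - δ) := mul_le_mul_of_nonneg_left (by linarith) hβ
  linarith only [hD, this, h2]

/-- The key inequality. -/
theorem Bd_tilt [Nonempty ι] {F : Set (ι → ℝ)} (hF : Convex ℝ F) {δ : ℝ} {ν : ι → ℝ}
    (hν : IsPrior ν) {x : ι} {D : ℝ} (h : Bd F δ ν x D) {g : ι → ℝ} (hg : g ∈ F) {β : ℝ}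
    (hβ : 0 ≤ β) :
    Bd F δ (tilt ν (β • g)) x (D - (β * (g x - δ) - Real.log (Zf ν (β • g)))) := by
  intro β' hβ' f hf
  rw [Zf_tilt hν.1, Real.log_div (ne_of_gt (Zf_pos hν.1 _)) (ne_of_gt (Zf_pos hν.1 _))]
  rcases eq_or_lt_of_le (add_nonneg hβ hβ') with h0 | hpos
  · have hβ0 : β = 0 := by linarith
    have hβ0' : β' = 0 := by linarith only [hβ', hβ, h0]
    subst hβ0; subst hβ0'
    have := h 0 le_rfl f hf
    simp only [zero_smul, zero_mul, add_zero, Zf_zero hν, Real.log_one] at *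
    linarith
  · set s := β + β' with hs
    have hmem : (β / s) • g + (β' / s) • f ∈ F := by
      apply hF hg hf (div_nonneg hβ hpos.le) (div_nonneg hβ' hpos.le)
      rw [← add_div, ← hs, div_self (ne_of_gt hpos)]
    have hB := h s hpos.le _ hmem
    have e1 : s • ((β / s) • g + (β' / s) • f) = β • g + β' • f := by
      rw [smul_add, smul_smul, smul_smul, mul_div_cancel₀ _ (ne_of_gt hpos),
        mul_div_cancel₀ _ (ne_of_gt hpos)]
    rw [e1] at hB
    have e2 : s * (((β / s) • g + (β' / s) • f) x - δ) = β * (g x - δ) + β' * (f x - δ) := by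
      have hs0 : s ≠ 0 := ne_of_gt hpos
      simp only [Pi.add_apply, Pi.smul_apply, smul_eq_mul]
      field_simp
      rw [hs]; ring
    rw [e2] at hB
    linarith only [hB]

/-- monotonicity of the partition function under a uniform shift -/
theorem log_Zf_le [Nonempty ι] {ν : ι → ℝ} (hν : IsPrior ν) {f g : ι → ℝ} {β ε : ℝ}
    (hβ : 0 ≤ β) (hfg : ∀ i, |g i - f i| ≤ ε) :
    Real.log (Zf ν (β • g)) ≤ β * ε + Real.log (Zf ν (β • f)) := by
  have hZ := Zf_pos hν.1 (β • f)
  have hle : Zf ν (β • g) ≤ Real.exp (β * ε) * Zf ν (β • f) := by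
    unfold Zf
    rw [Finset.mul_sum]
    refine Finset.sum_le_sum fun i _ => ?_
    have h1 : (β • g) i ≤ β * ε + (β • f) i := by
      have := (abs_le.1 (hfg i)).2
      simp only [Pi.smul_apply, smul_eq_mul]
      nlinarith
    calc ν i * Real.exp ((β • g) i) ≤ ν i * Real.exp (β * ε + (β • f) i) :=
          mul_le_mul_of_nonneg_left (Real.exp_le_exp.2 h1) (hν.1 i).le
      _ = Real.exp (β * ε) * (ν i * Real.exp ((β • f) i)) := by
          rw [Real.exp_add]; ring
  calc Real.log (Zf ν (β • g)) ≤ Real.log (Real.exp (β * ε) * Zf ν (β • f)) :=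
        Real.log_le_log (Zf_pos hν.1 _) hle
    _ = β * ε + Real.log (Zf ν (β • f)) := by
        rw [Real.log_mul (Real.exp_ne_zero _) (ne_of_gt hZ), Real.log_exp]

/-- uniform prior -/
noncomputable def unif (ι : Type*) [Fintype ι] : ι → ℝ := fun _ => 1 / (Fintype.card ι : ℝ)

theorem unif_isPrior [Nonempty ι] : IsPrior (unif ι) := by
  have h : (0 : ℝ) < Fintype.card ι := by exact_mod_cast Fintype.card_pos
  refine ⟨fun i => by unfold unif; positivity, ?_⟩
  simp only [unif, Finset.sum_const, Finset.card_univ, nsmul_eq_mul]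
  field_simp

theorem Bd_unif [Nonempty ι] (F : Set (ι → ℝ)) (x : ι) :
    Bd F 0 (unif ι) x (Real.log (Fintype.card ι)) := by
  intro β hβ f hf
  have h : (0 : ℝ) < Fintype.card ι := by exact_mod_cast Fintype.card_pos
  have h1 : 1 / (Fintype.card ι : ℝ) * Real.exp (β * f x) ≤ Zf (unif ι) (β • f) := by
    have : unif ι x * Real.exp ((β • f) x) ≤ Zf (unif ι) (β • f) := by
      unfold Zf
      exact Finset.single_le_sum
        (f := fun i => unif ι i * Real.exp ((β • f) i))
        (fun i _ => mul_nonneg (unif_isPrior.1 i).le (Real.exp_pos _).le) (Finset.mem_univ x)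
    simpa only [one_div, ge_iff_le, unif, Pi.smul_apply, smul_eq_mul] using this
  have h2 : Real.log (1 / (Fintype.card ι : ℝ) * Real.exp (β * f x)) ≤
      Real.log (Zf (unif ι) (β • f)) := Real.log_le_log (by positivity) h1
  rw [Real.log_mul (by positivity) (Real.exp_ne_zero _), Real.log_exp, one_div,
    Real.log_inv] at h2
  simp only [sub_zero]
  linarith only [h2]

/-- one step: enlarge the family of priors by the tilts -/
theorem family_step [Nonempty ι] [DecidableEq (ι → ℝ)] {F : Set (ι → ℝ)} (hF : Convex ℝ F)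
    {G : Finset (ι → ℝ)} (hGF : ∀ g ∈ G, g ∈ F) {ε : ℝ}
    (hG : ∀ f ∈ F, ∃ g ∈ G, ∀ i, |g i - f i| ≤ ε)
    {V : Finset ℝ} (hV : ∀ g ∈ G, ∀ i, ∃ v ∈ V, v ≤ g i ∧ g i ≤ v + ε)
    (s₀ δ : ℝ) (N : Finset (ι → ℝ)) (hN : ∀ ν ∈ N, IsPrior ν) :
    ∃ N' : Finset (ι → ℝ), (∀ ν ∈ N', IsPrior ν) ∧ N ⊆ N' ∧
      N'.card ≤ N.card * (1 + G.card * V.card) ∧
      ∀ ν ∈ N, ∀ x : ι, ∀ D : ℝ, Bd F δ ν x D →
        Bd F (δ + 3 * ε) ν x s₀ ∨ ∃ ν' ∈ N', Bd F δ ν' x (D - s₀) := by
  classical
  -- the decoder's choice of the inverse temperature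
  let P : (ι → ℝ) → (ι → ℝ) → ℝ → ℝ → Prop := fun ν g v β =>
    0 ≤ β ∧ s₀ < β * (v - δ) - Real.log (Zf ν (β • g))
  let b : (ι → ℝ) → (ι → ℝ) → ℝ → ℝ := fun ν g v =>
    if h : ∃ β, P ν g v β then h.choose else 0
  let T : (ι → ℝ) → Finset (ι → ℝ) := fun ν =>
    insert ν ((G ×ˢ V).image fun p => tilt ν (b ν p.1 p.2 • p.1))
  refine ⟨N.biUnion T, ?_, ?_, ?_, ?_⟩
  · intro ν hν
    rw [Finset.mem_biUnion] at hν
    obtain ⟨μ, hμ, hν⟩ := hν
    rcases Finset.mem_insert.1 hν with rfl | hν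
    · exact hN _ hμ
    · obtain ⟨p, _, rfl⟩ := Finset.mem_image.1 hν
      exact tilt_isPrior (hN _ hμ) _
  · intro ν hν
    exact Finset.mem_biUnion.2 ⟨ν, hν, Finset.mem_insert_self _ _⟩
  · refine Finset.card_biUnion_le_card_mul _ _ _ fun ν _ => ?_
    calc (T ν).card ≤ ((G ×ˢ V).image fun p => tilt ν (b ν p.1 p.2 • p.1)).card + 1 :=
          Finset.card_insert_le _ _
      _ ≤ (G ×ˢ V).card + 1 := by gcongr; exact Finset.card_image_le
      _ = 1 + G.card * V.card := by rw [Finset.card_product]; ring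
  · intro ν hν x D hBd
    by_cases hcase : Bd F (δ + 3 * ε) ν x s₀
    · exact Or.inl hcase
    right
    unfold Bd at hcase
    push Not at hcase
    obtain ⟨β, hβ, f, hf, hgt⟩ := hcase
    obtain ⟨g, hgG, hgf⟩ := hG f hf
    obtain ⟨v, hvV, hv1, hv2⟩ := hV g hgG x
    have hex : ∃ β, P ν g v β := by
      refine ⟨β, hβ, ?_⟩
      have h1 := log_Zf_le (hN _ hν) hβ hgf
      have h2 := (abs_le.1 (hgf x)).1
      have h3 : β * (f x - (δ + 3 * ε)) ≤ β * (v - δ) - β * ε := by nlinarith only [hβ, hv2, h2]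
      linarith
    have hb : P ν g v (b ν g v) := by
      have : b ν g v = hex.choose := by simp only [b, dif_pos hex]
      rw [this]
      exact hex.choose_spec
    refine ⟨tilt ν (b ν g v • g), ?_, ?_⟩
    · refine Finset.mem_biUnion.2 ⟨ν, hν, Finset.mem_insert_of_mem ?_⟩
      exact Finset.mem_image.2 ⟨(g, v), Finset.mem_product.2 ⟨hgG, hvV⟩, rfl⟩
    · refine Bd_mono (Bd_tilt hF (hN _ hν) hBd (hGF g hgG) hb.1) le_rfl ?_
      have h4 : b ν g v * (v - δ) ≤ b ν g v * (g x - δ) :=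
        mul_le_mul_of_nonneg_left (by linarith) hb.1
      have := hb.2
      linarith

/-- one level: `m` steps at tolerance `δ`. -/
theorem family_level [Nonempty ι] {F : Set (ι → ℝ)} (hF : Convex ℝ F)
    {G : Finset (ι → ℝ)} (hGF : ∀ g ∈ G, g ∈ F) {ε : ℝ} (hε : 0 ≤ ε)
    (hG : ∀ f ∈ F, ∃ g ∈ G, ∀ i, |g i - f i| ≤ ε)
    {V : Finset ℝ} (hV : ∀ g ∈ G, ∀ i, ∃ v ∈ V, v ≤ g i ∧ g i ≤ v + ε)
    {m : ℕ} (hm : 0 < m) {D : ℝ} (hD : 0 ≤ D) (δ : ℝ)
    (N : Finset (ι → ℝ)) (hN : ∀ ν ∈ N, IsPrior ν)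
    (hcov : ∀ x : ι, ∃ ν ∈ N, Bd F δ ν x D) :
    ∃ N' : Finset (ι → ℝ), (∀ ν ∈ N', IsPrior ν) ∧
      N'.card ≤ N.card * (1 + G.card * V.card) ^ m ∧
      ∀ x : ι, ∃ ν ∈ N', Bd F (δ + 3 * ε) ν x (D / m) := by
  classical
  have key : ∀ k : ℕ, ∃ N' : Finset (ι → ℝ), (∀ ν ∈ N', IsPrior ν) ∧
      N'.card ≤ N.card * (1 + G.card * V.card) ^ k ∧
      ∀ x : ι, ∃ ν ∈ N', Bd F δ ν x (D - k * (D / m)) ∨ Bd F (δ + 3 * ε) ν x (D / m) := by
    intro k
    induction k with
    | zero =>
      refine ⟨N, hN, by simp, fun x => ?_⟩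
      obtain ⟨ν, hν, h⟩ := hcov x
      exact ⟨ν, hν, Or.inl (by simpa using h)⟩
    | succ k ih =>
      obtain ⟨N₁, h1, h2, h3⟩ := ih
      obtain ⟨N₂, g1, g2, g3, g4⟩ := family_step hF hGF hG hV (D / m) δ N₁ h1
      refine ⟨N₂, g1, ?_, fun x => ?_⟩
      · calc N₂.card ≤ N₁.card * (1 + G.card * V.card) := g3
          _ ≤ (N.card * (1 + G.card * V.card) ^ k) * (1 + G.card * V.card) := by (clear * - h2; gcongr)
          _ = N.card * (1 + G.card * V.card) ^ (k + 1) := by ring
      · obtain ⟨ν, hν, h | h⟩ := h3 x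
        · rcases g4 ν hν x _ h with h' | ⟨ν', hν', h'⟩
          · exact ⟨ν, g2 hν, Or.inr h'⟩
          · refine ⟨ν', hν', Or.inl ?_⟩
            push_cast
            have e : D - k * (D / m) - D / m = D - (k + 1) * (D / m) := by ring
            rwa [e] at h'
        · exact ⟨ν, g2 hν, Or.inr h⟩
  obtain ⟨N', h1, h2, h3⟩ := key m
  refine ⟨N', h1, h2, fun x => ?_⟩
  obtain ⟨ν, hν, h | h⟩ := h3 x
  · refine ⟨ν, hν, Bd_mono h (by linarith only [hε]) ?_⟩
    have hm' : (0 : ℝ) < m := by exact_mod_cast hm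
    have : D - m * (D / m) = 0 := by field_simp; ring
    rw [this]
    (clear * - hD hm; positivity)
  · exact ⟨ν, hν, h⟩

/-- all `J` levels. -/
theorem family_all [Nonempty ι] {F : Set (ι → ℝ)} (hF : Convex ℝ F)
    {G : Finset (ι → ℝ)} (hGF : ∀ g ∈ G, g ∈ F) {ε : ℝ} (hε : 0 ≤ ε)
    (hG : ∀ f ∈ F, ∃ g ∈ G, ∀ i, |g i - f i| ≤ ε)
    {V : Finset ℝ} (hV : ∀ g ∈ G, ∀ i, ∃ v ∈ V, v ≤ g i ∧ g i ≤ v + ε)
    {m : ℕ} (hm : 0 < m) (J : ℕ) :
    ∃ N' : Finset (ι → ℝ), (∀ ν ∈ N', IsPrior ν) ∧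
      N'.card ≤ (1 + G.card * V.card) ^ (m * J) ∧
      ∀ x : ι, ∃ ν ∈ N', Bd F (3 * ε * J) ν x (Real.log (Fintype.card ι) / (m : ℝ) ^ J) := by
  classical
  induction J with
  | zero =>
    refine ⟨{unif ι}, ?_, by simp, fun x => ⟨unif ι, by simp, ?_⟩⟩
    · intro ν hν
      rw [Finset.mem_singleton] at hν
      rw [hν]; exact unif_isPrior
    · simpa only [CharP.cast_eq_zero, mul_zero, pow_zero, div_one] using Bd_unif F x
  | succ J ih =>
    obtain ⟨N₁, h1, h2, h3⟩ := ih
    have hD : 0 ≤ Real.log (Fintype.card ι) / (m : ℝ) ^ J := by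
      apply div_nonneg (Real.log_natCast_nonneg _) (by positivity)
    obtain ⟨N₂, g1, g2, g3⟩ := family_level hF hGF hε hG hV hm hD (3 * ε * J) N₁ h1 h3
    refine ⟨N₂, g1, ?_, fun x => ?_⟩
    · calc N₂.card ≤ N₁.card * (1 + G.card * V.card) ^ m := g2
        _ ≤ (1 + G.card * V.card) ^ (m * J) * (1 + G.card * V.card) ^ m := by (clear * - h2; gcongr)
        _ = (1 + G.card * V.card) ^ (m * (J + 1)) := by rw [← pow_add]; ring_nf
    · obtain ⟨ν, hν, h⟩ := g3 x
      refine ⟨ν, hν, Bd_mono h (by push_cast; linarith only []) ?_⟩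
      rw [div_div, pow_succ]

/-- `log ∑ ν e^{βf} ≤ β ν(f) + 16 β²` when `|f| ≤ 4`, `0 ≤ β ≤ 1/4`. -/
theorem log_Zf_le_mean [Nonempty ι] {ν : ι → ℝ} (hν : IsPrior ν) {f : ι → ℝ}
    (hf : ∀ i, |f i| ≤ 4) {β : ℝ} (hβ : 0 ≤ β) (hβ' : β ≤ 1 / 4) :
    Real.log (Zf ν (β • f)) ≤ β * (∑ i, ν i * f i) + 16 * β ^ 2 := by
  have hZ := Zf_pos hν.1 (β • f)
  have h1 : Zf ν (β • f) ≤ 1 + (β * (∑ i, ν i * f i) + 16 * β ^ 2) := by
    have h2 : ∀ i, ν i * Real.exp ((β • f) i) ≤ ν i + β * (ν i * f i) + ν i * (16 * β ^ 2) := by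
      intro i
      have hu : |β * f i| ≤ 1 := by
        rw [abs_mul, abs_of_nonneg hβ]
        have := hf i
        have h4 : β * |f i| ≤ 1 / 4 * 4 := mul_le_mul hβ' this (abs_nonneg _) (by norm_num)
        linarith only [h4]
      have h3 : Real.exp (β * f i) ≤ 1 + β * f i + (β * f i) ^ 2 := by
        have := Real.abs_exp_sub_one_sub_id_le hu
        have := (abs_le.1 this).2
        linarith only [this]
      have h4 : (β * f i) ^ 2 ≤ 16 * β ^ 2 := by
        have : (f i) ^ 2 ≤ 16 := by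
          have := hf i
          have h5 := sq_abs (f i)
          nlinarith only [this, h5, abs_nonneg (f i)]
        nlinarith only [this]
      have h5 : Real.exp ((β • f) i) ≤ 1 + β * f i + 16 * β ^ 2 := by
        simp only [Pi.smul_apply, smul_eq_mul]; linarith only [h3, h4]
      have := mul_le_mul_of_nonneg_left h5 (hν.1 i).le
      calc ν i * Real.exp ((β • f) i) ≤ ν i * (1 + β * f i + 16 * β ^ 2) := this
        _ = _ := by ring
    calc Zf ν (β • f) ≤ ∑ i, (ν i + β * (ν i * f i) + ν i * (16 * β ^ 2)) := by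
          unfold Zf; exact Finset.sum_le_sum fun i _ => h2 i
      _ = 1 + (β * (∑ i, ν i * f i) + 16 * β ^ 2) := by
          rw [Finset.sum_add_distrib, Finset.sum_add_distrib, ← Finset.mul_sum,
            ← Finset.sum_mul, hν.2]; ring
  calc Real.log (Zf ν (β • f)) ≤ Zf ν (β • f) - 1 := Real.log_le_sub_one_of_pos hZ
    _ ≤ _ := by linarith only [h1]

/-- A small potential determines the point. -/
theorem mean_close [Nonempty ι] {F : Set (ι → ℝ)} {ν : ι → ℝ} (hν : IsPrior ν)
    (hF4 : ∀ f ∈ F, ∀ i, |f i| ≤ 4) {δ r : ℝ} (hδ : δ ≤ 1 / 8) (hr : r ≤ 1 / 1024) {x : ι}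
    (h : Bd F δ ν x r) {f : ι → ℝ} (hf : f ∈ F) : f x - ∑ i, ν i * f i < 1 / 2 := by
  have h1 := h (1 / 128) (by norm_num) f hf
  have h2 := log_Zf_le_mean hν (hF4 f hf) (β := 1 / 128) (by norm_num) (by norm_num)
  linarith

/-- **Core theorem.** -/
theorem core [Nonempty ι] {F : Set (ι → ℝ)} (hF : Convex ℝ F)
    (hsymm : ∀ f ∈ F, -f ∈ F) (hF4 : ∀ f ∈ F, ∀ i, |f i| ≤ 4)
    (hsep : ∀ i j : ι, i ≠ j → ∃ f ∈ F, 1 ≤ f i - f j)
    {G : Finset (ι → ℝ)} (hGF : ∀ g ∈ G, g ∈ F) {ε : ℝ} (hε : 0 < ε)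
    (hG : ∀ f ∈ F, ∃ g ∈ G, ∀ i, |g i - f i| ≤ ε)
    {m J : ℕ} (hm : 0 < m) (hεJ : 3 * ε * J ≤ 1 / 8)
    (hmJ : 1024 * Real.log (Fintype.card ι) ≤ (m : ℝ) ^ J) :
    Fintype.card ι ≤ (1 + G.card * (⌊8 / ε⌋₊ + 1)) ^ (m * J) := by
  classical
  let V : Finset ℝ := (Finset.range (⌊8 / ε⌋₊ + 1)).image fun k : ℕ => -4 + k * ε
  have hVcard : V.card ≤ ⌊8 / ε⌋₊ + 1 := by
    calc V.card ≤ (Finset.range (⌊8 / ε⌋₊ + 1)).card := Finset.card_image_le
      _ = _ := Finset.card_range _
  have hV : ∀ g ∈ G, ∀ i, ∃ v ∈ V, v ≤ g i ∧ g i ≤ v + ε := by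
    intro g hg i
    have hb := abs_le.1 (hF4 g (hGF g hg) i)
    have h0 : 0 ≤ (g i + 4) / ε := div_nonneg (by linarith only [hb]) hε.le
    refine ⟨-4 + (⌊(g i + 4) / ε⌋₊ : ℕ) * ε, ?_, ?_, ?_⟩
    · refine Finset.mem_image.2 ⟨⌊(g i + 4) / ε⌋₊, Finset.mem_range.2 ?_, rfl⟩
      refine Nat.lt_succ_of_le (Nat.floor_le_floor ?_)
      exact div_le_div_of_nonneg_right (by linarith only [hb]) hε.le
    · have := Nat.floor_le h0
      have h2 : (⌊(g i + 4) / ε⌋₊ : ℝ) * ε ≤ (g i + 4) / ε * ε :=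
        mul_le_mul_of_nonneg_right this hε.le
      rw [div_mul_cancel₀ _ (ne_of_gt hε)] at h2
      linarith only [h2]
    · have := Nat.lt_floor_add_one ((g i + 4) / ε)
      have h2 : (g i + 4) / ε * ε ≤ ((⌊(g i + 4) / ε⌋₊ : ℝ) + 1) * ε :=
        mul_le_mul_of_nonneg_right this.le hε.le
      rw [div_mul_cancel₀ _ (ne_of_gt hε)] at h2
      linarith only [h2]
  obtain ⟨N, h1, h2, h3⟩ := family_all hF hGF hε.le hG hV hm J
  have hm' : (0 : ℝ) < (m : ℝ) ^ J := by positivity
  have hr : Real.log (Fintype.card ι) / (m : ℝ) ^ J ≤ 1 / 1024 := by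
    rw [div_le_iff₀ hm']; linarith only [hmJ]
  choose φ hφN hφB using h3
  have hinj : Function.Injective φ := by
    intro x y hxy
    by_contra hne
    obtain ⟨f, hf, hfxy⟩ := hsep x y hne
    have a1 := mean_close (h1 _ (hφN x)) hF4 hεJ hr (hφB x) hf
    have hy : Bd F (3 * ε * J) (φ x) y (Real.log (Fintype.card ι) / (m : ℝ) ^ J) := by
      rw [hxy]; exact hφB y
    have a2 := mean_close (h1 _ (hφN x)) hF4 hεJ hr hy (hsymm f hf)
    simp only [Pi.neg_apply, mul_neg, Finset.sum_neg_distrib] at a2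
    linarith only [hfxy, a1, a2]
  have hcard : Fintype.card ι ≤ N.card := by
    rw [← Finset.card_univ]
    exact Finset.card_le_card_of_injOn φ (fun x _ => hφN x) (hinj.injOn)
  calc Fintype.card ι ≤ N.card := hcard
    _ ≤ (1 + G.card * V.card) ^ (m * J) := h2
    _ ≤ _ := by (clear * - hVcard; gcongr)

end Vale.Agent.P126
end
end
end

section

section

section

/-!
# P126, quantitative counterexample: definitions
-/

namespace Vale.Agent.P126.CQ

open Vale.Agent.P126.CE

open Classical in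
/-- Interpolation between the kernels `b` and `bp` with error `δ`, `N` possible data, `K`
possible patterns and `H` possible types of tests. -/
def Interp2 {W X : Type} [Fintype W] (b bp : W → X → Prop) (δ : ℝ) (K N H : ℕ) : Prop :=
  ∃ (P Q T : Type) (_ : Fintype P) (_ : Fintype Q) (_ : Fintype T) (ev : P → X → Q)
    (val : T → Q → Prop),
    Fintype.card P ≤ N ∧ Fintype.card Q ≤ K ∧ Fintype.card T ≤ H ∧
    ∀ lam : W → ℝ, (∀ w, 0 ≤ lam w) → ∃ (p : P) (τ : W → T), ∀ z : X,
      (∑ w, if (b w z ∧ ¬ val (τ w) (ev p z)) ∨ (val (τ w) (ev p z) ∧ ¬ bp w z) then lam w else 0)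
        ≤ δ * ∑ w, lam w

/-- A system of kernels of level `k`. -/
structure Sys2 (k : ℕ) (I A : Type) [Fintype I] [LinearOrder I] [Fintype A] (δ : ℝ)
    (K N H : ℕ) where
  /-- the kernels; only `b 0, …, b k` matter -/
  b : ℕ → (I × (I → A)) → (I → A) → Prop
  top_iff : ∀ w z, b k w z ↔ top w z
  mono : ∀ j < k, ∀ w z, b (j + 1) w z → b j w z
  diff : ∀ j ≤ k, ∀ w z, b j w z → w.2 w.1 ≠ z w.1
  interp : ∀ j < k, Interp2 (b (j + 1)) (b j) δ K N H

/-- The inductive claim, with explicit polynomial bounds for all the parameters. -/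
def Claim2 (k : ℕ) : Prop :=
  ∀ D β q : ℕ, 0 < D → 0 < β → (2 * D * β) ^ 32 ^ (k + 1) ≤ q →
    ∃ (I : Type) (_ : Fintype I) (_ : LinearOrder I) (_ : Nonempty I) (A : Type) (_ : Fintype A)
      (t K N H : ℕ),
      Fintype.card I ≤ (2 * D * β) ^ 32 ^ (k + 1) ∧ 0 < t ∧ t ≤ (2 * D * β) ^ 32 ^ (k + 1) ∧
      Fintype.card A = 2 ^ (q * t) ∧ K ≤ 2 ^ ((2 * D * β) ^ 32 ^ (k + 1)) ∧
      H ≤ 2 ^ ((2 * D * β) ^ 32 ^ (k + 1)) ∧
      1 ≤ N ∧ N ^ β ≤ Fintype.card A ^ Fintype.card I ∧
      Nonempty (Sys2 k I A (1 / (D : ℝ)) K N H)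

/-- The quantitative combinatorial core of the counterexample. -/
def Core2 : Prop :=
  ∀ κ m : ℕ, 32 * (κ + 1) ^ 2 ≤ m →
    ∃ (nW nX N : ℕ) (f : Fin nW → Fin nX → ℝ) (cls : (Fin nW → ℝ) → Fin N),
    0 < nW ∧
    (∀ x y : Fin nX, x ≠ y → ∃ w, (κ : ℝ) ≤ |f w x - f w y|) ∧
    (∀ lam mu : Fin nW → ℝ, ∑ w, |lam w| ≤ 1 → ∑ w, |mu w| ≤ 1 → cls lam = cls mu →
      ∀ x, |∑ w, (lam w - mu w) * f w x| ≤ 4) ∧
    N ^ m ≤ nX ∧ 2 ^ m ≤ nX ∧ nX ≤ 2 ^ ((m + 1) ^ (10 * 32 ^ (κ + 1))) ∧ nW ≤ nX ^ 2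

end Vale.Agent.P126.CQ
end
end
end

section

section

section

/-!
# P126, quantitative counterexample: interpolation of lifted kernels
-/

open Finset

namespace Vale.Agent.P126.CQ

open Vale.Agent.P126.CE

/-- S0 (Lift.lean). -/
theorem Interp2.mono {W X : Type} [Fintype W] {b bp : W → X → Prop} {δ δ' : ℝ}
    {K K' N N' H H' : ℕ} (h : Interp2 b bp δ K N H) (hδ : δ ≤ δ') (hK : K ≤ K') (hN : N ≤ N')
    (hH : H ≤ H') : Interp2 b bp δ' K' N' H' := by
  obtain ⟨P, Q, T, hP, hQ, hT, ev, val, hPN, hQK, hTH, hmain⟩ := h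
  refine ⟨P, Q, T, hP, hQ, hT, ev, val, hPN.trans hN, hQK.trans hK, hTH.trans hH, ?_⟩
  intro lam hlam
  obtain ⟨p, τ, h1⟩ := hmain lam hlam
  exact ⟨p, τ, fun z => (h1 z).trans
    (mul_le_mul_of_nonneg_right hδ (sum_nonneg fun w _ => hlam w))⟩

section
variable {B J A A' S : Type} [Fintype B] [LinearOrder B] [Fintype J] [LinearOrder J]
  [Fintype A] [Fintype A'] [Fintype S]

open Classical in
/-- S3 (Lift.lean). -/
theorem interp_lift2 (c : A → S → A') (b bp : J × (J → A') → (J → A') → Prop) (δ : ℝ)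
    (K N H : ℕ) (h : Interp2 b bp δ K N H) :
    Interp2 (lift (B := B) c b) (lift (B := B) c bp) (Fintype.card S * δ)
      (K ^ (Fintype.card S * Fintype.card B)) (N ^ (Fintype.card S * Fintype.card B))
      (Fintype.card B * H ^ Fintype.card S) := by
  obtain ⟨P, Q, T, hP, hQ, hT, ev, val, hPN, hQK, hTH, hmain⟩ := h
  refine ⟨S × B → P, S × B → Q, B × (S → T), inferInstance, inferInstance, inferInstance,
    fun p z sb => ev (p sb) (pr c sb.1 sb.2 z),
    fun bx π => ∃ s, val (bx.2 s) (π (s, bx.1)), ?_, ?_, ?_, ?_⟩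
  · rw [Fintype.card_fun, Fintype.card_prod]
    exact Nat.pow_le_pow_left hPN _
  · rw [Fintype.card_fun, Fintype.card_prod]
    exact Nat.pow_le_pow_left hQK _
  · rw [Fintype.card_prod, Fintype.card_fun]
    exact Nat.mul_le_mul_left _ (Nat.pow_le_pow_left hTH _)
  intro lam hlam
  let lam' : S → B → (J × (J → A')) → ℝ := fun s β w' =>
    ∑ w : (B ×ₗ J) × ((B ×ₗ J) → A), if blk w = β ∧ pw c s w = w' then lam w else 0
  have hlam' : ∀ s β w', 0 ≤ lam' s β w' := by
    intro s β w'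
    refine sum_nonneg fun w _ => ?_
    split_ifs
    · exact hlam w
    · exact le_rfl
  have hch : ∀ sb : S × B, ∃ (p : P) (th : (J × (J → A')) → T), ∀ z : J → A',
      (∑ w, if (b w z ∧ ¬ val (th w) (ev p z)) ∨ (val (th w) (ev p z) ∧ ¬ bp w z) then
        lam' sb.1 sb.2 w else 0) ≤ δ * ∑ w, lam' sb.1 sb.2 w :=
    fun sb => hmain (lam' sb.1 sb.2) (hlam' sb.1 sb.2)
  choose p th hth using hch
  refine ⟨p, fun w => (blk w, fun s => th (s, blk w) (pw c s w)), ?_⟩
  intro z
  -- the failure set of `(s, β)`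
  let F : S → B → (J × (J → A')) → Prop := fun s β w' =>
    (b w' (pr c s β z) ∧ ¬ val (th (s, β) w') (ev (p (s, β)) (pr c s β z))) ∨
      (val (th (s, β) w') (ev (p (s, β)) (pr c s β z)) ∧ ¬ bp w' (pr c s β z))
  have hF : ∀ s β, (∑ w', if F s β w' then lam' s β w' else 0) ≤ δ * ∑ w', lam' s β w' :=
    fun s β => hth (s, β) (pr c s β z)
  have hmass : ∀ s, ∑ β, ∑ w', lam' s β w' = ∑ w, lam w := by
    intro s
    have h1 : ∀ β, ∑ w', lam' s β w' =
        ∑ w : (B ×ₗ J) × ((B ×ₗ J) → A), if blk w = β then lam w else 0 := by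
      intro β
      show ∑ w', ∑ w : (B ×ₗ J) × ((B ×ₗ J) → A),
        (if blk w = β ∧ pw c s w = w' then lam w else 0) = _
      rw [sum_comm]
      refine sum_congr rfl fun w _ => ?_
      by_cases hb : blk w = β
      · simp only [hb, true_and, if_true]
        rw [sum_ite_eq]
        simp only [mem_univ, ↓reduceIte]
      · simp only [hb, false_and, ↓reduceIte, sum_const_zero]
    rw [sum_congr rfl fun β _ => h1 β, sum_comm]
    refine sum_congr rfl fun w _ => ?_
    rw [sum_ite_eq]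
    simp only [mem_univ, ↓reduceIte]
  have hfail : ∀ s, ∑ β, ∑ w', (if F s β w' then lam' s β w' else 0) =
      ∑ w : (B ×ₗ J) × ((B ×ₗ J) → A), if F s (blk w) (pw c s w) then lam w else 0 := by
    intro s
    have h1 : ∀ β, ∑ w', (if F s β w' then lam' s β w' else 0) =
        ∑ w : (B ×ₗ J) × ((B ×ₗ J) → A),
          if blk w = β then (if F s β (pw c s w) then lam w else 0) else 0 := by
      intro β
      have h2 : ∀ w', (if F s β w' then lam' s β w' else 0) =
          ∑ w : (B ×ₗ J) × ((B ×ₗ J) → A),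
            if pw c s w = w' then (if blk w = β then (if F s β w' then lam w else 0) else 0)
              else 0 := by
        intro w'
        by_cases hf : F s β w'
        · rw [if_pos hf]
          show ∑ w : (B ×ₗ J) × ((B ×ₗ J) → A),
            (if blk w = β ∧ pw c s w = w' then lam w else 0) = _
          refine sum_congr rfl fun w _ => ?_
          by_cases hb : blk w = β <;> by_cases hw : pw c s w = w' <;> simp [hb, hw, hf]
        · rw [if_neg hf]
          symm
          refine sum_eq_zero fun w _ => ?_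
          simp [hf]
      rw [sum_congr rfl fun w' _ => h2 w', sum_comm]
      refine sum_congr rfl fun w _ => ?_
      rw [sum_ite_eq]
      simp only [mem_univ, ↓reduceIte]
    rw [sum_congr rfl fun β _ => h1 β, sum_comm]
    refine sum_congr rfl fun w _ => ?_
    rw [sum_ite_eq]
    simp only [mem_univ, ↓reduceIte]
  refine le_trans (b := ∑ w : (B ×ₗ J) × ((B ×ₗ J) → A), ∑ s,
          if F s (blk w) (pw c s w) then lam w else 0) ?_ ?_
  · refine sum_le_sum fun w _ => ?_
    have hnn : ∀ s ∈ (univ : Finset S), 0 ≤ if F s (blk w) (pw c s w) then lam w else 0 := by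
      intro s _
      split_ifs
      · exact hlam w
      · exact le_rfl
    split_ifs with hbad
    · obtain ⟨s, hs⟩ : ∃ s, F s (blk w) (pw c s w) := by
        rcases hbad with ⟨⟨s, hs⟩, hno⟩ | ⟨⟨s, hs⟩, hno⟩
        · exact ⟨s, Or.inl ⟨hs, fun h' => hno ⟨s, h'⟩⟩⟩
        · exact ⟨s, Or.inr ⟨hs, fun h' => hno ⟨s, h'⟩⟩⟩
      have h1 := single_le_sum hnn (mem_univ s)
      rw [if_pos hs] at h1
      exact h1
    · exact sum_nonneg hnn
  calc (∑ w : (B ×ₗ J) × ((B ×ₗ J) → A), ∑ s,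
          if F s (blk w) (pw c s w) then lam w else 0)
    _ = ∑ s, ∑ β, ∑ w', (if F s β w' then lam' s β w' else 0) := by
        rw [sum_comm]
        exact sum_congr rfl fun s _ => (hfail s).symm
    _ ≤ ∑ s : S, ∑ β, δ * ∑ w', lam' s β w' :=
        sum_le_sum fun s _ => sum_le_sum fun β _ => hF s β
    _ = ∑ s : S, δ * ∑ w, lam w := by
        refine sum_congr rfl fun s _ => ?_
        rw [← mul_sum, hmass s]
    _ = Fintype.card S * δ * ∑ w, lam w := by
        rw [sum_const, nsmul_eq_mul, card_univ]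
        ring

end

end Vale.Agent.P126.CQ
end
end
end

section

section

section

open Finset Real Pointwise

namespace Vale.Agent.P126

variable {n : ℕ}

/-- `t` is the set of centres of a covering of `A` by translates of `B`. -/
def Cov (t : Finset (EuclideanSpace ℝ (Fin n))) (A B : Set (EuclideanSpace ℝ (Fin n))) : Prop :=
  ∀ a ∈ A, ∃ x ∈ t, a - x ∈ B

/-- `s` is `B`-separated. -/
def Sep (B : Set (EuclideanSpace ℝ (Fin n))) (s : Finset (EuclideanSpace ℝ (Fin n))) : Prop :=
  ∀ x ∈ s, ∀ y ∈ s, x ≠ y → x - y ∉ B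

theorem cov_iff {t : Finset (EuclideanSpace ℝ (Fin n))} {A B : Set (EuclideanSpace ℝ (Fin n))} :
    (A ⊆ ⋃ x ∈ t, (fun y => x + y) '' B) ↔ Cov t A B := by
  constructor
  · intro h a ha
    have := h ha
    simp only [Set.mem_iUnion, Set.mem_image, exists_prop] at this
    obtain ⟨x, hx, y, hy, rfl⟩ := this
    exact ⟨x, hx, by simpa using hy⟩
  · intro h a ha
    obtain ⟨x, hx, hax⟩ := h a ha
    simp only [Set.mem_iUnion, Set.mem_image, exists_prop]
    exact ⟨x, hx, a - x, hax, by abel⟩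

theorem coveringNumber_le {t : Finset (EuclideanSpace ℝ (Fin n))}
    {A B : Set (EuclideanSpace ℝ (Fin n))} (h : Cov t A B) : coveringNumber A B ≤ t.card :=
  Nat.sInf_le ⟨t, rfl, cov_iff.2 h⟩

theorem exists_cov_eq {A B : Set (EuclideanSpace ℝ (Fin n))}
    (h : ∃ t : Finset (EuclideanSpace ℝ (Fin n)), Cov t A B) :
    ∃ t : Finset (EuclideanSpace ℝ (Fin n)), Cov t A B ∧ t.card = coveringNumber A B := by
  obtain ⟨t, ht⟩ := h
  have : (coveringNumber A B) ∈ {m : ℕ | ∃ t : Finset (EuclideanSpace ℝ (Fin n)), t.card = m ∧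
      A ⊆ ⋃ x ∈ t, (fun y => x + y) '' B} := Nat.sInf_mem ⟨t.card, t, rfl, cov_iff.2 ht⟩
  obtain ⟨s, hs, hcov⟩ := this
  exact ⟨s, cov_iff.1 hcov, hs⟩

theorem exists_cov_of_compact {A B : Set (EuclideanSpace ℝ (Fin n))} (hA : IsCompact A)
    (hB : (0 : EuclideanSpace ℝ (Fin n)) ∈ interior B) :
    ∃ t : Finset (EuclideanSpace ℝ (Fin n)), Cov t A B := by
  have hU : ∀ a ∈ A, {y : EuclideanSpace ℝ (Fin n) | y - a ∈ B} ∈ nhds a := by
    intro a _
    have hcont : Continuous fun y : EuclideanSpace ℝ (Fin n) => y - a := by fun_prop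
    have : (fun y : EuclideanSpace ℝ (Fin n) => y - a) ⁻¹' B ∈ nhds a := by
      apply hcont.continuousAt.preimage_mem_nhds
      rw [sub_self]
      exact mem_interior_iff_mem_nhds.1 hB
    exact this
  obtain ⟨t, _, ht⟩ := hA.elim_nhds_subcover _ hU
  refine ⟨t, fun a ha => ?_⟩
  have := ht ha
  simp only [Set.mem_iUnion, exists_prop] at this
  exact this

theorem sep_card_le {t s : Finset (EuclideanSpace ℝ (Fin n))}
    {A B B' : Set (EuclideanSpace ℝ (Fin n))} (hBB : ∀ b ∈ B', ∀ b' ∈ B', b - b' ∈ B)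
    (hs : ∀ x ∈ s, x ∈ A) (hsep : Sep B s) (hcov : Cov t A B') : s.card ≤ t.card := by
  classical
  have h : ∀ x : EuclideanSpace ℝ (Fin n), ∃ c : EuclideanSpace ℝ (Fin n),
      x ∈ s → c ∈ t ∧ x - c ∈ B' := by
    intro x
    by_cases hx : x ∈ s
    · obtain ⟨c, hc, hxc⟩ := hcov x (hs x hx)
      exact ⟨c, fun _ => ⟨hc, hxc⟩⟩
    · exact ⟨0, fun h => absurd h hx⟩
  choose c hc using h
  refine Finset.card_le_card_of_injOn c (fun x hx => (hc x hx).1) ?_
  intro x hx y hy hxy
  by_contra hne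
  have h1 := (hc x hx).2
  have h2 := (hc y hy).2
  apply hsep x hx y hy hne
  have := hBB _ h1 _ h2
  rw [hxy] at this
  simpa using this

theorem exists_max_sep {A B : Set (EuclideanSpace ℝ (Fin n))} {M : ℕ}
    (hM : ∀ s : Finset (EuclideanSpace ℝ (Fin n)), (∀ x ∈ s, x ∈ A) → Sep B s → s.card ≤ M)
    (h0 : (0 : EuclideanSpace ℝ (Fin n)) ∈ B) (hsymm : ∀ x ∈ B, -x ∈ B) :
    ∃ s : Finset (EuclideanSpace ℝ (Fin n)), (∀ x ∈ s, x ∈ A) ∧ Sep B s ∧ Cov s A B := by
  classical
  let S : Set ℕ := {k | ∃ s : Finset (EuclideanSpace ℝ (Fin n)),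
    (∀ x ∈ s, x ∈ A) ∧ Sep B s ∧ s.card = k}
  have hne : S.Nonempty := ⟨0, ∅, by simp, by intro x hx; simp at hx, by simp⟩
  have hbdd : BddAbove S := ⟨M, by rintro k ⟨s, h1, h2, rfl⟩; exact hM s h1 h2⟩
  obtain ⟨s, h1, h2, h3⟩ := Nat.sSup_mem hne hbdd
  refine ⟨s, h1, h2, fun a ha => ?_⟩
  by_contra hcon
  push Not at hcon
  have hs' : a ∉ s := fun h => hcon a h (by simpa using h0)
  have hmem : (insert a s).card ∈ S := by
    refine ⟨insert a s, ?_, ?_, rfl⟩
    · intro x hx
      rcases Finset.mem_insert.1 hx with rfl | hx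
      · exact ha
      · exact h1 x hx
    · intro x hx y hy hxy
      rcases Finset.mem_insert.1 hx with hxa | hxs
      · rcases Finset.mem_insert.1 hy with hya | hys
        · exact absurd (hxa.trans hya.symm) hxy
        · rw [hxa]; exact hcon y hys
      · rcases Finset.mem_insert.1 hy with hya | hys
        · intro hB
          apply hcon x hxs
          have := hsymm _ hB
          rw [hya] at this
          simpa using this
        · exact h2 x hxs y hys hxy
  have h4 := le_csSup hbdd hmem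
  rw [Finset.card_insert_of_notMem hs'] at h4
  omega

/-! ### Facts about symmetric convex bodies -/

theorem IsSymmBody.zero_mem_interior {K : Set (EuclideanSpace ℝ (Fin n))} (hK : IsSymmBody K) :
    (0 : EuclideanSpace ℝ (Fin n)) ∈ interior K := by
  obtain ⟨x, hx⟩ := hK.nonempty_interior
  have hneg : (Homeomorph.neg (EuclideanSpace ℝ (Fin n))) ⁻¹' K = K := by
    ext y
    simp only [Set.mem_preimage, Homeomorph.coe_neg]
    exact ⟨fun h => by simpa using hK.symm _ h, fun h => hK.symm _ h⟩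
  have h2 : -x ∈ interior K := by
    have := (Homeomorph.neg (EuclideanSpace ℝ (Fin n))).preimage_interior K
    rw [hneg] at this
    have hx' : x ∈ (Homeomorph.neg (EuclideanSpace ℝ (Fin n))) ⁻¹' interior K := by
      rw [this]; exact hx
    simpa using hx'
  have := hK.convex.interior hx h2 (a := 1/2) (b := 1/2) (by norm_num) (by norm_num) (by norm_num)
  simpa only [one_div, smul_neg, add_neg_cancel] using this

theorem IsSymmBody.zero_mem {K : Set (EuclideanSpace ℝ (Fin n))} (hK : IsSymmBody K) :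
    (0 : EuclideanSpace ℝ (Fin n)) ∈ K := interior_subset hK.zero_mem_interior

theorem IsSymmBody.smul {K : Set (EuclideanSpace ℝ (Fin n))} (hK : IsSymmBody K) {c : ℝ}
    (hc : c ≠ 0) : IsSymmBody (c • K) where
  convex := hK.convex.smul c
  compact := hK.compact.smul c
  nonempty_interior := by
    rw [interior_smul₀ hc]
    exact hK.nonempty_interior.smul_set
  symm := by
    rintro _ ⟨y, hy, rfl⟩
    exact ⟨-y, hK.symm y hy, by simp⟩

/-- membership in scaled bodies is monotone in the scale -/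
theorem IsSymmBody.smul_mem_of_le {K : Set (EuclideanSpace ℝ (Fin n))} (hK : IsSymmBody K)
    {x : EuclideanSpace ℝ (Fin n)} (hx : x ∈ K) {c : ℝ} (hc : |c| ≤ 1) : c • x ∈ K := by
  have h0 := hK.zero_mem
  rcases le_total 0 c with h | h
  · have hc1 : c ≤ 1 := (abs_le.1 hc).2
    have := hK.convex hx h0 h (sub_nonneg.2 hc1) (by ring)
    simpa using this
  · have hc1 : -c ≤ 1 := by have := (abs_le.1 hc).1; linarith
    have := hK.convex (hK.symm x hx) h0 (neg_nonneg.2 h) (sub_nonneg.2 hc1) (by ring)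
    simpa using this

theorem polar_zero_mem (K : Set (EuclideanSpace ℝ (Fin n))) :
    (0 : EuclideanSpace ℝ (Fin n)) ∈ polarBody K := by
  intro x _
  simp only [inner_zero_right, zero_le_one]

theorem polar_convex (K : Set (EuclideanSpace ℝ (Fin n))) : Convex ℝ (polarBody K) := by
  intro y hy z hz a b ha hb hab x hx
  rw [inner_add_right, inner_smul_right, inner_smul_right]
  have h1 := hy x hx
  have h2 := hz x hx
  nlinarith

theorem polar_isClosed (K : Set (EuclideanSpace ℝ (Fin n))) : IsClosed (polarBody K) := by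
  have : polarBody K = ⋂ x ∈ K, {y : EuclideanSpace ℝ (Fin n) | inner ℝ x y ≤ 1} := by
    ext y; simp only [polarBody, Set.mem_ofPred_eq, Set.mem_iInter]
  rw [this]
  refine isClosed_biInter fun x _ => ?_
  exact isClosed_le (by fun_prop) continuous_const

theorem IsSymmBody.abs_inner_le {K : Set (EuclideanSpace ℝ (Fin n))} (hK : IsSymmBody K)
    {x y : EuclideanSpace ℝ (Fin n)} (hx : x ∈ K) (hy : y ∈ polarBody K) :
    |(inner ℝ x y : ℝ)| ≤ 1 := by
  rw [abs_le]
  refine ⟨?_, hy x hx⟩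
  have := hy (-x) (hK.symm x hx)
  rw [inner_neg_left] at this
  linarith

theorem IsSymmBody.polar {K : Set (EuclideanSpace ℝ (Fin n))} (hK : IsSymmBody K) :
    IsSymmBody (polarBody K) where
  convex := polar_convex K
  compact := by
    obtain ⟨r, hr, hball⟩ := Metric.isOpen_iff.1 isOpen_interior 0 hK.zero_mem_interior
    refine Metric.isCompact_of_isClosed_isBounded (polar_isClosed K) ?_
    rw [Metric.isBounded_iff_subset_closedBall (0 : EuclideanSpace ℝ (Fin n))]
    refine ⟨2 / r, fun y hy => ?_⟩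
    rw [mem_closedBall_zero_iff]
    by_cases hy0 : y = 0
    · rw [hy0, norm_zero]; positivity
    have hny : 0 < ‖y‖ := norm_pos_iff.2 hy0
    have hmem : (r / (2 * ‖y‖)) • y ∈ K := by
      apply interior_subset
      apply hball
      rw [mem_ball_zero_iff, norm_smul, Real.norm_of_nonneg (by positivity)]
      have : r / (2 * ‖y‖) * ‖y‖ = r / 2 := by field_simp
      rw [this]; linarith only [hr]
    have := hy _ hmem
    rw [real_inner_smul_left, real_inner_self_eq_norm_sq] at this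
    have e : r / (2 * ‖y‖) * ‖y‖ ^ 2 = r * ‖y‖ / 2 := by field_simp
    rw [e] at this
    rw [le_div_iff₀ hr]
    linarith only [this]
  nonempty_interior := by
    obtain ⟨R, hR⟩ := (Metric.isBounded_iff_subset_closedBall
      (0 : EuclideanSpace ℝ (Fin n))).1 hK.compact.isBounded
    have hR1 : (0:ℝ) < |R| + 1 := by positivity
    refine ⟨0, ?_⟩
    rw [mem_interior]
    refine ⟨Metric.ball 0 (1 / (|R| + 1)), ?_, Metric.isOpen_ball, by simp only [one_div, Metric.mem_ball, dist_self, inv_pos]; positivity⟩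
    intro y hy x hx
    rw [mem_ball_zero_iff] at hy
    have hx' : ‖x‖ ≤ |R| + 1 := by
      have := mem_closedBall_zero_iff.1 (hR hx)
      have := le_abs_self R
      (clear hK hR1 y hy; linarith)
    calc (inner ℝ x y : ℝ) ≤ ‖x‖ * ‖y‖ := real_inner_le_norm x y
      _ ≤ (|R| + 1) * (1 / (|R| + 1)) := by
          apply mul_le_mul hx' hy.le (norm_nonneg _) (by positivity)
      _ = 1 := by field_simp
  symm := by
    intro y hy x hx
    have := hy (-x) (hK.symm x hx)
    rw [inner_neg_left] at this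
    rw [inner_neg_right]; exact this

/-- separation: a point outside a body is cut off by a point of the polar -/
theorem exists_polar_gt {L : Set (EuclideanSpace ℝ (Fin n))} (hL : IsSymmBody L)
    {x : EuclideanSpace ℝ (Fin n)} (hx : x ∉ L) :
    ∃ w ∈ polarBody L, 1 < (inner ℝ x w : ℝ) := by
  obtain ⟨φ, u, h1, h2⟩ := geometric_hahn_banach_closed_point hL.convex hL.compact.isClosed hx
  have hu : 0 < u := by
    have := h1 0 hL.zero_mem
    simpa using this
  set v := (InnerProductSpace.toDual ℝ (EuclideanSpace ℝ (Fin n))).symm φ with hv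
  have hφ : ∀ y, φ y = inner ℝ y v := by
    intro y
    rw [real_inner_comm, hv, InnerProductSpace.toDual_symm_apply]
  refine ⟨u⁻¹ • v, ?_, ?_⟩
  · intro y hy
    rw [real_inner_smul_right, ← hφ]
    have := h1 y hy
    rw [inv_mul_le_iff₀ hu]
    linarith
  · rw [real_inner_smul_right, ← hφ, lt_inv_mul_iff₀ hu]
    linarith

theorem bipolar {K : Set (EuclideanSpace ℝ (Fin n))} (hK : IsSymmBody K) :
    polarBody (polarBody K) = K := by
  ext x
  constructor
  · intro hx
    by_contra hxK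
    obtain ⟨w, hw, hgt⟩ := exists_polar_gt hK hxK
    have := hx w hw
    rw [real_inner_comm] at this
    linarith
  · intro hx w hw
    rw [real_inner_comm]
    exact hw x hx

theorem polar_smul (K : Set (EuclideanSpace ℝ (Fin n))) {c : ℝ} (hc : 0 < c) :
    polarBody (c • K) = c⁻¹ • polarBody K := by
  ext y
  rw [Set.mem_smul_set_iff_inv_smul_mem₀ (inv_ne_zero hc.ne'), inv_inv]
  constructor
  · intro hy x hx
    have := hy (c • x) (Set.smul_mem_smul_set hx)
    rw [real_inner_smul_left] at this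
    rw [real_inner_smul_right]; exact this
  · rintro hy _ ⟨x, hx, rfl⟩
    have := hy x hx
    rw [real_inner_smul_right] at this
    simp only [real_inner_smul_left]; exact this

end Vale.Agent.P126
end
end
end

section

section

section

/-!
# P126, counterexample: from the combinatorial core to convex bodies
-/

open Pointwise

namespace Vale.Agent.P126.CE

/-- Intersection of finitely many slabs and a cube. -/
def slabs {n : ℕ} {ι : Type} (r : ι → EuclideanSpace ℝ (Fin n)) (T : ℝ) :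
    Set (EuclideanSpace ℝ (Fin n)) :=
  {y | (∀ x, |(inner ℝ (r x) y : ℝ)| ≤ 1) ∧ ∀ w, |y w| ≤ T}

theorem isSymmBody_slabs {n : ℕ} {ι : Type} [Finite ι] (r : ι → EuclideanSpace ℝ (Fin n)) {T : ℝ}
    (hT : 0 < T) : IsSymmBody (slabs r T) where
  convex := by
    intro y hy z hz a b ha hb hab
    refine ⟨fun x => ?_, fun w => ?_⟩
    · rw [inner_add_right, real_inner_smul_right, real_inner_smul_right]
      calc |a * inner ℝ (r x) y + b * inner ℝ (r x) z|
          ≤ |a * inner ℝ (r x) y| + |b * inner ℝ (r x) z| := abs_add_le _ _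
        _ = a * |(inner ℝ (r x) y : ℝ)| + b * |(inner ℝ (r x) z : ℝ)| := by
            rw [abs_mul, abs_mul, abs_of_nonneg ha, abs_of_nonneg hb]
        _ ≤ a * 1 + b * 1 := by
            have h1 := hy.1 x
            have h2 := hz.1 x
            (clear * - h1 ha h2 hb; gcongr)
        _ = 1 := by rw [mul_one, mul_one, hab]
    · rw [PiLp.add_apply, PiLp.smul_apply, PiLp.smul_apply, smul_eq_mul, smul_eq_mul]
      calc |a * y w + b * z w| ≤ |a * y w| + |b * z w| := abs_add_le _ _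
        _ = a * |y w| + b * |z w| := by
            rw [abs_mul, abs_mul, abs_of_nonneg ha, abs_of_nonneg hb]
        _ ≤ a * T + b * T := by
            have h1 := hy.2 w
            have h2 := hz.2 w
            gcongr
        _ = T := by rw [← add_mul, hab, one_mul]
  compact := by
    refine Metric.isCompact_of_isClosed_isBounded ?_ ?_
    · have : slabs r T = (⋂ x, {y : EuclideanSpace ℝ (Fin n) | |(inner ℝ (r x) y : ℝ)| ≤ 1}) ∩
          ⋂ w, {y : EuclideanSpace ℝ (Fin n) | |y w| ≤ T} := by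
        ext y
        simp only [slabs, Set.mem_ofPred_eq, Set.mem_inter_iff, Set.mem_iInter]
      rw [this]
      refine IsClosed.inter (isClosed_iInter fun x => ?_) (isClosed_iInter fun w => ?_)
      · exact isClosed_le (by fun_prop) continuous_const
      · exact isClosed_le (by fun_prop) continuous_const
    · rw [Metric.isBounded_iff_subset_closedBall (0 : EuclideanSpace ℝ (Fin n))]
      refine ⟨Real.sqrt (n * T ^ 2), fun y hy => ?_⟩
      rw [mem_closedBall_zero_iff, EuclideanSpace.norm_eq]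
      refine Real.sqrt_le_sqrt ?_
      calc ∑ i, ‖y i‖ ^ 2 ≤ ∑ _i : Fin n, T ^ 2 := by
            refine Finset.sum_le_sum fun i _ => ?_
            rw [Real.norm_eq_abs]
            have h1 := hy.2 i
            have h2 := abs_nonneg (y i)
            (clear * - h1; gcongr)
        _ = n * T ^ 2 := by simp only [Finset.sum_const, Finset.card_univ, Fintype.card_fin, nsmul_eq_mul]
  nonempty_interior := by
    refine ⟨0, mem_interior.2 ⟨(⋂ x, {y : EuclideanSpace ℝ (Fin n) |
      |(inner ℝ (r x) y : ℝ)| < 1}) ∩ ⋂ w, {y : EuclideanSpace ℝ (Fin n) | |y w| < T}, ?_, ?_, ?_⟩⟩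
    · rintro y ⟨h1, h2⟩
      rw [Set.mem_iInter] at h1 h2
      exact ⟨fun x => (h1 x).le, fun w => (h2 w).le⟩
    · refine IsOpen.inter (isOpen_iInter_of_finite fun x => ?_)
        (isOpen_iInter_of_finite fun w => ?_)
      · exact isOpen_lt (by fun_prop) continuous_const
      · exact isOpen_lt (by fun_prop) continuous_const
    · refine ⟨Set.mem_iInter.2 fun x => ?_, Set.mem_iInter.2 fun w => ?_⟩
      · show |(inner ℝ (r x) (0 : EuclideanSpace ℝ (Fin n)) : ℝ)| < 1
        rw [inner_zero_right, abs_zero]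
        exact one_pos
      · show |(0 : EuclideanSpace ℝ (Fin n)) w| < T
        simpa only [PiLp.zero_apply, abs_zero] using hT
  symm := by
    intro y hy
    refine ⟨fun x => ?_, fun w => ?_⟩
    · rw [inner_neg_right, abs_neg]
      exact hy.1 x
    · rw [PiLp.neg_apply, abs_neg]
      exact hy.2 w

/-- The polar of a cube. -/
theorem sum_abs_le_of_mem_polar {n : ℕ} {ι : Type} [IsEmpty ι] (r : ι → EuclideanSpace ℝ (Fin n))
    {ρ : ℝ} (hρ : 0 < ρ) {y : EuclideanSpace ℝ (Fin n)} (hy : y ∈ polarBody (slabs r ρ)) :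
    ∑ w, |ρ * y w| ≤ 1 := by
  set v : EuclideanSpace ℝ (Fin n) := WithLp.toLp 2 (fun w => ρ * SignType.sign (y w)) with hv
  have hvm : v ∈ slabs r ρ := by
    refine ⟨fun x => isEmptyElim x, fun w => ?_⟩
    show |ρ * (SignType.sign (y w) : ℝ)| ≤ ρ
    rw [abs_mul, abs_of_pos hρ]
    have : |((SignType.sign (y w) : ℝ))| ≤ 1 := by
      rcases lt_trichotomy (y w) 0 with h | h | h
      · simp [sign_neg h]
      · simp only [h, sign_zero, SignType.coe_zero, abs_zero, zero_le_one]
      · simp [sign_pos h]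
    calc ρ * |((SignType.sign (y w) : ℝ))| ≤ ρ * 1 := by gcongr
      _ = ρ := mul_one ρ
  have h := hy v hvm
  rw [PiLp.inner_apply] at h
  refine le_trans (le_of_eq ?_) h
  refine Finset.sum_congr rfl fun w _ => ?_
  show |ρ * y w| = inner ℝ (ρ * (SignType.sign (y w) : ℝ)) (y w)
  rw [abs_mul, abs_of_pos hρ]
  have e : (inner ℝ (ρ * (SignType.sign (y w) : ℝ)) (y w) : ℝ) =
      ρ * ((SignType.sign (y w) : ℝ) * y w) := by
    simp only [RCLike.inner_apply, Real.ringHom_apply, mul_left_comm, self_mul_sign, mul_comm]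
  rw [e, sign_mul_self]

/-- T5 (Geom.lean). -/
theorem disproof_of_core (h : Core) : ∀ a b : ℝ, 1 ≤ a → 1 ≤ b →
    ∃ (n : ℕ) (_ : 1 ≤ n) (K L : Set (EuclideanSpace ℝ (Fin n))), IsSymmBody K ∧ IsSymmBody L ∧
      b * Real.log (coveringNumber (polarBody L) (a⁻¹ • polarBody K))
        < Real.log (coveringNumber K L) := by
  classical
  intro a b ha hb
  obtain ⟨nW, nX, N, f, cls, hnW, hsep, hcls, hN⟩ := h ⌈12 * a⌉₊ ⌈b⌉₊
  set κ : ℝ := (⌈12 * a⌉₊ : ℝ) with hκ
  have hκa : 12 * a ≤ κ := Nat.le_ceil _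
  have hκ0 : 0 < κ := by linarith only [ha, hκa]
  set ρ : ℝ := κ / 3 with hρ
  have hρ0 : 0 < ρ := by positivity
  have hρa : 4 * a ≤ ρ := by rw [hρ]; linarith only [hκa]
  have ha0 : 0 < a := by linarith only [ha]
  set T : ℝ := 2 * a / ρ with hT
  have hT0 : 0 < T := by positivity
  set r : Fin nX → EuclideanSpace ℝ (Fin nW) := fun x => WithLp.toLp 2 (fun w => f w x) with hr
  set M : Set (EuclideanSpace ℝ (Fin nW)) := slabs r T with hM
  set L : Set (EuclideanSpace ℝ (Fin nW)) := slabs (fun _ : Fin 0 => 0) ρ with hL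
  have hMb : IsSymmBody M := isSymmBody_slabs r hT0
  have hLb : IsSymmBody L := isSymmBody_slabs _ hρ0
  have hKb : IsSymmBody (polarBody M) := hMb.polar
  refine ⟨nW, hnW, polarBody M, L, hKb, hLb, ?_⟩
  rw [bipolar hMb]
  have hNpos : 0 < N := lt_of_le_of_lt (Nat.zero_le _) (cls 0).isLt
  -- the upper bound for the dual covering
  have hup : coveringNumber (polarBody L) (a⁻¹ • M) ≤ N := by
    have hex : ∀ j : Fin N, ∃ c : EuclideanSpace ℝ (Fin nW),
        ∀ y ∈ polarBody L, cls (fun w => ρ * y w) = j → y - c ∈ a⁻¹ • M := by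
      intro j
      by_cases hj : ∃ c ∈ polarBody L, cls (fun w => ρ * c w) = j
      · obtain ⟨c, hc, hcj⟩ := hj
        refine ⟨c, fun y hy hyj => ?_⟩
        rw [Set.mem_smul_set_iff_inv_smul_mem₀ (inv_ne_zero ha0.ne'), inv_inv]
        have hy1 := sum_abs_le_of_mem_polar _ hρ0 hy
        have hc1 := sum_abs_le_of_mem_polar _ hρ0 hc
        refine ⟨fun x => ?_, fun w => ?_⟩
        · have h4 := hcls _ _ hy1 hc1 (hyj.trans hcj.symm) x
          have e : ∑ w, (ρ * y w - ρ * c w) * f w x = ρ * inner ℝ (r x) (y - c) := by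
            rw [PiLp.inner_apply, Finset.mul_sum]
            refine Finset.sum_congr rfl fun w _ => ?_
            show (ρ * y w - ρ * c w) * f w x = ρ * inner ℝ (f w x) ((y - c) w)
            rw [PiLp.sub_apply]
            simp
            ring
          rw [e, abs_mul, abs_of_pos hρ0] at h4
          rw [real_inner_smul_right, abs_mul, abs_of_pos ha0]
          have h5 : 4 * (a * |(inner ℝ (r x) (y - c) : ℝ)|) ≤ 4 * 1 := by
            calc 4 * (a * |(inner ℝ (r x) (y - c) : ℝ)|) =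
                (4 * a) * |(inner ℝ (r x) (y - c) : ℝ)| := by ring
              _ ≤ ρ * |(inner ℝ (r x) (y - c) : ℝ)| := by (clear * - hρa; gcongr)
              _ ≤ 4 := h4
              _ = 4 * 1 := by norm_num
          linarith only [h5]
        · have hyw : |ρ * y w| ≤ 1 :=
            (Finset.single_le_sum (f := fun w => |ρ * y w|) (fun _ _ => abs_nonneg _)
              (Finset.mem_univ w)).trans hy1
          have hcw : |ρ * c w| ≤ 1 :=
            (Finset.single_le_sum (f := fun w => |ρ * c w|) (fun _ _ => abs_nonneg _)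
              (Finset.mem_univ w)).trans hc1
          rw [PiLp.smul_apply, PiLp.sub_apply, smul_eq_mul, abs_mul, abs_of_pos ha0, hT,
            le_div_iff₀ hρ0]
          have h6 : |y w - c w| * ρ ≤ 2 := by
            calc |y w - c w| * ρ = |ρ * y w - ρ * c w| := by
                  rw [← mul_sub, abs_mul, abs_of_pos hρ0, mul_comm]
              _ ≤ |ρ * y w| + |ρ * c w| := abs_sub _ _
              _ ≤ 2 := by linarith only [hyw, hcw]
          calc a * |y w - c w| * ρ = a * (|y w - c w| * ρ) := by ring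
            _ ≤ a * 2 := by (clear * - h6 ha; gcongr)
            _ = 2 * a := by ring
      · push Not at hj
        exact ⟨0, fun y hy hyj => absurd hyj (hj y hy)⟩
    choose c hc using hex
    refine (coveringNumber_le (t := Finset.univ.image c) ?_).trans ?_
    · intro y hy
      exact ⟨c (cls fun w => ρ * y w), Finset.mem_image_of_mem _ (Finset.mem_univ _),
        hc _ y hy rfl⟩
    · refine Finset.card_image_le.trans ?_
      simp only [Finset.card_univ, Fintype.card_fin, Std.le_refl]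
  -- the lower bound for the covering
  have hlow : nX ≤ coveringNumber (polarBody M) L := by
    obtain ⟨t, ht, hcard⟩ :=
      exists_cov_eq (exists_cov_of_compact hKb.compact hLb.zero_mem_interior)
    rw [← hcard]
    have hrK : ∀ x, r x ∈ polarBody M := by
      intro x y hy
      have := hy.1 x
      rw [real_inner_comm]
      exact (le_abs_self _).trans this
    choose c hc hcL using fun x => ht (r x) (hrK x)
    have hinj : Function.Injective c := by
      intro x y hxy
      by_contra hne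
      obtain ⟨w, hw⟩ := hsep x y hne
      have h1 := (hcL x).2 w
      have h2 := (hcL y).2 w
      rw [PiLp.sub_apply] at h1 h2
      rw [← hxy] at h2
      have h3 : |f w x - f w y| ≤ ρ + ρ := by
        have e : f w x - f w y = ((r x) w - (c x) w) - ((r y) w - (c x) w) := by
          show f w x - f w y = (f w x - (c x) w) - (f w y - (c x) w)
          ring
        rw [e]
        exact (abs_sub _ _).trans (add_le_add h1 h2)
      have h4 : κ ≤ 2 * κ / 3 := by
        calc κ ≤ |f w x - f w y| := hw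
          _ ≤ ρ + ρ := h3
          _ = 2 * κ / 3 := by rw [hρ]; ring
      linarith only [ha, hκa, hρ, hw, h3]
    have := Finset.card_le_card_of_injOn (s := Finset.univ) (t := t) c (fun x _ => hc x)
      (fun x _ y _ hxy => hinj hxy)
    simpa only [ge_iff_le, Finset.card_univ, Fintype.card_fin] using this
  -- conclusion
  have hlogN : 0 ≤ Real.log (N : ℝ) := Real.log_natCast_nonneg _
  have h1 : Real.log (coveringNumber (polarBody L) (a⁻¹ • M)) ≤ Real.log N := by
    rcases Nat.eq_zero_or_pos (coveringNumber (polarBody L) (a⁻¹ • M)) with h0 | h0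
    · rw [h0]
      simpa only [CharP.cast_eq_zero, Real.log_zero] using hlogN
    · exact Real.log_le_log (by exact_mod_cast h0) (by exact_mod_cast hup)
  have h1' : 0 ≤ Real.log (coveringNumber (polarBody L) (a⁻¹ • M)) := Real.log_natCast_nonneg _
  calc b * Real.log (coveringNumber (polarBody L) (a⁻¹ • M))
      ≤ ⌈b⌉₊ * Real.log N := by
        refine mul_le_mul (Nat.le_ceil _) h1 h1' (by positivity)
    _ = Real.log ((N : ℝ) ^ ⌈b⌉₊) := (Real.log_pow _ _).symm
    _ < Real.log nX := by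
        refine Real.log_lt_log (by positivity) ?_
        exact_mod_cast hN
    _ ≤ Real.log (coveringNumber (polarBody M) L) := by
        refine Real.log_le_log ?_ (by exact_mod_cast hlow)
        have : 0 < nX := lt_of_le_of_lt (Nat.zero_le _) hN
        exact_mod_cast this

/-- T5 (Geom.lean): polarity exchanges the two inequalities. -/
theorem disproof_left_of_core (h : Core) : ∀ a b : ℝ, 1 ≤ a → 1 ≤ b →
    ∃ (n : ℕ) (_ : 1 ≤ n) (K L : Set (EuclideanSpace ℝ (Fin n))), IsSymmBody K ∧ IsSymmBody L ∧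
      Real.log (coveringNumber K L)
        < 1 / b * Real.log (coveringNumber (polarBody L) (a • polarBody K)) := by
  classical
  intro a b ha hb
  obtain ⟨n, hn, K, L, hK, hL, hlt⟩ := disproof_of_core h a b ha hb
  have ha0 : 0 < a := by linarith only [ha]
  have hb0 : 0 < b := by linarith only [hb]
  refine ⟨n, hn, polarBody L, a⁻¹ • polarBody K, hL.polar, hK.polar.smul (inv_ne_zero ha0.ne'), ?_⟩
  rw [polar_smul _ (inv_pos.2 ha0), inv_inv, bipolar hK, bipolar hL]
  have hcov : coveringNumber K L ≤ coveringNumber (a • K) (a • L) := by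
    obtain ⟨t, ht, hcard⟩ := exists_cov_eq (exists_cov_of_compact
      (hK.smul ha0.ne').compact (hL.smul ha0.ne').zero_mem_interior)
    rw [← hcard]
    refine (coveringNumber_le (t := t.image fun x => a⁻¹ • x) ?_).trans Finset.card_image_le
    intro y hy
    obtain ⟨x, hx, hyx⟩ := ht (a • y) (Set.smul_mem_smul_set hy)
    refine ⟨a⁻¹ • x, Finset.mem_image_of_mem _ hx, ?_⟩
    rw [Set.mem_smul_set_iff_inv_smul_mem₀ ha0.ne', smul_sub, smul_smul,
      inv_mul_cancel₀ ha0.ne', one_smul] at hyx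
    exact hyx
  have hpos : 0 < coveringNumber K L := by
    obtain ⟨t', ht', hcard⟩ :=
      exists_cov_eq (exists_cov_of_compact hK.compact hL.zero_mem_interior)
    rw [← hcard, Finset.card_pos]
    obtain ⟨x, hx, _⟩ := ht' 0 hK.zero_mem
    exact ⟨x, hx⟩
  have hlog : Real.log (coveringNumber K L) ≤ Real.log (coveringNumber (a • K) (a • L)) :=
    Real.log_le_log (by exact_mod_cast hpos) (by exact_mod_cast hcov)
  rw [div_mul_eq_mul_div, one_mul, lt_div_iff₀ hb0]
  calc Real.log (coveringNumber (polarBody L) (a⁻¹ • polarBody K)) * b =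
      b * Real.log (coveringNumber (polarBody L) (a⁻¹ • polarBody K)) := mul_comm _ _
    _ < Real.log (coveringNumber K L) := hlt
    _ ≤ _ := hlog

end Vale.Agent.P126.CE
end
end
end

section

section

section

open Finset Real Pointwise

namespace Vale.Agent.P126

variable {n : ℕ}

/-! ### Halving and telescoping -/

theorem IsSymmBody.half_sub {L : Set (EuclideanSpace ℝ (Fin n))} (hL : IsSymmBody L)
    {u v : EuclideanSpace ℝ (Fin n)} (hu : u ∈ L) (hv : v ∈ L) : (1 / 2 : ℝ) • (u - v) ∈ L := by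
  have := hL.convex hu (hL.symm v hv) (a := 1 / 2) (b := 1 / 2) (by norm_num) (by norm_num)
    (by norm_num)
  have e : (1 / 2 : ℝ) • (u - v) = (1 / 2 : ℝ) • u + (1 / 2 : ℝ) • -v := by
    rw [smul_sub, smul_neg, sub_eq_add_neg]
  rw [e]; exact this

theorem halving {A L : Set (EuclideanSpace ℝ (Fin n))} (hA : IsSymmBody A) (hL : IsSymmBody L)
    {t₁ t₂ : Finset (EuclideanSpace ℝ (Fin n))} (h1 : Cov t₁ ((1 / 2 : ℝ) • A) L)
    (h2 : Cov t₂ ((2 : ℝ) • A ∩ (4 : ℝ) • L) L) :
    ∃ t : Finset (EuclideanSpace ℝ (Fin n)), Cov t A L ∧ t.card ≤ t₁.card * t₂.card := by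
  classical
  have hz : ∀ y : EuclideanSpace ℝ (Fin n), ∃ z : EuclideanSpace ℝ (Fin n),
      (∃ a ∈ A, (1 / 2 : ℝ) • a - y ∈ L) → z ∈ A ∧ (1 / 2 : ℝ) • z - y ∈ L := by
    intro y
    by_cases h : ∃ a ∈ A, (1 / 2 : ℝ) • a - y ∈ L
    · obtain ⟨a, ha, hay⟩ := h
      exact ⟨a, fun _ => ⟨ha, hay⟩⟩
    · exact ⟨0, fun h' => absurd h' h⟩
  choose z hz using hz
  refine ⟨(t₁ ×ˢ t₂).image fun p => z p.1 + p.2, ?_, ?_⟩
  · intro a ha
    obtain ⟨y, hy, hay⟩ := h1 _ (Set.smul_mem_smul_set ha)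
    obtain ⟨hzA, hzy⟩ := hz y ⟨a, ha, hay⟩
    have hmem : a - z y ∈ (2 : ℝ) • A ∩ (4 : ℝ) • L := by
      constructor
      · refine ⟨(1 / 2 : ℝ) • (a - z y), hA.half_sub ha hzA, ?_⟩
        simp only [smul_smul]; norm_num
      · refine ⟨(1 / 2 : ℝ) • (((1 / 2 : ℝ) • a - y) - ((1 / 2 : ℝ) • z y - y)),
          hL.half_sub hay hzy, ?_⟩
        simp only [smul_smul]
        have e : ((1 / 2 : ℝ) • a - y) - ((1 / 2 : ℝ) • z y - y) = (1 / 2 : ℝ) • (a - z y) := by
          rw [smul_sub]; abel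
        rw [e, smul_smul]; norm_num
    obtain ⟨w, hw, haw⟩ := h2 _ hmem
    refine ⟨z y + w, Finset.mem_image.2 ⟨(y, w), Finset.mem_product.2 ⟨hy, hw⟩, rfl⟩, ?_⟩
    have e : a - (z y + w) = a - z y - w := by abel
    rw [e]; exact haw
  · calc _ ≤ (t₁ ×ˢ t₂).card := Finset.card_image_le
      _ = _ := Finset.card_product _ _

theorem telescoping {K L : Set (EuclideanSpace ℝ (Fin n))} (hK : IsSymmBody K)
    (hL : IsSymmBody L) {s : ℕ → Finset (EuclideanSpace ℝ (Fin n))}
    (hs : ∀ j, Cov (s j) ((2 : ℝ) • ((1 / 2 : ℝ) ^ j • K) ∩ (4 : ℝ) • L) L) (M : ℕ)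
    {t₀ : Finset (EuclideanSpace ℝ (Fin n))} (h0 : Cov t₀ ((1 / 2 : ℝ) ^ M • K) L) :
    ∃ t : Finset (EuclideanSpace ℝ (Fin n)), Cov t K L ∧
      t.card ≤ t₀.card * ∏ j ∈ Finset.range M, (s j).card := by
  induction M generalizing t₀ with
  | zero => exact ⟨t₀, by simpa using h0, by simp⟩
  | succ M ih =>
    have e : (1 / 2 : ℝ) ^ (M + 1) • K = (1 / 2 : ℝ) • ((1 / 2 : ℝ) ^ M • K) := by
      rw [smul_smul, pow_succ']
    rw [e] at h0
    obtain ⟨t₁, h1, h2⟩ := halving (hK.smul (by positivity)) hL h0 (hs M)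
    obtain ⟨t, h3, h4⟩ := ih h1
    refine ⟨t, h3, h4.trans ?_⟩
    rw [Finset.prod_range_succ]
    calc t₁.card * ∏ j ∈ Finset.range M, (s j).card
        ≤ (t₀.card * (s M).card) * ∏ j ∈ Finset.range M, (s j).card := by (clear * - h2; gcongr)
      _ = _ := by ring

theorem exists_pow_subset {K L : Set (EuclideanSpace ℝ (Fin n))} (hK : IsSymmBody K)
    (hL : IsSymmBody L) : ∃ M₀ : ℕ, ∀ M, M₀ ≤ M → Cov {0} ((1 / 2 : ℝ) ^ M • K) L := by
  obtain ⟨r, hr, hball⟩ := Metric.isOpen_iff.1 isOpen_interior 0 hL.zero_mem_interior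
  obtain ⟨R, hR⟩ := (Metric.isBounded_iff_subset_closedBall
      (0 : EuclideanSpace ℝ (Fin n))).1 hK.compact.isBounded
  have hR1 : (0:ℝ) < |R| + 1 := by positivity
  obtain ⟨M₀, hM₀⟩ := exists_pow_lt_of_lt_one (div_pos hr hR1) (by norm_num : (1 / 2 : ℝ) < 1)
  refine ⟨M₀, fun M hM => ?_⟩
  rintro _ ⟨x, hx, rfl⟩
  refine ⟨0, by simp only [mem_singleton], ?_⟩
  simp only [sub_zero]
  apply interior_subset
  apply hball
  rw [mem_ball_zero_iff, norm_smul, Real.norm_of_nonneg (by positivity)]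
  have hx' : ‖x‖ ≤ |R| + 1 := by
    have := mem_closedBall_zero_iff.1 (hR hx)
    have := le_abs_self R
    (clear L hK hL r hr hball hR1 M₀ hM₀ M hM; linarith)
  have h1 : (1 / 2 : ℝ) ^ M ≤ (1 / 2 : ℝ) ^ M₀ :=
    pow_le_pow_of_le_one (by norm_num) (by norm_num) hM
  calc (1 / 2 : ℝ) ^ M * ‖x‖ ≤ (1 / 2 : ℝ) ^ M₀ * (|R| + 1) := by (clear * - h1 hx'; gcongr)
    _ < r / (|R| + 1) * (|R| + 1) := by (clear * - hM₀; gcongr)
    _ = r := by field_simp

/-! ### Lacunary sums -/

/-- the body `ε 2^j / 4 P + ε / 8 Q` -/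
def Bset (P Q : Set (EuclideanSpace ℝ (Fin n))) (ε : ℝ) (j : ℕ) :
    Set (EuclideanSpace ℝ (Fin n)) :=
  {z | ∃ u ∈ P, ∃ v ∈ Q, z = (ε * 2 ^ j / 4) • u + (ε / 8) • v}

theorem lacunary {P Q : Set (EuclideanSpace ℝ (Fin n))} (hP : IsSymmBody P) (hQ : IsSymmBody Q)
    {ε : ℝ} (hε : 0 < ε) {q : ℕ} (hq1 : 1 ≤ q) (hq : 32 ≤ ε * 2 ^ q)
    {S : ℕ → Finset (EuclideanSpace ℝ (Fin n))} (hS : ∀ j, ∀ x ∈ S j, x ∈ Q)
    (hsep : ∀ j, Sep (Bset P Q ε j) (S j)) (I : ℕ) (j : ℕ) :
    ∃ W : Finset (EuclideanSpace ℝ (Fin n)), (∀ x ∈ W, x ∈ Q) ∧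
      Sep ((ε / 8 * 2 ^ j) • P) W ∧ W.card = ∏ i ∈ Finset.range I, (S (j + q * i)).card := by
  classical
  induction I generalizing j with
  | zero =>
    refine ⟨{0}, by simpa only [mem_singleton, forall_eq] using hQ.zero_mem, ?_, by simp⟩
    intro x hx y hy hxy
    rw [Finset.mem_singleton] at hx hy
    exact absurd (hx.trans hy.symm) hxy
  | succ I ih =>
    obtain ⟨W', hW1, hW2, hW3⟩ := ih (j + q)
    set γ : ℝ := (1 / 2) ^ q with hγdef
    have hγ0 : 0 < γ := by positivity
    have hγq : γ * 2 ^ q = 1 := by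
      rw [hγdef, ← mul_pow]; norm_num
    have hγhalf : γ ≤ 1 / 2 := by
      calc γ ≤ (1 / 2 : ℝ) ^ 1 := pow_le_pow_of_le_one (by norm_num) (by norm_num) hq1
        _ = 1 / 2 := by norm_num
    have hγε : 32 * γ ≤ ε := by
      have : 32 * γ ≤ ε * 2 ^ q * γ := by (clear * - hq; gcongr)
      calc 32 * γ ≤ ε * 2 ^ q * γ := this
        _ = ε * (γ * 2 ^ q) := by ring
        _ = ε := by rw [hγq, mul_one]
    have h1γ : 0 < 1 - γ := by linarith only [hγhalf]
    let Φ : EuclideanSpace ℝ (Fin n) × EuclideanSpace ℝ (Fin n) → EuclideanSpace ℝ (Fin n) :=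
      fun p => (1 - γ) • p.1 + γ • p.2
    have key : ∀ p ∈ S j ×ˢ W', ∀ p' ∈ S j ×ˢ W', p ≠ p' →
        Φ p - Φ p' ∉ (ε / 8 * 2 ^ j) • P := by
      rintro ⟨a, w⟩ hp ⟨a', w'⟩ hp' hne ⟨x, hx, hxe⟩
      obtain ⟨ha, hw⟩ := Finset.mem_product.1 hp
      obtain ⟨ha', hw'⟩ := Finset.mem_product.1 hp'
      simp only [Φ] at hxe ha hw ha' hw'
      by_cases haa : a = a'
      · subst haa
        have hww : w ≠ w' := fun h => hne (by rw [h])
        apply hW2 w hw w' hw' hww
        refine ⟨x, hx, ?_⟩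
        have e1 : (1 - γ) • a + γ • w - ((1 - γ) • a + γ • w') = γ • (w - w') := by
          rw [smul_sub]; abel
        rw [e1] at hxe
        have e2 : w - w' = (2 ^ q : ℝ) • (γ • (w - w')) := by
          rw [smul_smul, mul_comm, hγq, one_smul]
        change (ε / 8 * 2 ^ (j + q)) • x = w - w'
        have hxe' : (ε / 8 * 2 ^ j) • x = γ • (w - w') := hxe
        rw [e2, ← hxe', smul_smul, pow_add]
        congr 1
        ring
      · apply hsep j a ha a' ha' haa
        refine ⟨(1 / (2 * (1 - γ))) • x, hP.smul_mem_of_le hx ?_,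
          (16 * γ / (ε * (1 - γ))) • ((1 / 2 : ℝ) • (w' - w)),
          hQ.smul_mem_of_le (hQ.half_sub (hW1 _ hw') (hW1 _ hw)) ?_, ?_⟩
        · rw [abs_of_pos (by (clear * - h1γ; positivity)), div_le_one (by (clear * - h1γ; positivity))]
          linarith only [hγhalf]
        · rw [abs_of_pos (by (clear * - hε h1γ; positivity)), div_le_one (by (clear * - hε h1γ; positivity))]
          nlinarith only [hγε, hε, hγhalf]
        · have e1 : (1 - γ) • (a - a') = (ε / 8 * 2 ^ j) • x + γ • (w' - w) := by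
            have hxe' : (ε / 8 * 2 ^ j) • x = (1 - γ) • a + γ • w - ((1 - γ) • a' + γ • w') := hxe
            rw [hxe', smul_sub, smul_sub]; abel
          have e2 : a - a' = (1 - γ)⁻¹ • ((1 - γ) • (a - a')) := by
            rw [smul_smul, inv_mul_cancel₀ h1γ.ne', one_smul]
          rw [e2, e1, smul_add, smul_smul, smul_smul, smul_smul, smul_smul, smul_smul]
          congr 2
          · field_simp; ring
          · field_simp; ring
    have h0mem : (0 : EuclideanSpace ℝ (Fin n)) ∈ (ε / 8 * 2 ^ j) • P :=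
      ⟨0, hP.zero_mem, by simp⟩
    refine ⟨(S j ×ˢ W').image Φ, ?_, ?_, ?_⟩
    · intro x hx
      obtain ⟨p, hp, rfl⟩ := Finset.mem_image.1 hx
      obtain ⟨ha, hw⟩ := Finset.mem_product.1 hp
      exact hQ.convex (hS j _ ha) (hW1 _ hw) h1γ.le hγ0.le (by ring)
    · intro x hx y hy hxy
      obtain ⟨p, hp, rfl⟩ := Finset.mem_image.1 hx
      obtain ⟨p', hp', rfl⟩ := Finset.mem_image.1 hy
      exact key p hp p' hp' (fun h => hxy (by rw [h]))
    · rw [Finset.card_image_of_injOn, Finset.card_product, hW3, Finset.prod_range_succ', mul_comm]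
      · congr 1
        refine Finset.prod_congr rfl fun i _ => ?_
        congr 2
        ring
      · intro p hp p' hp' hpp
        by_contra hne
        apply key p hp p' hp' hne
        have : Φ p - Φ p' = 0 := sub_eq_zero.2 hpp
        rw [this]; exact h0mem

theorem sum_range_mul (f : ℕ → ℝ) (q I : ℕ) :
    ∑ j ∈ Finset.range (q * I), f j =
      ∑ r ∈ Finset.range q, ∑ i ∈ Finset.range I, f (r + q * i) := by
  induction I with
  | zero => simp
  | succ I ih =>
    rw [mul_add, mul_one, Finset.sum_range_add, ih]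
    simp only [Finset.sum_range_succ, Finset.sum_add_distrib]
    congr 1
    refine Finset.sum_congr rfl fun r _ => ?_
    rw [add_comm]

/-- The total logarithmic size of the packings is controlled by one covering number. -/
theorem lacunary_sum {P Q : Set (EuclideanSpace ℝ (Fin n))} (hP : IsSymmBody P)
    (hQ : IsSymmBody Q) {ε : ℝ} (hε : 0 < ε) {q : ℕ} (hq1 : 1 ≤ q) (hq : 32 ≤ ε * 2 ^ q)
    {S : ℕ → Finset (EuclideanSpace ℝ (Fin n))} (hS : ∀ j, ∀ x ∈ S j, x ∈ Q)
    (hsep : ∀ j, Sep (Bset P Q ε j) (S j)) (hne : ∀ j, (S j).Nonempty) (I : ℕ) :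
    ∑ j ∈ Finset.range (q * I), Real.log (S j).card ≤
      q * Real.log (coveringNumber Q ((ε / 16) • P)) := by
  rw [sum_range_mul]
  have hterm : ∀ r ∈ Finset.range q, ∑ i ∈ Finset.range I, Real.log (S (r + q * i)).card ≤
      Real.log (coveringNumber Q ((ε / 16) • P)) := by
    intro r _
    obtain ⟨W, h1, h2, h3⟩ := lacunary hP hQ hε hq1 hq hS hsep I r
    have hcov : ∃ t : Finset (EuclideanSpace ℝ (Fin n)), Cov t Q ((ε / 16) • P) :=
      exists_cov_of_compact hQ.compact (hP.smul (by positivity)).zero_mem_interior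
    obtain ⟨t, ht1, ht2⟩ := exists_cov_eq hcov
    have hcard : W.card ≤ t.card := by
      refine sep_card_le (A := Q) (B := (ε / 8 * 2 ^ r) • P) (B' := (ε / 16) • P) ?_ h1 h2 ht1
      rintro _ ⟨b, hb, rfl⟩ _ ⟨b', hb', rfl⟩
      refine ⟨(1 / 2 ^ r : ℝ) • ((1 / 2 : ℝ) • (b - b')),
        hP.smul_mem_of_le (hP.half_sub hb hb') ?_, ?_⟩
      · rw [abs_of_pos (by positivity), div_le_one (by positivity)]
        exact one_le_pow₀ (by norm_num)
      · simp only [smul_smul, ← smul_sub]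
        congr 1
        field_simp
        ring
    have hlog : ∑ i ∈ Finset.range I, Real.log (S (r + q * i)).card = Real.log (W.card) := by
      rw [h3]
      push_cast
      rw [Real.log_prod]
      intro i _
      have := Finset.card_pos.2 (hne (r + q * i))
      (clear * - hne; positivity)
    rw [hlog, ← ht2]
    apply Real.log_le_log
    · rw [h3]
      push_cast
      apply Finset.prod_pos
      intro i _
      have := Finset.card_pos.2 (hne (r + q * i))
      exact_mod_cast this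
    · exact_mod_cast hcard
  calc _ ≤ ∑ r ∈ Finset.range q, Real.log (coveringNumber Q ((ε / 16) • P)) :=
        Finset.sum_le_sum hterm
    _ = _ := by rw [Finset.sum_const, Finset.card_range, nsmul_eq_mul]

end Vale.Agent.P126
end
end
end

section

section

section

/-!
# P126, quantitative counterexample: from given data to convex bodies
-/

open Pointwise

namespace Vale.Agent.P126.CQ

open Vale.Agent.P126.CE

theorem slabs_empty {n : ℕ} (ρ : ℝ) :
    slabs (fun _ : Fin 0 => (0 : EuclideanSpace ℝ (Fin n))) ρ =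
      {x : EuclideanSpace ℝ (Fin n) | ∀ i, |x i| ≤ ρ} := by
  ext y
  simp only [slabs, inner_zero_left, abs_zero, zero_le_one, implies_true, true_and, Set.mem_ofPred_eq]

/-- S7 (Geom.lean). -/
theorem geom_core (a : ℝ) (ha : 1 ≤ a) (nW nX N : ℕ) (f : Fin nW → Fin nX → ℝ)
    (cls : (Fin nW → ℝ) → Fin N) (hnW : 0 < nW) (κ : ℕ) (hκ : 12 * a ≤ κ)
    (hsep : ∀ x y : Fin nX, x ≠ y → ∃ w, (κ : ℝ) ≤ |f w x - f w y|)
    (hcls : ∀ lam mu : Fin nW → ℝ, ∑ w, |lam w| ≤ 1 → ∑ w, |mu w| ≤ 1 → cls lam = cls mu →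
      ∀ x, |∑ w, (lam w - mu w) * f w x| ≤ 4) :
    ∃ (ρ : ℝ) (K : Set (EuclideanSpace ℝ (Fin nW))), 0 < ρ ∧ IsSymmBody K ∧
      IsSymmBody {x : EuclideanSpace ℝ (Fin nW) | ∀ i, |x i| ≤ ρ} ∧
      nX ≤ coveringNumber K {x : EuclideanSpace ℝ (Fin nW) | ∀ i, |x i| ≤ ρ} ∧
      coveringNumber (polarBody {x : EuclideanSpace ℝ (Fin nW) | ∀ i, |x i| ≤ ρ})
        (a⁻¹ • polarBody K) ≤ N := by
  classical
  have _h := hnW
  have hκ0 : (0 : ℝ) < κ := by linarith only [ha, hκ]
  set ρ : ℝ := κ / 3 with hρ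
  have hρ0 : 0 < ρ := by positivity
  have hρa : 4 * a ≤ ρ := by rw [hρ]; linarith only [hκ]
  have ha0 : 0 < a := by linarith only [ha]
  set T : ℝ := 2 * a / ρ with hT
  have hT0 : 0 < T := by positivity
  set r : Fin nX → EuclideanSpace ℝ (Fin nW) := fun x => WithLp.toLp 2 (fun w => f w x) with hr
  set M : Set (EuclideanSpace ℝ (Fin nW)) := slabs r T with hM
  set L : Set (EuclideanSpace ℝ (Fin nW)) := slabs (fun _ : Fin 0 => 0) ρ with hL
  have hMb : IsSymmBody M := isSymmBody_slabs r hT0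
  have hLb : IsSymmBody L := isSymmBody_slabs _ hρ0
  have hKb : IsSymmBody (polarBody M) := hMb.polar
  refine ⟨ρ, polarBody M, hρ0, hKb, ?_⟩
  rw [← slabs_empty, ← hL, bipolar hMb]
  refine ⟨hLb, ?_, ?_⟩
  · obtain ⟨t, ht, hcard⟩ :=
      exists_cov_eq (exists_cov_of_compact hKb.compact hLb.zero_mem_interior)
    rw [← hcard]
    have hrK : ∀ x, r x ∈ polarBody M := by
      intro x y hy
      have := hy.1 x
      rw [real_inner_comm]
      exact (le_abs_self _).trans this
    choose c hc hcL using fun x => ht (r x) (hrK x)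
    have hinj : Function.Injective c := by
      intro x y hxy
      by_contra hne
      obtain ⟨w, hw⟩ := hsep x y hne
      have h1 := (hcL x).2 w
      have h2 := (hcL y).2 w
      rw [PiLp.sub_apply] at h1 h2
      rw [← hxy] at h2
      have h3 : |f w x - f w y| ≤ ρ + ρ := by
        have e : f w x - f w y = ((r x) w - (c x) w) - ((r y) w - (c x) w) := by
          show f w x - f w y = (f w x - (c x) w) - (f w y - (c x) w)
          ring
        rw [e]
        exact (abs_sub _ _).trans (add_le_add h1 h2)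
      have h4 : (κ : ℝ) ≤ 2 * κ / 3 := by
        calc (κ : ℝ) ≤ |f w x - f w y| := hw
          _ ≤ ρ + ρ := h3
          _ = 2 * κ / 3 := by rw [hρ]; ring
      linarith only [ha, hκ, hρ, hw, h3]
    have := Finset.card_le_card_of_injOn (s := Finset.univ) (t := t) c (fun x _ => hc x)
      (fun x _ y _ hxy => hinj hxy)
    simpa only [ge_iff_le, Finset.card_univ, Fintype.card_fin] using this
  · have hex : ∀ j : Fin N, ∃ c : EuclideanSpace ℝ (Fin nW),
        ∀ y ∈ polarBody L, cls (fun w => ρ * y w) = j → y - c ∈ a⁻¹ • M := by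
      intro j
      by_cases hj : ∃ c ∈ polarBody L, cls (fun w => ρ * c w) = j
      · obtain ⟨c, hc, hcj⟩ := hj
        refine ⟨c, fun y hy hyj => ?_⟩
        rw [Set.mem_smul_set_iff_inv_smul_mem₀ (inv_ne_zero ha0.ne'), inv_inv]
        have hy1 := sum_abs_le_of_mem_polar _ hρ0 hy
        have hc1 := sum_abs_le_of_mem_polar _ hρ0 hc
        refine ⟨fun x => ?_, fun w => ?_⟩
        · have h4 := hcls _ _ hy1 hc1 (hyj.trans hcj.symm) x
          have e : ∑ w, (ρ * y w - ρ * c w) * f w x = ρ * inner ℝ (r x) (y - c) := by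
            rw [PiLp.inner_apply, Finset.mul_sum]
            refine Finset.sum_congr rfl fun w _ => ?_
            show (ρ * y w - ρ * c w) * f w x = ρ * inner ℝ (f w x) ((y - c) w)
            rw [PiLp.sub_apply]
            simp
            ring
          rw [e, abs_mul, abs_of_pos hρ0] at h4
          rw [real_inner_smul_right, abs_mul, abs_of_pos ha0]
          have h5 : 4 * (a * |(inner ℝ (r x) (y - c) : ℝ)|) ≤ 4 * 1 := by
            calc 4 * (a * |(inner ℝ (r x) (y - c) : ℝ)|) =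
                (4 * a) * |(inner ℝ (r x) (y - c) : ℝ)| := by ring
              _ ≤ ρ * |(inner ℝ (r x) (y - c) : ℝ)| := by (clear * - hρa; gcongr)
              _ ≤ 4 := h4
              _ = 4 * 1 := by norm_num
          linarith only [h5]
        · have hyw : |ρ * y w| ≤ 1 :=
            (Finset.single_le_sum (f := fun w => |ρ * y w|) (fun _ _ => abs_nonneg _)
              (Finset.mem_univ w)).trans hy1
          have hcw : |ρ * c w| ≤ 1 :=
            (Finset.single_le_sum (f := fun w => |ρ * c w|) (fun _ _ => abs_nonneg _)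
              (Finset.mem_univ w)).trans hc1
          rw [PiLp.smul_apply, PiLp.sub_apply, smul_eq_mul, abs_mul, abs_of_pos ha0, hT,
            le_div_iff₀ hρ0]
          have h6 : |y w - c w| * ρ ≤ 2 := by
            calc |y w - c w| * ρ = |ρ * y w - ρ * c w| := by
                  rw [← mul_sub, abs_mul, abs_of_pos hρ0, mul_comm]
              _ ≤ |ρ * y w| + |ρ * c w| := abs_sub _ _
              _ ≤ 2 := by linarith only [hyw, hcw]
          calc a * |y w - c w| * ρ = a * (|y w - c w| * ρ) := by ring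
            _ ≤ a * 2 := by (clear * - h6 ha; gcongr)
            _ = 2 * a := by ring
      · push Not at hj
        exact ⟨0, fun y hy hyj => absurd hyj (hj y hy)⟩
    choose c hc using hex
    refine (coveringNumber_le (t := Finset.univ.image c) ?_).trans ?_
    · intro y hy
      exact ⟨c (cls fun w => ρ * y w), Finset.mem_image_of_mem _ (Finset.mem_univ _),
        hc _ y hy rfl⟩
    · refine Finset.card_image_le.trans ?_
      simp only [Finset.card_univ, Fintype.card_fin, Std.le_refl]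

end Vale.Agent.P126.CQ
end
end
end

section

section

section

/-!
# P126, quantitative counterexample: derandomised Chernoff bound (S1)
-/

namespace Vale.Agent.P126.CQ

open Finset

/-- second order bound for the exponential. -/
lemma exp_le_two {x : ℝ} (hx : |x| ≤ 1) : Real.exp x ≤ 1 + x + x ^ 2 := by
  have := Real.abs_exp_sub_one_sub_id_le hx
  have h2 := (abs_le.1 this).2
  linarith

/-- exponential moment of a bounded centred variable. -/
lemma moment_le {O : Type} [Fintype O] (Y ν : O → ℝ) (hν : ∀ o, 0 ≤ ν o)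
    (hν1 : ∑ o, ν o = 1) (hY : ∀ o, |Y o| ≤ 1) (h0 : ∑ o, ν o * Y o = 0) (c : ℝ)
    (hc : |c| ≤ 1) : ∑ o, ν o * Real.exp (c * Y o) ≤ Real.exp (c ^ 2) := by
  have h1 : ∀ o, ν o * Real.exp (c * Y o) ≤ ν o + c * (ν o * Y o) + ν o * c ^ 2 := by
    intro o
    have hb : |c * Y o| ≤ 1 := by
      rw [abs_mul]
      exact mul_le_one₀ hc (abs_nonneg _) (hY o)
    have h2 := exp_le_two hb
    have h3 : (c * Y o) ^ 2 ≤ c ^ 2 := by
      have h4 : (Y o) ^ 2 ≤ 1 := by
        rw [← sq_abs]
        exact pow_le_one₀ (abs_nonneg _) (hY o)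
      calc (c * Y o) ^ 2 = c ^ 2 * (Y o) ^ 2 := by ring
        _ ≤ c ^ 2 * 1 := mul_le_mul_of_nonneg_left h4 (sq_nonneg c)
        _ = c ^ 2 := mul_one _
    calc ν o * Real.exp (c * Y o) ≤ ν o * (1 + c * Y o + c ^ 2) :=
          mul_le_mul_of_nonneg_left (by linarith) (hν o)
      _ = ν o + c * (ν o * Y o) + ν o * c ^ 2 := by ring
  calc ∑ o, ν o * Real.exp (c * Y o) ≤ ∑ o, (ν o + c * (ν o * Y o) + ν o * c ^ 2) :=
        Finset.sum_le_sum fun o _ => h1 o
    _ = 1 + c ^ 2 := by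
        rw [Finset.sum_add_distrib, Finset.sum_add_distrib, ← Finset.mul_sum, ← Finset.sum_mul,
          hν1, h0]
        ring
    _ ≤ Real.exp (c ^ 2) := by
        have := Real.add_one_le_exp (c ^ 2)
        linarith

/-- some point does not exceed a weighted average. -/
lemma exists_le_avg {O : Type} [Fintype O] (f ν : O → ℝ) (hν : ∀ o, 0 ≤ ν o)
    (hν1 : ∑ o, ν o = 1) (B : ℝ) (hB : ∑ o, ν o * f o ≤ B) : ∃ o, f o ≤ B := by
  by_contra hc
  push Not at hc
  have h1 : ∀ o, ν o * B ≤ ν o * f o := fun o => mul_le_mul_of_nonneg_left (hc o).le (hν o)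
  have hpos : ∃ o, 0 < ν o := by
    by_contra h
    push Not at h
    have : ∑ o, ν o ≤ 0 := Finset.sum_nonpos fun o _ => h o
    rw [hν1] at this
    linarith
  obtain ⟨o₀, ho₀⟩ := hpos
  have h2 : ∑ o, ν o * B < ∑ o, ν o * f o :=
    Finset.sum_lt_sum (fun o _ => h1 o) ⟨o₀, Finset.mem_univ _,
      mul_lt_mul_of_pos_left (hc o₀) ho₀⟩
  rw [← Finset.sum_mul, hν1, one_mul] at h2
  linarith

/-- S1: derandomised Chernoff bound. -/
theorem exists_sample {O Q : Type} [Fintype O] [Fintype Q] (X : O → Q → ℝ)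
    (hX0 : ∀ o q, 0 ≤ X o q) (hX1 : ∀ o q, X o q ≤ 1) (ν : O → ℝ) (hν : ∀ o, 0 ≤ ν o)
    (hν1 : ∑ o, ν o = 1) (R s : ℕ) (hR : 0 < R) (hs0 : 0 < s)
    (hs : 4 * (R : ℝ) ^ 2 * Real.log (2 * Fintype.card Q) ≤ s) :
    ∃ g : Fin s → O, ∀ q, |(∑ o, ν o * X o q) - (∑ i, X (g i) q) / s| ≤ 1 / R := by
  classical
  obtain ⟨o₁, -⟩ : ∃ o : O, (0 : ℝ) ≤ 0 := by
    obtain ⟨o, -⟩ := exists_le_avg (fun _ : O => (0 : ℝ)) ν hν hν1 0 (by simp only [mul_zero, sum_const_zero, Std.le_refl])
    exact ⟨o, le_rfl⟩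
  have hRr : (1 : ℝ) ≤ R := by exact_mod_cast hR
  have hsr : (0 : ℝ) < s := by exact_mod_cast hs0
  set μ : Q → ℝ := fun q => ∑ o, ν o * X o q with hμ
  have hμ0 : ∀ q, 0 ≤ μ q := fun q => Finset.sum_nonneg fun o _ => mul_nonneg (hν o) (hX0 o q)
  have hμ1 : ∀ q, μ q ≤ 1 := by
    intro q
    calc μ q ≤ ∑ o, ν o * 1 :=
          Finset.sum_le_sum fun o _ => mul_le_mul_of_nonneg_left (hX1 o q) (hν o)
      _ = 1 := by simp only [mul_one, hν1]
  set c : ℝ := 1 / (2 * R) with hc
  have hc0 : 0 < c := by positivity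
  have hc1 : c ≤ 1 := by
    rw [hc, div_le_one (by positivity)]
    linarith only [hRr]
  have hY : ∀ q o, |X o q - μ q| ≤ 1 := by
    intro q o
    rw [abs_le]
    constructor
    · linarith only [hX0 o q, hμ1 q]
    · linarith only [hX1 o q, hμ0 q]
  have hY0 : ∀ q, ∑ o, ν o * (X o q - μ q) = 0 := by
    intro q
    simp only [mul_sub, Finset.sum_sub_distrib, ← Finset.sum_mul, hν1, one_mul]
    exact sub_self _
  have hm : ∀ q (e : ℝ), |e| ≤ 1 → ∑ o, ν o * Real.exp (e * (X o q - μ q)) ≤ Real.exp (e ^ 2) :=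
    fun q e he => moment_le (fun o => X o q - μ q) ν hν hν1 (hY q) (hY0 q) e he
  -- the induction
  have key : ∀ j : ℕ, ∃ g : ℕ → O,
      ∑ q, (Real.exp (c * ∑ i ∈ Finset.range j, (X (g i) q - μ q)) +
        Real.exp (-c * ∑ i ∈ Finset.range j, (X (g i) q - μ q))) ≤
      2 * Fintype.card Q * Real.exp (c ^ 2 * j) := by
    intro j
    induction j with
    | zero =>
      refine ⟨fun _ => o₁, ?_⟩
      simp
      linarith
    | succ j ih =>
      obtain ⟨g, hg⟩ := ih
      set S : Q → ℝ := fun q => ∑ i ∈ Finset.range j, (X (g i) q - μ q) with hS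
      have havg : ∑ o, ν o * (∑ q, (Real.exp (c * (S q + (X o q - μ q))) +
          Real.exp (-c * (S q + (X o q - μ q))))) ≤
          2 * Fintype.card Q * Real.exp (c ^ 2 * (j + 1 : ℕ)) := by
        calc ∑ o, ν o * (∑ q, (Real.exp (c * (S q + (X o q - μ q))) +
            Real.exp (-c * (S q + (X o q - μ q)))))
            = ∑ q, (Real.exp (c * S q) * (∑ o, ν o * Real.exp (c * (X o q - μ q))) +
              Real.exp (-c * S q) * (∑ o, ν o * Real.exp (-c * (X o q - μ q)))) := by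
              simp only [Finset.mul_sum]
              rw [Finset.sum_comm]
              refine Finset.sum_congr rfl fun q _ => ?_
              rw [← Finset.sum_add_distrib]
              refine Finset.sum_congr rfl fun o _ => ?_
              rw [mul_add c, mul_add (-c), Real.exp_add, Real.exp_add]
              ring
          _ ≤ ∑ q, (Real.exp (c * S q) * Real.exp (c ^ 2) +
              Real.exp (-c * S q) * Real.exp (c ^ 2)) := by
              refine Finset.sum_le_sum fun q _ => add_le_add ?_ ?_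
              · exact mul_le_mul_of_nonneg_left (hm q c (by rwa [abs_of_pos hc0]))
                  (Real.exp_pos _).le
              · have := hm q (-c) (by rwa [abs_neg, abs_of_pos hc0])
                rw [neg_sq] at this
                exact mul_le_mul_of_nonneg_left this (Real.exp_pos _).le
          _ = (∑ q, (Real.exp (c * S q) + Real.exp (-c * S q))) * Real.exp (c ^ 2) := by
              rw [Finset.sum_mul]
              exact Finset.sum_congr rfl fun q _ => by ring
          _ ≤ (2 * Fintype.card Q * Real.exp (c ^ 2 * j)) * Real.exp (c ^ 2) :=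
              mul_le_mul_of_nonneg_right hg (Real.exp_pos _).le
          _ = 2 * Fintype.card Q * Real.exp (c ^ 2 * (j + 1 : ℕ)) := by
              rw [mul_assoc, ← Real.exp_add]
              congr 2
              push_cast
              ring
      obtain ⟨o, ho⟩ := exists_le_avg _ ν hν hν1 _ havg
      refine ⟨Function.update g j o, ?_⟩
      refine le_trans (le_of_eq ?_) ho
      refine Finset.sum_congr rfl fun q _ => ?_
      have h1 : ∑ i ∈ Finset.range (j + 1), (X (Function.update g j o i) q - μ q) =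
          S q + (X o q - μ q) := by
        rw [Finset.sum_range_succ, Function.update_self]
        congr 1
        refine Finset.sum_congr rfl fun i hi => ?_
        rw [Function.update_of_ne (Finset.mem_range.1 hi).ne]
      rw [h1]
  obtain ⟨g, hg⟩ := key s
  refine ⟨fun i => g i, fun q => ?_⟩
  set S : ℝ := ∑ i ∈ Finset.range s, (X (g i) q - μ q) with hS
  have h1 : Real.exp (c * |S|) ≤ 2 * Fintype.card Q * Real.exp (c ^ 2 * s) := by
    refine le_trans ?_ hg
    refine le_trans ?_ (Finset.single_le_sum (f := fun q =>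
      (Real.exp (c * ∑ i ∈ Finset.range s, (X (g i) q - μ q)) +
        Real.exp (-c * ∑ i ∈ Finset.range s, (X (g i) q - μ q))))
      (fun q _ => add_nonneg (Real.exp_pos _).le (Real.exp_pos _).le) (Finset.mem_univ q))
    show Real.exp (c * |S|) ≤ Real.exp (c * S) + Real.exp (-c * S)
    rcases le_total 0 S with h | h
    · rw [abs_of_nonneg h]
      linarith only [Real.exp_pos (-c * S)]
    · rw [abs_of_nonpos h]
      have : c * -S = -c * S := by ring
      rw [this]
      linarith only [Real.exp_pos (c * S)]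
  have hQ : (0 : ℝ) < 2 * Fintype.card Q := by
    have : 0 < Fintype.card Q := Fintype.card_pos_iff.2 ⟨q⟩
    have : (0 : ℝ) < Fintype.card Q := by exact_mod_cast this
    linarith only [this]
  have h2 : c * |S| ≤ Real.log (2 * Fintype.card Q) + c ^ 2 * s := by
    have := Real.log_le_log (Real.exp_pos _) h1
    rwa [Real.log_exp, Real.log_mul hQ.ne' (Real.exp_pos _).ne', Real.log_exp] at this
  have h3 : |S| ≤ s / R := by
    have hcR : c * (2 * R) = 1 := by
      rw [hc]; field_simp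
    have hR0 : (0 : ℝ) < R := by linarith only [hRr]
    rw [le_div_iff₀ hR0]
    have e1 : |S| = (2 * R) * (c * |S|) := by
      rw [← mul_assoc, mul_comm (2 * (R : ℝ)) c, hcR, one_mul]
    have e2 : (2 * (R : ℝ)) * (c ^ 2 * s) = c * s := by
      have : (2 * (R : ℝ)) * (c ^ 2 * s) = (c * (2 * R)) * (c * s) := by ring
      rw [this, hcR, one_mul]
    have e3 : |S| ≤ 2 * R * Real.log (2 * Fintype.card Q) + c * s := by
      calc |S| = (2 * R) * (c * |S|) := e1
        _ ≤ (2 * R) * (Real.log (2 * Fintype.card Q) + c ^ 2 * s) :=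
            mul_le_mul_of_nonneg_left h2 (by positivity)
        _ = 2 * R * Real.log (2 * Fintype.card Q) + c * s := by rw [mul_add, e2]
    have e4 : c * s * R = s / 2 := by
      have : c * s * R = (c * (2 * R)) * (s / 2) := by ring
      rw [this, hcR, one_mul]
    calc |S| * R ≤ (2 * R * Real.log (2 * Fintype.card Q) + c * s) * R :=
          mul_le_mul_of_nonneg_right e3 hR0.le
      _ = (4 * (R : ℝ) ^ 2 * Real.log (2 * Fintype.card Q)) / 2 + c * s * R := by ring
      _ ≤ s / 2 + s / 2 := by rw [e4]; linarith only [hs]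
      _ = s := by ring
  have h4 : (∑ o, ν o * X o q) - (∑ i : Fin s, X (g i) q) / s = -S / s := by
    have e5 : ∑ i : Fin s, X (g i) q = ∑ i ∈ Finset.range s, X (g i) q :=
      Fin.sum_univ_eq_sum_range (fun i => X (g i) q) s
    have e6 : S = (∑ i ∈ Finset.range s, X (g i) q) - s * μ q := by
      rw [hS, Finset.sum_sub_distrib]
      simp
    rw [e5, e6]
    show μ q - _ = _
    field_simp
    ring
  rw [h4, abs_div, abs_neg, abs_of_pos hsr, div_le_iff₀ hsr]
  calc |S| ≤ s / R := h3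
    _ = 1 / R * s := by ring

end Vale.Agent.P126.CQ
end
end
end

section

section

section

/-!
# P126, quantitative counterexample: a finite class map for one interpolation
-/

namespace Vale.Agent.P126.CQ

open Vale.Agent.P126.CE

open Classical in
/-- S2 (ClassMap.lean). A finite class map for one interpolation. -/
theorem class_map2 {W X : Type} [Fintype W] {b bp : W → X → Prop} {δ : ℝ} {K N H : ℕ}
    (h : Interp2 b bp δ K N H) (hδ : 0 ≤ δ) (R s : ℕ) (hR : 0 < R) (hs0 : 0 < s)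
    (hs : 16 * (R : ℝ) ^ 2 * Real.log (2 * K) ≤ s) :
    ∃ cl : (W → ℝ) → Fin (N * (H + 1) ^ s), ∀ lam mu : W → ℝ,
      (∀ w, 0 ≤ lam w) → (∀ w, 0 ≤ mu w) → ∑ w, lam w ≤ 1 → ∑ w, mu w ≤ 1 →
      cl lam = cl mu → ∀ z, ∃ g : ℝ,
        mass lam b z - δ ≤ g + 1 / R ∧ g ≤ mass lam bp z + δ ∧
        mass mu b z - δ ≤ g + 1 / R ∧ g ≤ mass mu bp z + δ := by
  obtain ⟨P, Q, T, _, _, _, ev, val, hP, hQ, hT, hI⟩ := h
  have hR' : (0 : ℝ) < R := by exact_mod_cast hR
  have hcard : Fintype.card (P × (Fin s → Option T)) ≤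
      Fintype.card (Fin (N * (H + 1) ^ s)) := by
    rw [Fintype.card_prod, Fintype.card_fun, Fintype.card_fin, Fintype.card_fin,
      Fintype.card_option]
    exact Nat.mul_le_mul hP (Nat.pow_le_pow_left (by omega) s)
  obtain ⟨em⟩ := Function.Embedding.nonempty_of_card_le hcard
  have : Nonempty P := ⟨(hI (fun _ => 0) (fun _ => le_rfl)).choose⟩
  have : Nonempty (W → T) := ⟨(hI (fun _ => 0) (fun _ => le_rfl)).choose_spec.choose⟩
  choose! p τ hth using hI
  let G : (W → ℝ) → Q → ℝ := fun lam π => ∑ w, if val (τ lam w) π then lam w else 0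
  let Xf : Option T → Q → ℝ := fun o π => o.elim 0 fun t => if val t π then 1 else 0
  have hX0 : ∀ o π, 0 ≤ Xf o π := by
    intro o π
    cases o with
    | none => exact le_rfl
    | some t => simp only [Xf, Option.elim_some]; split_ifs <;> norm_num
  have hX1 : ∀ o π, Xf o π ≤ 1 := by
    intro o π
    cases o with
    | none => simp [Xf]
    | some t => simp only [Xf, Option.elim_some]; split_ifs <;> norm_num
  let nu : (W → ℝ) → Option T → ℝ := fun lam o =>
    o.elim (1 - ∑ w, lam w) fun t => ∑ w, if τ lam w = t then lam w else 0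
  have hQ' : Real.log (2 * Fintype.card Q) ≤ Real.log (2 * K) := by
    rcases Nat.eq_zero_or_pos (Fintype.card Q) with h0 | h0
    · rw [h0]
      rcases Nat.eq_zero_or_pos K with h1 | h1
      · rw [h1]
      · have : (1 : ℝ) ≤ K := by exact_mod_cast h1
        rw [Nat.cast_zero, mul_zero, Real.log_zero]
        exact Real.log_nonneg (by linarith only [this])
    · have h1 : (0 : ℝ) < Fintype.card Q := by exact_mod_cast h0
      have h2 : (Fintype.card Q : ℝ) ≤ K := by exact_mod_cast hQ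
      exact Real.log_le_log (by linarith only [h1]) (by linarith only [h2])
  have hs' : 4 * ((2 * R : ℕ) : ℝ) ^ 2 * Real.log (2 * Fintype.card Q) ≤ s := by
    refine le_trans ?_ hs
    push_cast
    have : 16 * (R : ℝ) ^ 2 * Real.log (2 * Fintype.card Q) ≤
        16 * (R : ℝ) ^ 2 * Real.log (2 * K) :=
      mul_le_mul_of_nonneg_left hQ' (by positivity)
    linarith only [this]
  have hnu : ∀ lam : W → ℝ, (∀ w, 0 ≤ lam w) → ∑ w, lam w ≤ 1 →
      ∃ g : Fin s → Option T, ∀ π, |G lam π - (∑ i, Xf (g i) π) / s| ≤ 1 / ((2 * R : ℕ) : ℝ) := by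
    intro lam h0 h1
    have hsum : ∑ t, (∑ w, if τ lam w = t then lam w else 0) = ∑ w, lam w := by
      rw [Finset.sum_comm]
      refine Finset.sum_congr rfl fun w _ => ?_
      rw [Finset.sum_ite_eq]
      simp only [Finset.mem_univ, ↓reduceIte]
    obtain ⟨g, hg⟩ := exists_sample Xf hX0 hX1 (nu lam) (by
        intro o
        cases o with
        | none => simp only [nu, Option.elim_none]; linarith only [h1]
        | some t =>
          simp only [nu, Option.elim_some]
          refine Finset.sum_nonneg fun w _ => ?_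
          split_ifs
          · exact h0 w
          · exact le_rfl) (by
        rw [Fintype.sum_option]
        simp only [nu, Option.elim_none, Option.elim_some]
        rw [hsum]
        ring) (2 * R) s (by omega) hs0 hs'
    refine ⟨g, fun π => ?_⟩
    have hG : G lam π = ∑ o, nu lam o * Xf o π := by
      rw [Fintype.sum_option]
      simp only [nu, Xf, G, Option.elim_none, Option.elim_some, mul_zero, zero_add,
        Finset.sum_mul]
      rw [Finset.sum_comm]
      refine Finset.sum_congr rfl fun w _ => ?_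
      rw [Finset.sum_eq_single (τ lam w)]
      · simp
      · intro t _ ht
        rw [if_neg (Ne.symm ht), zero_mul]
      · intro hn
        exact absurd (Finset.mem_univ _) hn
    rw [hG]
    exact hg π
  choose! gs hgs using hnu
  let dat : (W → ℝ) → P × (Fin s → Option T) := fun lam => (p lam, gs lam)
  let gv : P × (Fin s → Option T) → X → ℝ := fun d z =>
    (∑ i, Xf (d.2 i) (ev d.1 z)) / s - 1 / ((2 * R : ℕ) : ℝ)
  have key : ∀ lam : W → ℝ, (∀ w, 0 ≤ lam w) → ∑ w, lam w ≤ 1 → ∀ z,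
      mass lam b z - δ ≤ gv (dat lam) z + 1 / R ∧ gv (dat lam) z ≤ mass lam bp z + δ := by
    intro lam h0 h1 z
    have herr := hth lam h0 z
    have herr' : mass lam (fun w z => (b w z ∧ ¬ val (τ lam w) (ev (p lam) z)) ∨
        (val (τ lam w) (ev (p lam) z) ∧ ¬ bp w z)) z ≤ δ := by
      have h3 : δ * ∑ w, lam w ≤ δ := by nlinarith only [hδ, h1]
      refine le_trans (le_of_eq ?_) (le_trans herr h3)
      unfold mass
      exact Finset.sum_congr rfl fun w _ => by split_ifs <;> rfl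
    have e1 : mass lam b z ≤ G lam (ev (p lam) z) + δ := by
      have := mass_le_add lam h0 b (fun w z => val (τ lam w) (ev (p lam) z))
        (fun w z => (b w z ∧ ¬ val (τ lam w) (ev (p lam) z)) ∨
          (val (τ lam w) (ev (p lam) z) ∧ ¬ bp w z)) z (by
          intro w hb
          by_cases ht : val (τ lam w) (ev (p lam) z)
          · exact Or.inl ht
          · exact Or.inr (Or.inl ⟨hb, ht⟩))
      have h2 : mass lam (fun w z => val (τ lam w) (ev (p lam) z)) z
        = G lam (ev (p lam) z) := rfl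
      rw [h2] at this
      linarith only [herr', this]
    have e2 : G lam (ev (p lam) z) ≤ mass lam bp z + δ := by
      have := mass_le_add lam h0 (fun w z => val (τ lam w) (ev (p lam) z)) bp
        (fun w z => (b w z ∧ ¬ val (τ lam w) (ev (p lam) z)) ∨
          (val (τ lam w) (ev (p lam) z) ∧ ¬ bp w z)) z (by
          intro w hb
          by_cases ht : bp w z
          · exact Or.inl ht
          · exact Or.inr (Or.inr ⟨hb, ht⟩))
      have h2 : mass lam (fun w z => val (τ lam w) (ev (p lam) z)) z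
        = G lam (ev (p lam) z) := rfl
      rw [h2] at this
      linarith only [herr', this]
    have e3 := abs_le.1 (hgs lam h0 h1 (ev (p lam) z))
    have e4 : (1 : ℝ) / R = 1 / ((2 * R : ℕ) : ℝ) + 1 / ((2 * R : ℕ) : ℝ) := by
      push_cast
      field_simp
      norm_num
    simp only [gv, dat]
    rw [e4]
    constructor
    · linarith only [e1, e3]
    · linarith only [e2, e3]
  refine ⟨fun lam => em (dat lam), ?_⟩
  intro lam mu hl hm hl1 hm1 hcl z
  have hd : dat lam = dat mu := em.injective hcl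
  refine ⟨gv (dat lam) z, (key lam hl hl1 z).1, (key lam hl hl1 z).2, ?_, ?_⟩
  · rw [hd]; exact (key mu hm hm1 z).1
  · rw [hd]; exact (key mu hm hm1 z).2

end Vale.Agent.P126.CQ
end
end
end

section

section

section

/-!
# P126, counterexample: covering most of the mass by few sets
-/

namespace Vale.Agent.P126.CE

open Classical in
/-- `m` of the sets `{ω | R v ω}` can be chosen so that no further one of the sets contains more
than the proportion `1 / m` of the mass outside of the chosen ones. -/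
theorem exists_cover {Ω V : Type} [Fintype Ω] [Fintype V] [Nonempty V] (R : V → Ω → Prop)
    (m : ℕ) (hm : 0 < m) (lam : Ω → ℝ) (h0 : ∀ ω, 0 ≤ lam ω) :
    ∃ g : Fin m → V, ∀ v,
      (∑ ω, if R v ω ∧ ∀ q, ¬ R (g q) ω then lam ω else 0) ≤ (∑ ω, lam ω) / m := by
  set T := ∑ ω, lam ω with hT
  have hT0 : 0 ≤ T := Finset.sum_nonneg (fun ω _ => h0 ω)
  have hm' : (0:ℝ) < m := by exact_mod_cast hm
  have hle : ∀ (p : Ω → Prop) [DecidablePred p], (∑ ω, if p ω then lam ω else 0) ≤ T := by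
    intro p _
    refine Finset.sum_le_sum (fun ω _ => ?_)
    split_ifs
    · exact le_rfl
    · exact h0 ω
  rcases hT0.eq_or_lt with hz | hpos
  · refine ⟨fun _ => Classical.arbitrary V, fun v => ?_⟩
    calc _ ≤ T := hle _
      _ = T / m := by rw [← hz, zero_div]
  · obtain ⟨Y, -, hY⟩ := Finset.exists_max_image (Finset.univ : Finset (Finset V))
      (fun Y => (∑ ω, if ∃ y ∈ Y, R y ω then lam ω else 0) - T / m * Y.card)
      ⟨∅, Finset.mem_univ _⟩
    have hcard : Y.card ≤ m := by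
      have h1 := hY ∅ (Finset.mem_univ _)
      simp only [Finset.notMem_empty, false_and, exists_false, if_false, Finset.sum_const_zero,
        Finset.card_empty, Nat.cast_zero, mul_zero, sub_zero] at h1
      have h2 := hle (fun ω => ∃ y ∈ Y, R y ω)
      have h3 : T / m * Y.card ≤ T := by linarith only [h1, h2]
      have h4 : (Y.card : ℝ) ≤ m := by
        rw [div_mul_eq_mul_div, div_le_iff₀ hm'] at h3
        exact le_of_mul_le_mul_left h3 hpos
      exact_mod_cast h4
    obtain ⟨g, hg⟩ : ∃ g : Fin m → V, ∀ y ∈ Y, ∃ q, g q = y := by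
      let e := Y.equivFin
      refine ⟨fun q => if h : q.val < Y.card then (e.symm ⟨q, h⟩ : V) else Classical.arbitrary V,
        fun y hy => ⟨⟨(e ⟨y, hy⟩).val, lt_of_lt_of_le (e ⟨y, hy⟩).isLt hcard⟩, ?_⟩⟩
      simp
    refine ⟨g, fun v => ?_⟩
    have h1 := hY (insert v Y) (Finset.mem_univ _)
    have h2 : (∑ ω, if ∃ y ∈ Y, R y ω then lam ω else 0) +
        (∑ ω, if R v ω ∧ ∀ q, ¬ R (g q) ω then lam ω else 0) ≤
        ∑ ω, if ∃ y ∈ insert v Y, R y ω then lam ω else 0 := by
      rw [← Finset.sum_add_distrib]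
      refine Finset.sum_le_sum (fun ω _ => ?_)
      have h0ω := h0 ω
      by_cases ha : ∃ y ∈ Y, R y ω
      · obtain ⟨y, hy, hyR⟩ := ha
        obtain ⟨q, hq⟩ := hg y hy
        have hb : ¬ (R v ω ∧ ∀ q, ¬ R (g q) ω) := fun h => h.2 q (hq ▸ hyR)
        have hc : ∃ y ∈ insert v Y, R y ω := ⟨y, Finset.mem_insert_of_mem hy, hyR⟩
        rw [if_pos ⟨y, hy, hyR⟩, if_neg hb, if_pos hc, add_zero]
      · rw [if_neg ha, zero_add]
        by_cases hb : R v ω ∧ ∀ q, ¬ R (g q) ω
        · have hc : ∃ y ∈ insert v Y, R y ω := ⟨v, Finset.mem_insert_self _ _, hb.1⟩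
          rw [if_pos hb, if_pos hc]
        · rw [if_neg hb]
          split_ifs
          · exact h0ω
          · exact le_rfl
    have h3 : ((insert v Y).card : ℝ) ≤ Y.card + 1 := by
      exact_mod_cast Finset.card_insert_le v Y
    have h4 : T / m * ((insert v Y).card : ℝ) ≤ T / m * (Y.card + 1) :=
      mul_le_mul_of_nonneg_left h3 (by positivity)
    have h5 : (∑ ω, if ∃ y ∈ insert v Y, R y ω then lam ω else 0) - T / m * (insert v Y).card ≤
      (∑ ω, if ∃ y ∈ Y, R y ω then lam ω else 0) - T / m * Y.card := h1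
    linarith only [h1, h2, h4]

end Vale.Agent.P126.CE
end
end
end

section

section

section

/-!
# P126, counterexample: the top step

The kernel `top` on `B ×ₗ J` and the lift of the kernel `top` on `J` can be interpolated with
few data.
-/

namespace Vale.Agent.P126.CE

section
variable {B J A A' S : Type} [Fintype B] [LinearOrder B] [Fintype J] [LinearOrder J]
  [Fintype A] [Fintype A'] [Fintype S]

/-- `w` agrees with the word `v` in its block before its time. -/
def Rlt (v : J → A) (w : (B ×ₗ J) × ((B ×ₗ J) → A)) : Prop :=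
  ∀ j < pos w, w.2 (toLex (blk w, j)) = v j

/-- `w` agrees with the word `v` in its block up to its time. -/
def Rle (v : J → A) (w : (B ×ₗ J) × ((B ×ₗ J) → A)) : Prop :=
  ∀ j ≤ pos w, w.2 (toLex (blk w, j)) = v j

/-- `w` agrees with the word `y` before its time. -/
def Rw (y : (B ×ₗ J) → A) (w : (B ×ₗ J) × ((B ×ₗ J) → A)) : Prop :=
  ∀ i' < w.1, w.2 i' = y i'

omit [Fintype B] [Fintype J] [LinearOrder B] [LinearOrder J] [Fintype A] in
theorem toLex_blk_pos (w : (B ×ₗ J) × ((B ×ₗ J) → A)) : toLex (blk w, pos w) = w.1 := rfl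

omit [Fintype B] [Fintype J] [Fintype A] in
theorem toLex_lt (w : (B ×ₗ J) × ((B ×ₗ J) → A)) {j : J} (hj : j < pos w) :
    toLex (blk w, j) < w.1 := by
  rw [← toLex_blk_pos w]
  exact Prod.Lex.toLex_lt_toLex.2 (Or.inr ⟨rfl, hj⟩)

open Classical in
omit [Fintype A'] in
/-- The choice of the coordinate. -/
theorem exists_sigma [Nonempty S] (c : A → S → A') (e t n : ℕ) (he : 0 < e) (ht : 0 < t)
    (hS : Fintype.card S = e * t)
    (hc : ∀ a a', a ≠ a' → (Finset.univ.filter (fun s => c a s = c a' s)).card ≤ t)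
    (lam : (B ×ₗ J) × ((B ×ₗ J) → A) → ℝ) (h0 : ∀ w, 0 ≤ lam w)
    (y : Fin n → (B ×ₗ J) → A) :
    ∃ σ : S, (∑ w, ∑ q, if w.2 w.1 ≠ y q w.1 ∧ c (w.2 w.1) σ = c (y q w.1) σ then lam w else 0)
      ≤ (n : ℝ) / e * ∑ w, lam w := by
  set T := ∑ w, lam w with hT
  have h1 : ∑ σ : S, (∑ w, ∑ q, if w.2 w.1 ≠ y q w.1 ∧ c (w.2 w.1) σ = c (y q w.1) σ
      then lam w else 0) ≤ ∑ σ : S, (n : ℝ) / e * T := by
    rw [Finset.sum_comm]
    have h2 : ∀ w, (∑ σ : S, ∑ q, if w.2 w.1 ≠ y q w.1 ∧ c (w.2 w.1) σ = c (y q w.1) σ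
        then lam w else 0) ≤ (n : ℝ) * t * lam w := by
      intro w
      rw [Finset.sum_comm]
      have h3 : ∀ q : Fin n, (∑ σ : S, if w.2 w.1 ≠ y q w.1 ∧ c (w.2 w.1) σ = c (y q w.1) σ
          then lam w else 0) ≤ t * lam w := by
        intro q
        by_cases hq : w.2 w.1 = y q w.1
        · simp only [hq, ne_eq, not_true_eq_false, false_and, if_false, Finset.sum_const_zero]
          exact mul_nonneg (Nat.cast_nonneg _) (h0 w)
        · simp only [ne_eq, hq, not_false_eq_true, true_and]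
          rw [← Finset.sum_filter, Finset.sum_const, nsmul_eq_mul]
          exact mul_le_mul_of_nonneg_right (by exact_mod_cast hc _ _ hq) (h0 w)
      calc _ ≤ ∑ q : Fin n, (t : ℝ) * lam w := Finset.sum_le_sum (fun q _ => h3 q)
        _ = (n : ℝ) * t * lam w := by
          rw [Finset.sum_const, nsmul_eq_mul, Finset.card_univ, Fintype.card_fin, mul_assoc]
    calc _ ≤ ∑ w, (n : ℝ) * t * lam w := Finset.sum_le_sum (fun w _ => h2 w)
      _ = (n : ℝ) * t * T := by rw [← Finset.mul_sum]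
      _ = ∑ σ : S, (n : ℝ) / e * T := by
        rw [Finset.sum_const, nsmul_eq_mul, Finset.card_univ, hS]
        have : (e : ℝ) ≠ 0 := by exact_mod_cast he.ne'
        push_cast
        field_simp
  obtain ⟨σ, -, hσ⟩ := Finset.exists_le_of_sum_le Finset.univ_nonempty h1
  exact ⟨σ, hσ⟩

open Classical in
omit [Fintype B] [LinearOrder B] [Fintype J] [LinearOrder J] [Fintype A] [Fintype A'] [Fintype S] in
/-- Covering for two relations at the same time. -/
theorem exists_cover_two {Ω V : Type} [Fintype Ω] [Fintype V] [Nonempty V] (R1 R2 : V → Ω → Prop)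
    (m : ℕ) (hm : 0 < m) (lam : Ω → ℝ) (h0 : ∀ ω, 0 ≤ lam ω) :
    ∃ g : Fin (2 * m) → V, ∀ v,
      (∑ ω, ((if R1 v ω ∧ ∀ q, ¬ R1 (g q) ω then lam ω else 0) +
        (if R2 v ω ∧ ∀ q, ¬ R2 (g q) ω then lam ω else 0))) ≤ (∑ ω, lam ω) / m := by
  obtain ⟨g, hg⟩ := exists_cover (Ω := Ω × Bool) (V := V)
    (fun v ω => if ω.2 = true then R1 v ω.1 else R2 v ω.1) (2 * m) (by omega)
    (fun ω => lam ω.1) (fun ω => h0 _)
  refine ⟨g, fun v => ?_⟩
  have h1 := hg v
  rw [Fintype.sum_prod_type, Fintype.sum_prod_type] at h1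
  simp only [Fintype.sum_bool, if_true, Bool.false_eq_true, if_false] at h1
  have h2 : (∑ ω, (lam ω + lam ω)) / ((2 * m : ℕ) : ℝ) = (∑ ω, lam ω) / m := by
    rw [Finset.sum_add_distrib]
    push_cast
    have : (m : ℝ) ≠ 0 := by exact_mod_cast hm.ne'
    field_simp
    ring
  rw [h2] at h1
  exact h1

open Classical in
/-- The choice of the block words in the column `i`. -/
theorem exists_block_words [Nonempty A] (n2 : ℕ) (hn2 : 0 < n2)
    (lam : (B ×ₗ J) × ((B ×ₗ J) → A) → ℝ) (h0 : ∀ w, 0 ≤ lam w) (i : B ×ₗ J) :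
    ∃ g : Fin (2 * n2) → J → A, ∀ v : J → A,
      (∑ w, if w.1 = i then ((if Rlt v w ∧ ∀ q, ¬ Rlt (g q) w then lam w else 0) +
        (if Rle v w ∧ ∀ q, ¬ Rle (g q) w then lam w else 0)) else 0)
      ≤ (∑ w, if w.1 = i then lam w else 0) / n2 := by
  obtain ⟨g, hg⟩ := exists_cover_two (Ω := ((B ×ₗ J) × ((B ×ₗ J) → A))) (V := J → A)
    Rlt Rle n2 hn2 (fun w => if w.1 = i then lam w else 0)
    (fun w => by
      split_ifs
      · exact h0 _
      · exact le_rfl)
  refine ⟨g, fun v => le_trans (le_of_eq ?_) (hg v)⟩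
  refine Finset.sum_congr rfl (fun w _ => ?_)
  by_cases hw : w.1 = i
  · simp only [hw, if_true]
  · simp only [hw, if_false, ite_self, add_zero]

open Classical in
/-- The observation of the word `z`, given the data `p`. -/
noncomputable def evTop (c : A → S → A') (n nh n2 : ℕ)
    (p : S × (Fin n → (B ×ₗ J) → A') × (Fin nh → (B ×ₗ J) × (Fin (2 * n2) → J → A)))
    (z : (B ×ₗ J) → A) :
    ((B ×ₗ J) → Fin n → Bool) × (Fin nh → Fin (2 * n2) → Bool × Bool) :=
  (fun i q => decide (∀ j ≤ (ofLex i).2, c (z (toLex ((ofLex i).1, j))) p.1 =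
      p.2.1 q (toLex ((ofLex i).1, j))),
   fun k q => (decide (∀ j < (ofLex (p.2.2 k).1).2,
        z (toLex ((ofLex (p.2.2 k).1).1, j)) = (p.2.2 k).2 q j),
      decide (∀ j ≤ (ofLex (p.2.2 k).1).2,
        z (toLex ((ofLex (p.2.2 k).1).1, j)) = (p.2.2 k).2 q j)))

open Classical in
/-- The decision about `w`, given the observation. -/
def thTop (c : A → S → A') {n nh n2 : ℕ} (σ : S) (y : Fin n → (B ×ₗ J) → A)
    (h : Fin nh → (B ×ₗ J)) (v : (B ×ₗ J) → Fin (2 * n2) → J → A)
    (w : (B ×ₗ J) × ((B ×ₗ J) → A))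
    (o : ((B ×ₗ J) → Fin n → Bool) × (Fin nh → Fin (2 * n2) → Bool × Bool)) : Prop :=
  if hk : ∃ k, h k = w.1 then
    (∃ q, (o.2 hk.choose q).1 = true ∧ Rlt (v w.1 q) w) ∧
      ¬ (∃ q, (o.2 hk.choose q).2 = true ∧ Rle (v w.1 q) w)
  else ∃ q, o.1 w.1 q = true ∧
    (∀ j < pos w, c (w.2 (toLex (blk w, j))) σ = c (y q (toLex (blk w, j))) σ) ∧
      c (w.2 w.1) σ ≠ c (y q w.1) σ

/-- Agreement in the block before the time and disagreement at the time gives the lifted kernel. -/
theorem lift_of_Rlt (c : A → S → A') (hinj : Function.Injective c)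
    (w : (B ×ₗ J) × ((B ×ₗ J) → A)) (z : (B ×ₗ J) → A)
    (h1 : Rlt (fun j => z (toLex (blk w, j))) w) (h2 : w.2 w.1 ≠ z w.1) :
    lift c top w z := by
  have h3 : c (w.2 w.1) ≠ c (z w.1) := fun h => h2 (hinj h)
  obtain ⟨s, hs⟩ := Function.ne_iff.1 h3
  refine ⟨s, fun j hj => ?_, hs⟩
  have := h1 j hj
  simp only [pw, pr] at *
  rw [this]

/-- Heavy columns. -/
theorem heavy_fail (c : A → S → A') (hinj : Function.Injective c) {n nh n2 : ℕ} (σ : S)
    (y : Fin n → (B ×ₗ J) → A)
    (h : Fin nh → (B ×ₗ J)) (v : (B ×ₗ J) → Fin (2 * n2) → J → A)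
    (w : (B ×ₗ J) × ((B ×ₗ J) → A)) (z : (B ×ₗ J) → A) (hk : ∃ k, h k = w.1)
    (hf : (top w z ∧ ¬ thTop c σ y h v w
        (evTop c n nh n2 (σ, fun q i => c (y q i) σ, fun k => (h k, v (h k))) z)) ∨
      (thTop c σ y h v w
        (evTop c n nh n2 (σ, fun q i => c (y q i) σ, fun k => (h k, v (h k))) z) ∧
        ¬ lift c top w z)) :
    (Rlt (fun j => z (toLex (blk w, j))) w ∧ ∀ q, ¬ Rlt (v w.1 q) w) ∨
    (Rle (fun j => z (toLex (blk w, j))) w ∧ ∀ q, ¬ Rle (v w.1 q) w) := by
  have hth : thTop c σ y h v w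
        (evTop c n nh n2 (σ, fun q i => c (y q i) σ, fun k => (h k, v (h k))) z) ↔
      ((∃ q, (∀ j < pos w, z (toLex (blk w, j)) = v w.1 q j) ∧ Rlt (v w.1 q) w) ∧
      ¬ (∃ q, (∀ j ≤ pos w, z (toLex (blk w, j)) = v w.1 q j) ∧ Rle (v w.1 q) w)) := by
    have hc := hk.choose_spec
    unfold thTop
    rw [dif_pos hk]
    simp only [evTop, decide_eq_true_eq, hc]
    rfl
  rw [hth] at hf
  rcases hf with ⟨ht, hf⟩ | ⟨hf, hl⟩
  · left
    have h1 : Rlt (fun j => z (toLex (blk w, j))) w := fun j hj => ht.1 _ (toLex_lt w hj)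
    refine ⟨h1, fun q hq => hf ⟨⟨q, fun j hj => ?_, hq⟩, ?_⟩⟩
    · rw [← hq j hj, h1 j hj]
    · rintro ⟨q', h2, h3⟩
      apply ht.2
      have h4 := h2 (pos w) le_rfl
      have h5 := h3 (pos w) le_rfl
      rw [toLex_blk_pos] at h4 h5
      rw [h4, h5]
  · right
    obtain ⟨⟨q, h2, h3⟩, h4⟩ := hf
    have h1 : Rlt (fun j => z (toLex (blk w, j))) w := fun j hj => by
      rw [h3 j hj]; exact (h2 j hj).symm
    have h5 : w.2 w.1 = z w.1 := by
      by_contra h6
      exact hl (lift_of_Rlt c hinj w z h1 h6)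
    have h6 : Rle (fun j => z (toLex (blk w, j))) w := by
      intro j hj
      rcases hj.lt_or_eq with hj | hj
      · exact h1 j hj
      · rw [hj, toLex_blk_pos]
        exact h5
    refine ⟨h6, fun q' hq' => h4 ⟨q', fun j hj => ?_, hq'⟩⟩
    rw [← hq' j hj, h6 j hj]

/-- Light columns. -/
theorem light_fail (c : A → S → A') {n nh n2 : ℕ} (σ : S)
    (y : Fin n → (B ×ₗ J) → A)
    (h : Fin nh → (B ×ₗ J)) (v : (B ×ₗ J) → Fin (2 * n2) → J → A)
    (w : (B ×ₗ J) × ((B ×ₗ J) → A)) (z : (B ×ₗ J) → A) (hk : ∀ k, h k ≠ w.1)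
    (hf : (top w z ∧ ¬ thTop c σ y h v w
        (evTop c n nh n2 (σ, fun q i => c (y q i) σ, fun k => (h k, v (h k))) z)) ∨
      (thTop c σ y h v w
        (evTop c n nh n2 (σ, fun q i => c (y q i) σ, fun k => (h k, v (h k))) z) ∧
        ¬ lift c top w z)) :
    (Rw z w ∧ ∀ q, ¬ Rw (y q) w) ∨
    (∃ q, w.2 w.1 ≠ y q w.1 ∧ c (w.2 w.1) σ = c (y q w.1) σ) ∨
    ((∃ q, ∀ i' < w.1, z i' = y q i') ∧ ∀ q, (∀ i' < w.1, z i' = y q i') → z w.1 ≠ y q w.1) := by
  have hk' : ¬ ∃ k, h k = w.1 := fun ⟨k, hk2⟩ => hk k hk2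
  have hth : thTop c σ y h v w
        (evTop c n nh n2 (σ, fun q i => c (y q i) σ, fun k => (h k, v (h k))) z) ↔
      ∃ q, (∀ j ≤ pos w, c (z (toLex (blk w, j))) σ = c (y q (toLex (blk w, j))) σ) ∧
        (∀ j < pos w, c (w.2 (toLex (blk w, j))) σ = c (y q (toLex (blk w, j))) σ) ∧
        c (w.2 w.1) σ ≠ c (y q w.1) σ := by
    unfold thTop
    rw [dif_neg hk']
    simp only [evTop, decide_eq_true_eq]
    rfl
  rw [hth] at hf
  rcases hf with ⟨ht, hf⟩ | ⟨⟨q, h1, h2, h3⟩, hl⟩
  · by_cases hcov : ∃ q, Rw (y q) w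
    · right
      by_cases hq : ∃ q, Rw (y q) w ∧ z w.1 = y q w.1
      · left
        obtain ⟨q, hq1, hq2⟩ := hq
        refine ⟨q, fun h => ht.2 (h.trans hq2.symm), ?_⟩
        by_contra hne
        refine hf ⟨q, fun j hj => ?_, fun j hj => ?_, hne⟩
        · rcases hj.lt_or_eq with hj | hj
          · have := toLex_lt w hj
            rw [← ht.1 _ this, hq1 _ this]
          · rw [hj, toLex_blk_pos, hq2]
        · have := toLex_lt w hj
          rw [hq1 _ this]
      · right
        obtain ⟨q, hq1⟩ := hcov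
        refine ⟨⟨q, fun i' hi' => (ht.1 i' hi').symm.trans (hq1 i' hi')⟩, fun q' hq' hz => hq
          ⟨q', fun i' hi' => (ht.1 i' hi').trans (hq' i' hi'), hz⟩⟩
    · left
      exact ⟨ht.1, fun q hq => hcov ⟨q, hq⟩⟩
  · exfalso
    refine hl ⟨σ, fun j hj => ?_, ?_⟩
    · have h4 := h1 j (le_of_lt hj)
      have h5 := h2 j hj
      simp only [pw, pr]
      rw [h4, h5]
    · have h4 := h1 (pos w) le_rfl
      rw [toLex_blk_pos] at h4
      intro h5
      apply h3
      have h6 : c (w.2 w.1) σ = c (z w.1) σ := h5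
      rw [h6, h4]

open Classical in
/-- The top step: the kernel `top` on `B ×ₗ J` and the lift of the kernel `top` on `J` can be
interpolated with few data. -/
theorem interp_top_inj [Nonempty A] [Nonempty A'] [Nonempty S] [Nonempty B] [Nonempty J]
    (c : A → S → A') (hinj : Function.Injective c) (e t n nh n2 : ℕ) (he : 0 < e) (ht : 0 < t)
    (hn : 0 < n) (hnh : 0 < nh) (hn2 : 0 < n2) (hS : Fintype.card S = e * t)
    (hc : ∀ a a', a ≠ a' → (Finset.univ.filter (fun s => c a s = c a' s)).card ≤ t) :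
    Interp (top (I := B ×ₗ J) (A := A)) (lift (B := B) c top)
      ((n : ℝ) / e + 1 / nh + 1 / n + 1 / n2)
      (2 ^ (n * Fintype.card (B ×ₗ J) + 4 * nh * n2))
      (Fintype.card S * Fintype.card A' ^ (n * Fintype.card (B ×ₗ J)) *
        (Fintype.card (B ×ₗ J) * Fintype.card A ^ (2 * n2 * Fintype.card J)) ^ nh) := by
  refine ⟨S × (Fin n → (B ×ₗ J) → A') × (Fin nh → (B ×ₗ J) × (Fin (2 * n2) → J → A)),
    ((B ×ₗ J) → Fin n → Bool) × (Fin nh → Fin (2 * n2) → Bool × Bool), inferInstance,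
    inferInstance, evTop c n nh n2, ?_, ?_, ?_⟩
  · apply le_of_eq
    simp only [Fintype.card_prod, Fintype.card_fun, Fintype.card_fin]
    ring
  · apply le_of_eq
    simp only [Fintype.card_prod, Fintype.card_fun, Fintype.card_fin, Fintype.card_bool]
    rw [pow_add, pow_mul, ← pow_mul, ← pow_mul, ← pow_mul]
    congr 1
    rw [show (2 * 2 : ℕ) = 2 ^ 2 from rfl, ← pow_mul]
    congr 1
    ring
  · intro lam h0
    obtain ⟨y, hy⟩ := exists_cover (V := (B ×ₗ J) → A) (fun y w => Rw y w) n hn lam h0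
    obtain ⟨σ, hσ⟩ := exists_sigma c e t n he ht hS hc lam h0 y
    obtain ⟨h, hh⟩ := exists_cover (V := B ×ₗ J)
      (fun i (w : (B ×ₗ J) × ((B ×ₗ J) → A)) => w.1 = i) nh hnh lam h0
    choose v hv using exists_block_words (A := A) n2 hn2 lam h0
    refine ⟨(σ, fun q i => c (y q i) σ, fun k => (h k, v (h k))), thTop c σ y h v, fun z => ?_⟩
    set T := ∑ w, lam w with hT
    -- the special column
    obtain ⟨i0, hi0⟩ : ∃ i0 : B ×ₗ J, ∀ i, ((∃ q, ∀ i' < i, z i' = y q i') ∧
        ∀ q, (∀ i' < i, z i' = y q i') → z i ≠ y q i) → i = i0 := by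
      by_cases hex : ∃ i, ((∃ q, ∀ i' < i, z i' = y q i') ∧
        ∀ q, (∀ i' < i, z i' = y q i') → z i ≠ y q i)
      · obtain ⟨i0, h1⟩ := hex
        refine ⟨i0, fun i h2 => ?_⟩
        rcases lt_trichotomy i i0 with hlt | heq | hgt
        · obtain ⟨q, hq⟩ := h1.1
          exact absurd (hq i hlt) (h2.2 q (fun i' hi' => hq i' (hi'.trans hlt)))
        · exact heq
        · obtain ⟨q, hq⟩ := h2.1
          exact absurd (hq i0 hgt) (h1.2 q (fun i' hi' => hq i' (hi'.trans hgt)))
      · exact ⟨Classical.arbitrary _, fun i hi => absurd ⟨i, hi⟩ hex⟩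
    -- the pointwise estimate
    set U1 : (B ×ₗ J) × ((B ×ₗ J) → A) → ℝ := fun w =>
      if Rw z w ∧ ∀ q, ¬ Rw (y q) w then lam w else 0 with hU1
    set U2 : (B ×ₗ J) × ((B ×ₗ J) → A) → ℝ := fun w =>
      ∑ q, if w.2 w.1 ≠ y q w.1 ∧ c (w.2 w.1) σ = c (y q w.1) σ then lam w else 0 with hU2
    set U3 : (B ×ₗ J) × ((B ×ₗ J) → A) → ℝ := fun w =>
      if w.1 = i0 ∧ ∀ k, ¬ w.1 = h k then lam w else 0 with hU3
    set U4 : (B ×ₗ J) × ((B ×ₗ J) → A) → ℝ := fun w =>
      (if Rlt (fun j => z (toLex (blk w, j))) w ∧ ∀ q, ¬ Rlt (v w.1 q) w then lam w else 0) +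
      (if Rle (fun j => z (toLex (blk w, j))) w ∧ ∀ q, ¬ Rle (v w.1 q) w then lam w else 0)
      with hU4
    have n1 : ∀ w, 0 ≤ U1 w := fun w => by
      simp only [hU1]; split_ifs
      · exact h0 w
      · exact le_rfl
    have n2' : ∀ w, 0 ≤ U2 w := fun w => Finset.sum_nonneg (fun q _ => by
      split_ifs
      · exact h0 w
      · exact le_rfl)
    have n3 : ∀ w, 0 ≤ U3 w := fun w => by
      simp only [hU3]; split_ifs
      · exact h0 w
      · exact le_rfl
    have n4 : ∀ w, 0 ≤ U4 w := fun w => by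
      simp only [hU4]
      refine add_nonneg ?_ ?_ <;> split_ifs
      · exact h0 w
      · exact le_rfl
      · exact h0 w
      · exact le_rfl
    have key : ∀ w, (if (top w z ∧ ¬ thTop c σ y h v w
        (evTop c n nh n2 (σ, fun q i => c (y q i) σ, fun k => (h k, v (h k))) z)) ∨
      (thTop c σ y h v w
        (evTop c n nh n2 (σ, fun q i => c (y q i) σ, fun k => (h k, v (h k))) z) ∧
        ¬ lift c top w z) then lam w else 0) ≤ U2 w + U3 w + U1 w + U4 w := by
      intro w
      split_ifs with hf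
      · by_cases hk : ∃ k, h k = w.1
        · have h4 : lam w ≤ U4 w := by
            simp only [hU4]
            rcases heavy_fail c hinj σ y h v w z hk hf with h1 | h1
            · rw [if_pos h1]
              have : 0 ≤ (if Rle (fun j => z (toLex (blk w, j))) w ∧ ∀ q, ¬ Rle (v w.1 q) w
                then lam w else 0) := by
                split_ifs
                · exact h0 w
                · exact le_rfl
              linarith only [this]
            · rw [if_pos h1]
              have : 0 ≤ (if Rlt (fun j => z (toLex (blk w, j))) w ∧ ∀ q, ¬ Rlt (v w.1 q) w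
                then lam w else 0) := by
                split_ifs
                · exact h0 w
                · exact le_rfl
              linarith only [this]
          have := n1 w
          have := n2' w
          have := n3 w
          (clear e t he ht hn hnh hn2 hS hc hv T hy hh hT hi0 hσ hU2 n4; linarith)
        · have hk' : ∀ k, h k ≠ w.1 := fun k hk2 => hk ⟨k, hk2⟩
          rcases light_fail c σ y h v w z hk' hf with h1 | ⟨q, h1⟩ | h1
          · have h5 : lam w ≤ U1 w := by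
              simp only [hU1]
              rw [if_pos h1]
            have := n2' w
            have := n3 w
            have := n4 w
            (clear hinj e t he ht hn hnh hn2 hS hc hv T hy hh hT hi0 hσ hU2 n1 hf hk hk'; linarith)
          · have h5 : lam w ≤ U2 w := by
              simp only [hU2]
              have h6 : lam w = (if w.2 w.1 ≠ y q w.1 ∧ c (w.2 w.1) σ = c (y q w.1) σ
                then lam w else 0) := by rw [if_pos h1]
              conv_lhs => rw [h6]
              refine Finset.single_le_sum (f := fun q => if w.2 w.1 ≠ y q w.1 ∧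
                c (w.2 w.1) σ = c (y q w.1) σ then lam w else 0) (fun q' _ => ?_)
                (Finset.mem_univ q)
              split_ifs
              · exact h0 w
              · exact le_rfl
            have := n1 w
            have := n3 w
            have := n4 w
            (clear hinj e t he ht hn hnh hn2 hS hc hv T hy hh hT hi0 hσ n2' hf hk hk'; linarith)
          · have h5 : lam w ≤ U3 w := by
              simp only [hU3]
              rw [if_pos ⟨hi0 _ h1, fun k hk2 => hk' k hk2.symm⟩]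
            have := n1 w
            have := n2' w
            have := n4 w
            (clear hinj e t he ht hn hnh hn2 hS hc hv T hy hh hT hσ hU2 n3 hf; linarith)
      · have := n1 w
        have := n2' w
        have := n3 w
        have := n4 w
        (clear hinj e t he ht hn hnh hn2 hS hc hv T hy hh hT hi0 hσ hU2 hf; linarith)
    -- the sums
    have s1 : ∑ w, U1 w ≤ T / n := hy z
    have s2 : ∑ w, U2 w ≤ (n : ℝ) / e * T := hσ
    have s3 : ∑ w, U3 w ≤ T / nh := by
      refine le_trans (le_of_eq (Finset.sum_congr rfl (fun w _ => ?_))) (hh i0)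
      simp only [hU3]
      congr
    have s4 : ∑ w, U4 w ≤ T / n2 := by
      have h1 : ∀ F : (B ×ₗ J) × ((B ×ₗ J) → A) → ℝ,
          ∑ w, F w = ∑ i, ∑ w, if w.1 = i then F w else 0 := by
        intro F
        rw [Finset.sum_comm]
        refine Finset.sum_congr rfl (fun w _ => ?_)
        rw [Finset.sum_ite_eq]
        simp
      rw [h1 U4, hT, h1 lam, Finset.sum_div]
      refine Finset.sum_le_sum (fun i _ => ?_)
      refine le_trans (le_of_eq ?_) (hv i (fun j => z (toLex ((ofLex i).1, j))))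
      refine Finset.sum_congr rfl (fun w _ => ?_)
      by_cases hw : w.1 = i
      · subst hw
        rfl
      · rw [if_neg hw, if_neg hw]
    calc _ ≤ ∑ w, (U2 w + U3 w + U1 w + U4 w) := Finset.sum_le_sum (fun w _ => key w)
      _ = ∑ w, U2 w + ∑ w, U3 w + ∑ w, U1 w + ∑ w, U4 w := by
        rw [Finset.sum_add_distrib, Finset.sum_add_distrib, Finset.sum_add_distrib]
      _ ≤ (n : ℝ) / e * T + T / nh + T / n + T / n2 := by linarith only [hσ, s1, s3, s4]
      _ = _ := by ring

open Classical in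
/-- The top step, without the (automatic) injectivity assumption. -/
theorem interp_top [Nonempty A] [Nonempty A'] [Nonempty S] [Nonempty B] [Nonempty J]
    (c : A → S → A') (e t n nh n2 : ℕ) (he : 0 < e) (ht : 0 < t)
    (hn : 0 < n) (hnh : 0 < nh) (hn2 : 0 < n2) (hS : Fintype.card S = e * t)
    (hc : ∀ a a', a ≠ a' → (Finset.univ.filter (fun s => c a s = c a' s)).card ≤ t) :
    Interp (top (I := B ×ₗ J) (A := A)) (lift (B := B) c top)
      ((n : ℝ) / e + 1 / nh + 1 / n + 1 / n2)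
      (2 ^ (n * Fintype.card (B ×ₗ J) + 4 * nh * n2))
      (Fintype.card S * Fintype.card A' ^ (n * Fintype.card (B ×ₗ J)) *
        (Fintype.card (B ×ₗ J) * Fintype.card A ^ (2 * n2 * Fintype.card J)) ^ nh) := by
  by_cases he1 : e = 1
  · subst he1
    refine ⟨Unit, Unit, inferInstance, inferInstance, fun _ _ => (), ?_, ?_, fun lam h0 =>
      ⟨(), fun _ _ => False, fun z => ?_⟩⟩
    · rw [Fintype.card_unit]
      have h1 : 0 < Fintype.card S := Fintype.card_pos
      have h2 : 0 < Fintype.card A' := Fintype.card_pos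
      have h3 : 0 < Fintype.card A := Fintype.card_pos
      have h4 : 0 < Fintype.card (B ×ₗ J) := Fintype.card_pos
      exact Nat.succ_le_of_lt (by positivity)
    · rw [Fintype.card_unit]
      exact Nat.one_le_two_pow
    · have hT : 0 ≤ ∑ w, lam w := Finset.sum_nonneg (fun w _ => h0 w)
      have h1 : (1 : ℝ) ≤ (n : ℝ) / ((1 : ℕ) : ℝ) + 1 / nh + 1 / n + 1 / n2 := by
        have h2 : (1 : ℝ) ≤ n := by exact_mod_cast hn
        have h3 : (0 : ℝ) ≤ 1 / nh := by positivity
        have h4 : (0 : ℝ) ≤ 1 / n := by positivity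
        have h5 : (0 : ℝ) ≤ 1 / n2 := by positivity
        rw [Nat.cast_one, div_one]
        linarith only [h2, h3, h4, h5]
      calc _ ≤ ∑ w, lam w := Finset.sum_le_sum (fun w _ => by
              split_ifs
              · exact le_rfl
              · exact h0 w)
        _ = 1 * ∑ w, lam w := (one_mul _).symm
        _ ≤ _ := mul_le_mul_of_nonneg_right h1 hT
  · refine interp_top_inj c (fun a a' h => ?_) e t n nh n2 he ht hn hnh hn2 hS hc
    by_contra hne
    have h1 := hc a a' hne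
    rw [h, Finset.filter_true_of_mem (fun _ _ => rfl), Finset.card_univ, hS] at h1
    have h2 : 2 * t ≤ e * t := Nat.mul_le_mul_right t (by omega)
    omega

end

end Vale.Agent.P126.CE
end
end
end

section

section

section

/-!
# P126, counterexample: the inductive claim (T6)
-/

namespace Vale.Agent.P126.CE

/-- T6 (Claim.lean). -/
theorem claim_zero : Claim 0 := by
  intro D β hD hβ
  refine ⟨Fin 1, inferInstance, inferInstance, inferInstance, 0, 0, fun Q _ => ?_⟩
  refine ⟨Fin (Q + 1), inferInstance, 1, by simp only [Fintype.card_fin, le_add_iff_nonneg_right, zero_le], le_rfl, by simp only [one_pow, Fintype.card_fin, Fintype.card_unique, pow_one, le_add_iff_nonneg_left, zero_le], ⟨?_⟩⟩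
  exact
    { b := fun _ => top
      top_iff := fun _ _ => Iff.rfl
      mono := fun j hj => absurd hj (Nat.not_lt_zero j)
      diff := fun _ _ _ _ h => h.2
      interp := fun j hj => absurd hj (Nat.not_lt_zero j) }

section
variable {B J A A' S : Type}

theorem claim_toLex (w : (B ×ₗ J) × ((B ×ₗ J) → A)) : toLex (blk w, pos w) = w.1 := rfl

theorem claim_lift_mono (c : A → S → A') {b b' : J × (J → A') → (J → A') → Prop}
    (h : ∀ w z, b w z → b' w z) (w : (B ×ₗ J) × ((B ×ₗ J) → A)) (z : (B ×ₗ J) → A)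
    (hw : lift c b w z) : lift c b' w z := by
  obtain ⟨s, hs⟩ := hw
  exact ⟨s, h _ _ hs⟩

theorem claim_top_lift [LinearOrder B] [LinearOrder J] (c : A → S → A')
    (hc : ∀ a a', a ≠ a' → ∃ s, c a s ≠ c a' s)
    (w : (B ×ₗ J) × ((B ×ₗ J) → A)) (z : (B ×ₗ J) → A) (h : top w z) : lift c top w z := by
  obtain ⟨h1, h2⟩ := h
  obtain ⟨s, hs⟩ := hc _ _ h2
  refine ⟨s, ?_, ?_⟩
  · intro i' hi'
    have h3 : toLex (blk w, i') < w.1 := by
      rw [← claim_toLex w, Prod.Lex.toLex_lt_toLex]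
      exact Or.inr ⟨rfl, hi'⟩
    exact congrArg (fun a => c a s) (h1 _ h3)
  · exact hs

theorem claim_lift_diff (c : A → S → A') {b : J × (J → A') → (J → A') → Prop}
    (h : ∀ w z, b w z → w.2 w.1 ≠ z w.1) (w : (B ×ₗ J) × ((B ×ₗ J) → A)) (z : (B ×ₗ J) → A)
    (hw : lift c b w z) : w.2 w.1 ≠ z w.1 := by
  obtain ⟨s, hs⟩ := hw
  intro h1
  exact h _ _ hs (congrArg (fun a => c a s) h1)

end

theorem claim_arith1 (N' r M β e t a' a i' : ℕ) (hr : r = e * t)
    (h : N' ^ (β * e) ≤ a' ^ i') (ha : a' ^ t ≤ a) : (N' ^ (r * M)) ^ β ≤ a ^ (M * i') := by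
  calc (N' ^ (r * M)) ^ β = (N' ^ (β * e)) ^ (t * M) := by
        rw [← pow_mul, ← pow_mul, hr]; congr 1; ring
    _ ≤ (a' ^ i') ^ (t * M) := Nat.pow_le_pow_left h _
    _ = (a' ^ t) ^ (M * i') := by rw [← pow_mul, ← pow_mul]; congr 1; ring
    _ ≤ a ^ (M * i') := Nat.pow_le_pow_left ha _

theorem claim_arith2 (r n nh n2 M β t a' a i j : ℕ) (hβ : 0 < β) (ht : t = 4 * n * β)
    (hM : M = 8 * β * nh * n2) (hi : i = M * j) (hi0 : 0 < i) (ha0 : 0 < a)
    (hQ : (r * i ^ nh) ^ (4 * β) ≤ a) (ha : a' ^ t ≤ a) :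
    (r * a' ^ (n * i) * (i * a ^ (2 * n2 * j)) ^ nh) ^ β ≤ a ^ i := by
  have h4 : ((r * a' ^ (n * i) * (i * a ^ (2 * n2 * j)) ^ nh) ^ β) ^ 4 ≤ (a ^ i) ^ 4 := by
    calc ((r * a' ^ (n * i) * (i * a ^ (2 * n2 * j)) ^ nh) ^ β) ^ 4
        = (r * i ^ nh) ^ (4 * β) * (a' ^ t) ^ i * a ^ (M * j) := by
          rw [ht, hM]
          simp only [mul_pow, ← pow_mul]
          ring_nf
      _ ≤ a ^ i * a ^ i * a ^ i := by
          rw [hi]
          refine Nat.mul_le_mul (Nat.mul_le_mul ?_ ?_) le_rfl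
          · rw [← hi]
            exact hQ.trans (Nat.le_self_pow hi0.ne' a)
          · exact Nat.pow_le_pow_left ha _
      _ ≤ a ^ i * a ^ i * a ^ i * a ^ i :=
          Nat.le_mul_of_pos_right _ (pow_pos ha0 i)
      _ = (a ^ i) ^ 4 := by ring
  exact (Nat.pow_le_pow_iff_left (by norm_num)).1 h4

/-- T6 (Claim.lean). -/
theorem claim_succ (k : ℕ) (h : Claim k) : Claim (k + 1) := by
  classical
  intro D β hD hβ
  obtain ⟨n, hn⟩ : ∃ n, n = 4 * D := ⟨_, rfl⟩
  obtain ⟨e, he⟩ : ∃ e, e = 16 * D ^ 2 := ⟨_, rfl⟩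
  obtain ⟨t, ht⟩ : ∃ t, t = 4 * n * β := ⟨_, rfl⟩
  obtain ⟨r, hr⟩ : ∃ r, r = e * t := ⟨_, rfl⟩
  obtain ⟨M, hM⟩ : ∃ M, M = 8 * β * n * n := ⟨_, rfl⟩
  have hn0 : 0 < n := by rw [hn]; positivity
  have he0 : 0 < e := by rw [he]; positivity
  have he1 : 1 < e := by
    rw [he]
    have : 1 ≤ D ^ 2 := Nat.one_le_pow _ _ hD
    omega
  have ht0 : 0 < t := by rw [ht]; positivity
  have hr0 : 0 < r := by rw [hr]; positivity
  have hM0 : 0 < M := by rw [hM]; positivity
  have htr : t < r := by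
    rw [hr]
    calc t = 1 * t := (one_mul t).symm
      _ < e * t := Nat.mul_lt_mul_of_pos_right he1 ht0
  obtain ⟨J, iJ1, iJ2, iJ3, K', Q0', hQ⟩ := h (D * r) (β * e) (by positivity) (by positivity)
  have : NeZero M := ⟨hM0.ne'⟩
  have : NeZero r := ⟨hr0.ne'⟩
  have hI : Nonempty (Fin M ×ₗ J) := ⟨toLex (0, Classical.choice iJ3)⟩
  have hcardI : Fintype.card (Fin M ×ₗ J) = M * Fintype.card J := by
    rw [Fintype.card_lex, Fintype.card_prod, Fintype.card_fin]
  refine ⟨Fin M ×ₗ J, inferInstance, inferInstance, hI,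
    max (K' ^ (r * M)) (2 ^ (n * Fintype.card (Fin M ×ₗ J) + 4 * n * n)),
    max Q0' (max (2 ^ r) ((r * Fintype.card (Fin M ×ₗ J) ^ n) ^ (4 * β))), fun Q hQ0 => ?_⟩
  obtain ⟨A', iA', N', hQA', hN'1, hN', ⟨Sy⟩⟩ := hQ Q ((le_max_left _ _).trans hQ0)
  have h2r : 2 ^ r ≤ Fintype.card A' :=
    (((le_max_left _ _).trans (le_max_right _ _)).trans hQ0).trans hQA'
  have hA'0 : 0 < Fintype.card A' := (pow_pos (by norm_num) r).trans_le h2r
  obtain ⟨C, hC1, hC2⟩ := exists_code r t htr A' h2r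
  have hAcard : Fintype.card {x // x ∈ C} = C.card := Fintype.card_coe C
  have hA't : Fintype.card A' ≤ Fintype.card A' ^ t := Nat.le_self_pow ht0.ne' _
  have hA'A : Fintype.card A' ≤ Fintype.card {x // x ∈ C} := by
    rw [hAcard]; exact hA't.trans hC1
  have hA0 : 0 < Fintype.card {x // x ∈ C} := hA'0.trans_le hA'A
  have : Nonempty A' := Fintype.card_pos_iff.1 hA'0
  have : Nonempty {x // x ∈ C} := Fintype.card_pos_iff.1 hA0
  have hi0 : 0 < Fintype.card (Fin M ×ₗ J) := Fintype.card_pos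
  let c : {x // x ∈ C} → Fin r → A' := fun a => a.1
  have hc1 : ∀ a a', a ≠ a' → ∃ s, c a s ≠ c a' s := by
    intro a a' haa
    by_contra hcon
    push Not at hcon
    exact haa (Subtype.ext (funext hcon))
  have hc2 : ∀ a a', a ≠ a' → (Finset.univ.filter (fun s => c a s = c a' s)).card ≤ t :=
    fun a a' haa => hC2 a.1 a.2 a'.1 a'.2 (fun h => haa (Subtype.ext h))
  refine ⟨{x // x ∈ C}, inferInstance,
    max (N' ^ (r * M)) (r * Fintype.card A' ^ (n * Fintype.card (Fin M ×ₗ J)) *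
        (Fintype.card (Fin M ×ₗ J) * Fintype.card {x // x ∈ C} ^ (2 * n * Fintype.card J)) ^ n),
    hQA'.trans hA'A, (Nat.one_le_pow _ _ hN'1).trans (le_max_left _ _), ?_, ⟨?_⟩⟩
  · rcases le_total (N' ^ (r * M)) (r * Fintype.card A' ^ (n * Fintype.card (Fin M ×ₗ J)) *
        (Fintype.card (Fin M ×ₗ J) * Fintype.card {x // x ∈ C} ^ (2 * n * Fintype.card J)) ^ n)
      with hle | hle
    · rw [max_eq_right hle]
      refine claim_arith2 r n n n M β t _ _ _ (Fintype.card J) hβ ht hM hcardI hi0 hA0 ?_ ?_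
      · exact ((((le_max_right _ _).trans (le_max_right _ _)).trans hQ0).trans hQA').trans hA'A
      · rw [hAcard]; exact hC1
    · rw [max_eq_left hle, hcardI]
      refine claim_arith1 N' r M β e t _ _ _ hr hN' ?_
      rw [hAcard]; exact hC1
  · have htopk : Sy.b k = top := by
      funext w z
      exact propext (Sy.top_iff w z)
    refine
      { b := fun j => if j ≤ k then lift c (Sy.b j) else top
        top_iff := ?_
        mono := ?_
        diff := ?_
        interp := ?_ }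
    · intro w z
      rw [if_neg (by omega)]
    · intro j hj w z hw
      rcases Nat.lt_or_ge j k with hjk | hjk
      · rw [if_pos (by omega)] at hw ⊢
        exact claim_lift_mono c (Sy.mono j hjk) w z hw
      · have hjk' : j = k := by omega
        subst hjk'
        rw [if_neg (by omega)] at hw
        rw [if_pos le_rfl, htopk]
        exact claim_top_lift c hc1 w z hw
    · intro j hj w z hw
      rcases Nat.lt_or_ge k j with hjk | hjk
      · rw [if_neg (by omega)] at hw
        exact hw.2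
      · rw [if_pos hjk] at hw
        exact claim_lift_diff c (Sy.diff j hjk) w z hw
    · intro j hj
      rcases Nat.lt_or_ge j k with hjk | hjk
      · simp only [if_pos hjk.le, if_pos (show j + 1 ≤ k by omega)]
        have h1 := interp_lift (B := Fin M) c (Sy.b (j + 1)) (Sy.b j) _ K' N' (Sy.interp j hjk)
        refine h1.mono ?_ ?_ ?_
        · rw [Fintype.card_fin]
          have hD' : (D : ℝ) ≠ 0 := by positivity
          have hr' : (r : ℝ) ≠ 0 := by positivity
          push_cast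
          rw [show (r : ℝ) * (1 / (D * r)) = 1 / D by field_simp]
        · rw [Fintype.card_fin, Fintype.card_fin]
          exact le_max_left _ _
        · rw [Fintype.card_fin, Fintype.card_fin]
          exact le_max_left _ _
      · have hjk' : j = k := by omega
        subst hjk'
        simp only [if_pos le_rfl, if_neg (show ¬ (j + 1 ≤ j) by omega), htopk]
        have h1 := interp_top (B := Fin M) (J := J) c e t n n n he0 ht0 hn0 hn0 hn0
          (by rw [Fintype.card_fin, hr]) hc2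
        refine h1.mono ?_ ?_ ?_
        · have hD' : (D : ℝ) ≠ 0 := by positivity
          rw [hn, he]
          push_cast
          rw [show 4 * (D : ℝ) / (16 * D ^ 2) + 1 / (4 * D) + 1 / (4 * D) + 1 / (4 * D) = 1 / D by
            field_simp; norm_num]
        · exact le_max_right _ _
        · rw [Fintype.card_fin]
          exact le_max_right _ _

end Vale.Agent.P126.CE
end
end
end

section

section

section

open Finset Real Pointwise

namespace Vale.Agent.P126

variable {n : ℕ}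

/-- the values of an element of the dual body at the points of a finite set -/
noncomputable def evalOn (s : Finset (EuclideanSpace ℝ (Fin n))) (w : EuclideanSpace ℝ (Fin n)) :
    s → ℝ := fun i => inner ℝ (i : EuclideanSpace ℝ (Fin n)) w

theorem abs_inner_Bset {K L : Set (EuclideanSpace ℝ (Fin n))} (hK : IsSymmBody K)
    (hL : IsSymmBody L) {ε : ℝ} (hε : 0 < ε) {j : ℕ} {x z : EuclideanSpace ℝ (Fin n)}
    (hx : x ∈ (2 : ℝ) • ((1 / 2 : ℝ) ^ j • K) ∩ (4 : ℝ) • L)
    (hz : z ∈ Bset (polarBody K) (polarBody L) ε j) : |(inner ℝ x z : ℝ)| ≤ ε := by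
  obtain ⟨⟨_, ⟨k, hk, rfl⟩, hx1⟩, ⟨l, hl, hx2⟩⟩ := hx
  obtain ⟨u, hu, v, hv, rfl⟩ := hz
  rw [inner_add_right, real_inner_smul_right, real_inner_smul_right]
  have h1 : |(inner ℝ x u : ℝ)| ≤ 2 * (1 / 2) ^ j := by
    rw [← hx1]
    simp only [real_inner_smul_left]
    rw [abs_mul, abs_mul, abs_of_pos (by norm_num : (0:ℝ) < 2),
      abs_of_pos (by positivity : (0:ℝ) < (1/2)^j), ← mul_assoc]
    have := hK.abs_inner_le hk hu
    have h0 : (0:ℝ) ≤ 2 * (1/2)^j := by positivity
    nlinarith only [this, h0]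
  have h2 : |(inner ℝ x v : ℝ)| ≤ 4 := by
    rw [← hx2]
    simp only [real_inner_smul_left]
    rw [abs_mul, abs_of_pos (by norm_num : (0:ℝ) < 4)]
    have := hL.abs_inner_le hl hv
    linarith only [this]
  calc |ε * 2 ^ j / 4 * inner ℝ x u + ε / 8 * inner ℝ x v|
      ≤ |ε * 2 ^ j / 4 * inner ℝ x u| + |ε / 8 * inner ℝ x v| := abs_add_le _ _
    _ = ε * 2 ^ j / 4 * |(inner ℝ x u : ℝ)| + ε / 8 * |(inner ℝ x v : ℝ)| := by
        rw [abs_mul, abs_mul, abs_of_pos (by positivity : 0 < ε * 2 ^ j / 4),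
          abs_of_pos (by positivity : 0 < ε / 8)]
    _ ≤ ε * 2 ^ j / 4 * (2 * (1 / 2) ^ j) + ε / 8 * 4 := by (clear * - h1 hε h2; gcongr)
    _ = ε := by
        have : (2:ℝ) ^ j * (1 / 2) ^ j = 1 := by rw [← mul_pow]; norm_num
        linear_combination (ε / 2) * this

theorem core_apply {K L : Set (EuclideanSpace ℝ (Fin n))} (hK : IsSymmBody K)
    (hL : IsSymmBody L) {J : ℕ} (hJ : 2 ≤ J) {j : ℕ} {s : Finset (EuclideanSpace ℝ (Fin n))}
    (hs : ∀ x ∈ s, x ∈ (2 : ℝ) • ((1 / 2 : ℝ) ^ j • K) ∩ (4 : ℝ) • L) (hsep : Sep L s)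
    (hne : s.Nonempty) {S : Finset (EuclideanSpace ℝ (Fin n))}
    (hS : ∀ x ∈ S, x ∈ polarBody L)
    (hcov : Cov S (polarBody L) (Bset (polarBody K) (polarBody L) (1 / (24 * J)) j))
    {m : ℕ} (hm : 0 < m) (hmJ : 1024 * Real.log s.card ≤ (m : ℝ) ^ J) :
    s.card ≤ (1 + S.card * (192 * J + 1)) ^ (m * J) := by
  classical
  have hJ0 : (0 : ℝ) < J := by positivity
  have : Nonempty s := hne.to_subtype
  set ε : ℝ := 1 / (24 * J) with hε
  have hε0 : 0 < ε := by positivity
  let F : Set (s → ℝ) := {f | ∃ w ∈ polarBody L, f = evalOn s w}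
  have hF : Convex ℝ F := by
    rintro _ ⟨w, hw, rfl⟩ _ ⟨w', hw', rfl⟩ a b ha hb hab
    refine ⟨a • w + b • w', polar_convex L hw hw' ha hb hab, ?_⟩
    ext i
    simp only [Pi.add_apply, Pi.smul_apply, evalOn, smul_eq_mul, inner_add_right, real_inner_smul_right]
  have hsymm : ∀ f ∈ F, -f ∈ F := by
    rintro _ ⟨w, hw, rfl⟩
    refine ⟨-w, hL.polar.symm w hw, ?_⟩
    ext i
    simp only [Pi.neg_apply, evalOn, inner_neg_right]
  have hF4 : ∀ f ∈ F, ∀ i, |f i| ≤ 4 := by
    rintro _ ⟨w, hw, rfl⟩ i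
    obtain ⟨_, ⟨l, hl, hx2⟩⟩ := hs i i.2
    simp only [evalOn]
    rw [← hx2]
    simp only [real_inner_smul_left]
    rw [abs_mul, abs_of_pos (by norm_num : (0:ℝ) < 4)]
    have := hL.abs_inner_le hl hw
    linarith only [this]
  have hsep' : ∀ i j : s, i ≠ j → ∃ f ∈ F, 1 ≤ f i - f j := by
    intro i j hij
    have hij' : (i : EuclideanSpace ℝ (Fin n)) ≠ j := fun h => hij (Subtype.ext h)
    obtain ⟨w, hw, hgt⟩ := exists_polar_gt hL (hsep i i.2 j j.2 hij')
    refine ⟨evalOn s w, ⟨w, hw, rfl⟩, ?_⟩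
    simp only [evalOn]
    rw [inner_sub_left] at hgt
    exact hgt.le
  let G : Finset (s → ℝ) := S.image (evalOn s)
  have hGF : ∀ g ∈ G, g ∈ F := by
    intro g hg
    obtain ⟨w, hw, rfl⟩ := Finset.mem_image.1 hg
    exact ⟨w, hS w hw, rfl⟩
  have hG : ∀ f ∈ F, ∃ g ∈ G, ∀ i, |g i - f i| ≤ ε := by
    rintro _ ⟨w, hw, rfl⟩
    obtain ⟨a, ha, hwa⟩ := hcov w hw
    refine ⟨evalOn s a, Finset.mem_image.2 ⟨a, ha, rfl⟩, fun i => ?_⟩
    have := abs_inner_Bset hK hL hε0 (hs i i.2) hwa
    simp only [evalOn]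
    rw [inner_sub_right, abs_sub_comm] at this
    exact this
  have hεJ : 3 * ε * J ≤ 1 / 8 := by
    rw [hε]; field_simp; norm_num
  have hcard : Fintype.card s = s.card := Fintype.card_coe s
  have := core hF hsymm hF4 hsep' hGF hε0 hG hm hεJ (by rw [hcard]; exact hmJ)
  rw [hcard] at this
  have hfloor : ⌊8 / ε⌋₊ = 192 * J := by
    have : 8 / ε = ((192 * J : ℕ) : ℝ) := by
      rw [hε]; push_cast; field_simp; norm_num
    rw [this, Nat.floor_natCast]
  rw [hfloor] at this
  calc s.card ≤ (1 + G.card * (192 * J + 1)) ^ (m * J) := this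
    _ ≤ _ := by gcongr; exact Finset.card_image_le

theorem card_lower {K L : Set (EuclideanSpace ℝ (Fin n))} (hK : IsSymmBody K)
    (hL : IsSymmBody L) {J : ℕ} (hJ : 2 ≤ J) {j : ℕ} {s : Finset (EuclideanSpace ℝ (Fin n))}
    (hs : ∀ x ∈ s, x ∈ (2 : ℝ) • ((1 / 2 : ℝ) ^ j • K) ∩ (4 : ℝ) • L) (hsep : Sep L s)
    (hcard : 2 ≤ s.card) {S : Finset (EuclideanSpace ℝ (Fin n))}
    (hcov : Cov S (polarBody L) (Bset (polarBody K) (polarBody L) (1 / (24 * J)) j)) :
    12 * J + 1 ≤ S.card := by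
  classical
  have hJ0 : (0 : ℝ) < J := by positivity
  obtain ⟨x, hx, y, hy, hxy⟩ := Finset.one_lt_card.1 (by omega : 1 < s.card)
  obtain ⟨w, hw, hgt⟩ := exists_polar_gt hL (hsep x hx y hy hxy)
  set ε : ℝ := 1 / (24 * J) with hε
  have hε0 : 0 < ε := by positivity
  let τ : ℕ → ℝ := fun k => -1 + k / (6 * J)
  have hτ : ∀ k ∈ Finset.range (12 * J + 1), |τ k| ≤ 1 := by
    intro k hk
    have hk' : (k : ℝ) ≤ 12 * J := by
      have := Finset.mem_range.1 hk
      exact_mod_cast (by omega : k ≤ 12 * J)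
    have h1 : (k : ℝ) / (6 * J) ≤ 2 := by
      rw [div_le_iff₀ (by positivity)]; linarith only [hk']
    have h2 : 0 ≤ (k : ℝ) / (6 * J) := by (clear * - hJ; positivity)
    rw [abs_le]; constructor <;> simp only [τ] <;> linarith only [h1, h2]
  have hc : ∀ k : ℕ, ∃ a : EuclideanSpace ℝ (Fin n), k ∈ Finset.range (12 * J + 1) →
      a ∈ S ∧ τ k • w - a ∈ Bset (polarBody K) (polarBody L) ε j := by
    intro k
    by_cases hk : k ∈ Finset.range (12 * J + 1)
    · obtain ⟨a, ha, hwa⟩ := hcov (τ k • w) (hL.polar.smul_mem_of_le hw (hτ k hk))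
      exact ⟨a, fun _ => ⟨ha, hwa⟩⟩
    · exact ⟨0, fun h => absurd h hk⟩
  choose a ha using hc
  rw [← Finset.card_range (12 * J + 1)]
  refine Finset.card_le_card_of_injOn a (fun k hk => (ha k hk).1) ?_
  have main : ∀ k ∈ Finset.range (12 * J + 1), ∀ l ∈ Finset.range (12 * J + 1),
      a k = a l → ¬ k < l := by
    intro k hk l hl hkl hlt
    have h1 := (ha k hk).2
    have h2 := (ha l hl).2
    rw [hkl] at h1
    have b1 := abs_le.1 (abs_inner_Bset hK hL hε0 (hs x hx) h1)
    have b2 := abs_le.1 (abs_inner_Bset hK hL hε0 (hs x hx) h2)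
    have b3 := abs_le.1 (abs_inner_Bset hK hL hε0 (hs y hy) h1)
    have b4 := abs_le.1 (abs_inner_Bset hK hL hε0 (hs y hy) h2)
    rw [inner_sub_right, real_inner_smul_right] at b1 b2 b3 b4
    rw [inner_sub_left] at hgt
    have hgap : 4 * ε ≤ τ l - τ k := by
      simp only [τ, hε]
      have : ((k : ℝ) + 1) ≤ l := by exact_mod_cast hlt
      have e : -1 + (l : ℝ) / (6 * J) - (-1 + k / (6 * J)) = (l - k) / (6 * J) := by ring
      rw [e]
      have e2 : 4 * (1 / (24 * (J:ℝ))) = 1 / (6 * J) := by field_simp; norm_num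
      rw [e2]
      gcongr
      linarith only [this]
    have h5 : (τ l - τ k) * (inner ℝ x w - inner ℝ y w) ≤ 4 * ε := by
      linarith
    have h6 : τ l - τ k < (τ l - τ k) * (inner ℝ x w - inner ℝ y w) := by
      have hpos : 0 < τ l - τ k := by linarith only [hε0, hgap]
      nlinarith only [hgap, hgt, hε0]
    linarith only [b1, b2, b3, b4, hgap, h6]
  intro k hk l hl hkl
  rcases lt_trichotomy k l with h | h | h
  · exact absurd h (main k hk l hl hkl)
  · exact h
  · exact absurd h (main l hl k hk hkl.symm)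

theorem level_bound {K L : Set (EuclideanSpace ℝ (Fin n))} (hK : IsSymmBody K)
    (hL : IsSymmBody L) {J : ℕ} (hJ : 2 ≤ J) {j : ℕ} {s : Finset (EuclideanSpace ℝ (Fin n))}
    (hs : ∀ x ∈ s, x ∈ (2 : ℝ) • ((1 / 2 : ℝ) ^ j • K) ∩ (4 : ℝ) • L) (hsep : Sep L s)
    {S : Finset (EuclideanSpace ℝ (Fin n))}
    (hS : ∀ x ∈ S, x ∈ polarBody L)
    (hcov : Cov S (polarBody L) (Bset (polarBody K) (polarBody L) (1 / (24 * J)) j)) :
    (Real.log s.card) ^ (1 - 1 / (J : ℝ)) ≤ 256 * J * Real.log S.card := by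
  have hJ0 : (0 : ℝ) < J := by positivity
  have hJ2 : (2 : ℝ) ≤ J := by exact_mod_cast hJ
  have hJinv : 1 / (J : ℝ) ≤ 1 / 2 := by
    apply one_div_le_one_div_of_le <;> linarith only [hJ2]
  have hlogS : 0 ≤ Real.log S.card := Real.log_natCast_nonneg _
  rcases Nat.lt_or_ge s.card 2 with hlt | hge
  · have h0 : Real.log s.card = 0 := by
      interval_cases h : s.card <;> simp
    rw [h0, Real.zero_rpow (by linarith only [hJinv])]
    (clear * - hJ; positivity)
  · set p := Real.log s.card with hp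
    have hp2 : Real.log 2 ≤ p := Real.log_le_log (by norm_num) (by exact_mod_cast hge)
    have hlog2 := Real.log_two_gt_d9
    have hp0 : 0 < p := by linarith only [hp2, hlog2]
    have h1024 : 1 ≤ 1024 * p := by linarith only [hp2, hlog2]
    set ρ := (1024 * p) ^ (1 / (J : ℝ)) with hρ
    have hρ1 : 1 ≤ ρ := Real.one_le_rpow h1024 (by positivity)
    set m := ⌈ρ⌉₊ with hm
    have hmρ : ρ ≤ m := Nat.le_ceil ρ
    have hm2 : (m : ℝ) ≤ 2 * ρ := by
      have := Nat.ceil_lt_add_one (by linarith only [hρ1] : 0 ≤ ρ)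
      linarith only [hρ1, this]
    have hm0 : 0 < m := by
      have : (0 : ℝ) < m := by linarith only [hρ1, hmρ]
      exact_mod_cast this
    have hmJ : 1024 * Real.log s.card ≤ (m : ℝ) ^ J := by
      have h1 : ρ ^ J = 1024 * p := by
        rw [hρ, ← Real.rpow_natCast, ← Real.rpow_mul (by linarith only [hp0])]
        rw [one_div_mul_cancel hJ0.ne', Real.rpow_one]
      rw [← hp, ← h1]
      exact pow_le_pow_left₀ (by linarith only [hρ1]) hmρ J
    have hne : s.Nonempty := Finset.card_pos.1 (by omega)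
    have hcore := core_apply hK hL hJ hs hsep hne hS hcov hm0 hmJ
    have hlow := card_lower hK hL hJ hs hsep hge hcov
    have hSbig : (1 : ℝ) + S.card * (192 * J + 1) ≤ (S.card : ℝ) ^ 4 := by
      have h1 : (12 * J + 1 : ℝ) ≤ S.card := by exact_mod_cast hlow
      have h2 : (25 : ℝ) ≤ S.card := by linarith only [hJ2, h1]
      have h3 : (192 * J + 1 : ℝ) ≤ 16 * S.card := by linarith only [h1]
      have h4 : (S.card : ℝ) * (192 * J + 1) ≤ 16 * (S.card : ℝ) ^ 2 := by nlinarith only [h1]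
      have h5 : (17 : ℝ) ≤ (S.card : ℝ) ^ 2 := by nlinarith only [hJ2, h1]
      nlinarith only [h4, h5]
    have hlogbound : p ≤ (m * J : ℝ) * (4 * Real.log S.card) := by
      have h1 : (s.card : ℝ) ≤ ((1 + S.card * (192 * J + 1) : ℕ) : ℝ) ^ (m * J) := by
        exact_mod_cast hcore
      have h2 : p ≤ Real.log (((1 + S.card * (192 * J + 1) : ℕ) : ℝ) ^ (m * J)) :=
        Real.log_le_log (by (clear * - hne; positivity)) h1
      rw [Real.log_pow] at h2
      have h3 : Real.log ((1 + S.card * (192 * J + 1) : ℕ) : ℝ) ≤ 4 * Real.log S.card := by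
        have h4 : Real.log ((1 + S.card * (192 * J + 1) : ℕ) : ℝ) ≤
            Real.log ((S.card : ℝ) ^ 4) := by
          apply Real.log_le_log (by (clear * - hJ; positivity))
          push_cast
          exact hSbig
        rw [Real.log_pow] at h4
        exact_mod_cast h4
      calc p ≤ _ := h2
        _ ≤ ((m * J : ℕ) : ℝ) * (4 * Real.log S.card) := by (clear * - h3 hp0 hJ; gcongr)
        _ = _ := by push_cast; ring
    have hρ32 : ρ ≤ 32 * p ^ (1 / (J : ℝ)) := by
      rw [hρ, Real.mul_rpow (by norm_num) hp0.le]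
      gcongr
      calc (1024 : ℝ) ^ (1 / (J : ℝ)) ≤ (1024 : ℝ) ^ (1 / 2 : ℝ) :=
            Real.rpow_le_rpow_of_exponent_le (by norm_num) hJinv
        _ = 32 := by
            rw [← Real.sqrt_eq_rpow]
            rw [show (1024 : ℝ) = 32 ^ 2 by norm_num]
            exact Real.sqrt_sq (by norm_num)
    have hpp : 0 < p ^ (1 / (J : ℝ)) := Real.rpow_pos_of_pos hp0 _
    have hfin : p ≤ (256 * J * Real.log S.card) * p ^ (1 / (J : ℝ)) := by
      calc p ≤ (m * J : ℝ) * (4 * Real.log S.card) := hlogbound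
        _ ≤ (2 * (32 * p ^ (1 / (J : ℝ))) * J) * (4 * Real.log S.card) := by
            gcongr
            linarith only [hm2, hρ32]
        _ = _ := by ring
    have hsplit : p ^ (1 - 1 / (J : ℝ)) = p / p ^ (1 / (J : ℝ)) := by
      rw [Real.rpow_sub hp0, Real.rpow_one]
    rw [hsplit, div_le_iff₀ hpp]
    exact hfin

theorem rpow_sum_le {ι : Type*} (s : Finset ι) (f : ι → ℝ) (hf : ∀ i ∈ s, 0 ≤ f i) {α : ℝ}
    (h0 : 0 < α) (h1 : α ≤ 1) : (∑ i ∈ s, f i) ^ α ≤ ∑ i ∈ s, f i ^ α := by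
  classical
  induction s using Finset.induction_on with
  | empty => simp [Real.zero_rpow h0.ne']
  | insert a s ha ih =>
    rw [Finset.sum_insert ha, Finset.sum_insert ha]
    have hs : ∀ i ∈ s, 0 ≤ f i := fun i hi => hf i (Finset.mem_insert_of_mem hi)
    calc (f a + ∑ i ∈ s, f i) ^ α ≤ f a ^ α + (∑ i ∈ s, f i) ^ α :=
          Real.rpow_add_le_add_rpow (hf a (Finset.mem_insert_self _ _))
            (Finset.sum_nonneg hs) h0.le h1
      _ ≤ f a ^ α + ∑ i ∈ s, f i ^ α := by
          have := ih hs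
          linarith

/-- choice of the number of residue classes -/
theorem exists_q {J : ℕ} (hJ : 2 ≤ J) : ∃ q : ℕ, 1 ≤ q ∧ 768 * J ≤ 2 ^ q ∧
    (q : ℝ) ≤ 18 * Real.log J := by
  refine ⟨Nat.clog 2 (768 * J), ?_, Nat.le_pow_clog (by norm_num) _, ?_⟩
  · exact Nat.clog_pos (by norm_num) (by omega)
  · have hpos : 0 < Nat.clog 2 (768 * J) := Nat.clog_pos (by norm_num) (by omega)
    have h1 : 2 ^ (Nat.clog 2 (768 * J)).pred < 768 * J :=
      Nat.pow_pred_clog_lt_self (by norm_num) (by omega)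
    set q := Nat.clog 2 (768 * J) with hq
    have h2 : (2 : ℝ) ^ (q - 1) < 768 * J := by
      have : (2 : ℕ) ^ (q - 1) < 768 * J := h1
      exact_mod_cast this
    have hJ0 : (0 : ℝ) < J := by positivity
    have hJ2 : (2 : ℝ) ≤ J := by exact_mod_cast hJ
    have h3 : ((q - 1 : ℕ) : ℝ) * Real.log 2 < Real.log 768 + Real.log J := by
      have := Real.log_lt_log (by positivity) h2
      rw [Real.log_pow, Real.log_mul (by norm_num) hJ0.ne'] at this
      exact this
    have h4 : Real.log 768 ≤ 10 * Real.log 2 := by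
      have : Real.log 768 ≤ Real.log ((2:ℝ) ^ 10) := Real.log_le_log (by norm_num) (by norm_num)
      rw [Real.log_pow] at this
      exact_mod_cast this
    have h5 : Real.log 2 ≤ Real.log J := Real.log_le_log (by norm_num) hJ2
    have hlog2 := Real.log_two_gt_d9
    have h6 : ((q - 1 : ℕ) : ℝ) = (q : ℝ) - 1 := by
      rw [Nat.cast_sub hpos]; simp
    rw [h6] at h3
    by_contra hcon
    push Not at hcon
    nlinarith only [h3, h4, h5, hlog2, hcon]

/-- **Main theorem, upper bound.** -/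
theorem main_upper {K L : Set (EuclideanSpace ℝ (Fin n))} (hK : IsSymmBody K)
    (hL : IsSymmBody L) {J : ℕ} (hJ : 2 ≤ J) :
    (Real.log (coveringNumber K L)) ^ (1 - 1 / (J : ℝ)) ≤
      4608 * J * Real.log J *
        Real.log (coveringNumber (polarBody L) ((384 * J : ℝ)⁻¹ • polarBody K)) := by
  classical
  have hJ0 : (0 : ℝ) < J := by positivity
  have hJ2 : (2 : ℝ) ≤ J := by exact_mod_cast hJ
  set ε : ℝ := 1 / (24 * J) with hε
  have hε0 : 0 < ε := by positivity
  have hP := hK.polar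
  have hQ := hL.polar
  have hJinv : 1 / (J : ℝ) ≤ 1 / 2 := by
    apply one_div_le_one_div_of_le <;> linarith only [hJ2]
  -- separated sets on the primal side
  have hprimal : ∀ j : ℕ, ∃ s : Finset (EuclideanSpace ℝ (Fin n)),
      (∀ x ∈ s, x ∈ (2 : ℝ) • ((1 / 2 : ℝ) ^ j • K) ∩ (4 : ℝ) • L) ∧ Sep L s ∧
      Cov s ((2 : ℝ) • ((1 / 2 : ℝ) ^ j • K) ∩ (4 : ℝ) • L) L := by
    intro j
    obtain ⟨t, ht⟩ := exists_cov_of_compact (A := (4 : ℝ) • L) (B := (1 / 2 : ℝ) • L)
      (hL.compact.smul (4 : ℝ)) (hL.smul (by norm_num)).zero_mem_interior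
    refine exists_max_sep (M := t.card) ?_ hL.zero_mem hL.symm
    intro s hs hsep
    refine sep_card_le (A := (4 : ℝ) • L) (B := L) (B' := (1 / 2 : ℝ) • L) ?_
      (fun x hx => (hs x hx).2) hsep ht
    rintro _ ⟨b, hb, rfl⟩ _ ⟨b', hb', rfl⟩
    have := hL.half_sub hb hb'
    simp only [← smul_sub]
    exact this
  choose s hs1 hs2 hs3 using hprimal
  -- separated sets on the dual side
  have hdual : ∀ j : ℕ, ∃ S : Finset (EuclideanSpace ℝ (Fin n)),
      (∀ x ∈ S, x ∈ polarBody L) ∧ Sep (Bset (polarBody K) (polarBody L) ε j) S ∧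
      Cov S (polarBody L) (Bset (polarBody K) (polarBody L) ε j) := by
    intro j
    obtain ⟨t, ht⟩ := exists_cov_of_compact (A := polarBody L) (B := (ε / 16) • polarBody L)
      hQ.compact (hQ.smul (by positivity)).zero_mem_interior
    refine exists_max_sep (M := t.card) ?_ ?_ ?_
    · intro S hS hsep
      refine sep_card_le (A := polarBody L) (B := Bset (polarBody K) (polarBody L) ε j)
        (B' := (ε / 16) • polarBody L) ?_ hS hsep ht
      rintro _ ⟨b, hb, rfl⟩ _ ⟨b', hb', rfl⟩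
      refine ⟨0, hP.zero_mem, (1 / 2 : ℝ) • (b - b'), hQ.half_sub hb hb', ?_⟩
      simp only [smul_zero, zero_add, smul_smul, ← smul_sub]
      congr 1
      ring
    · exact ⟨0, hP.zero_mem, 0, hQ.zero_mem, by simp only [smul_zero, add_zero]⟩
    · rintro _ ⟨u, hu, v, hv, rfl⟩
      exact ⟨-u, hP.symm u hu, -v, hQ.symm v hv, by simp only [add_comm, neg_add_rev, smul_neg]⟩
  choose S hS1 hS2 hS3 using hdual
  have hSne : ∀ j, (S j).Nonempty := by
    intro j
    obtain ⟨x, hx, _⟩ := hS3 j 0 hQ.zero_mem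
    exact ⟨x, hx⟩
  have hsne : ∀ j, (s j).Nonempty := by
    intro j
    have h0 : (0 : EuclideanSpace ℝ (Fin n)) ∈
        (2 : ℝ) • ((1 / 2 : ℝ) ^ j • K) ∩ (4 : ℝ) • L :=
      ⟨((hK.smul (c := (1 / 2 : ℝ) ^ j) (by positivity)).smul (c := (2:ℝ))
        (by norm_num)).zero_mem, (hL.smul (c := (4:ℝ)) (by norm_num)).zero_mem⟩
    obtain ⟨x, hx, _⟩ := hs3 j 0 h0
    exact ⟨x, hx⟩
  obtain ⟨q, hq1, hq2, hq3⟩ := exists_q hJ
  obtain ⟨M₀, hM₀⟩ := exists_pow_subset hK hL
  -- number of scales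
  set M := q * M₀ with hM
  have hMM : M₀ ≤ M := Nat.le_mul_of_pos_left _ hq1
  obtain ⟨t, ht1, ht2⟩ := telescoping hK hL hs3 M (hM₀ M hMM)
  rw [Finset.card_singleton, one_mul] at ht2
  have hN : Real.log (coveringNumber K L) ≤ ∑ j ∈ Finset.range M, Real.log (s j).card := by
    have h1 : coveringNumber K L ≤ ∏ j ∈ Finset.range M, (s j).card :=
      (coveringNumber_le ht1).trans ht2
    have hpos : 0 < coveringNumber K L := by
      obtain ⟨t', ht', hcard⟩ := exists_cov_eq ⟨t, ht1⟩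
      rw [← hcard, Finset.card_pos]
      obtain ⟨x, hx, _⟩ := ht' 0 hK.zero_mem
      exact ⟨x, hx⟩
    calc Real.log (coveringNumber K L)
        ≤ Real.log ((∏ j ∈ Finset.range M, (s j).card : ℕ) : ℝ) :=
          Real.log_le_log (by exact_mod_cast hpos) (by exact_mod_cast h1)
      _ = ∑ j ∈ Finset.range M, Real.log (s j).card := by
          push_cast
          rw [Real.log_prod]
          intro i _
          have := Finset.card_pos.2 (hsne i)
          (clear * - hsne; positivity)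
  have hα0 : 0 < 1 - 1 / (J : ℝ) := by linarith only [hJinv]
  have hα1 : 1 - 1 / (J : ℝ) ≤ 1 := by
    have : 0 < 1 / (J : ℝ) := by positivity
    linarith only [this]
  have hsum := lacunary_sum hP hQ hε0 hq1 (ε := ε) (by
    rw [hε]
    have : (768 * J : ℝ) ≤ 2 ^ q := by exact_mod_cast hq2
    rw [one_div, inv_mul_eq_div, le_div_iff₀ (by positivity)]
    linarith only [this]) hS1 hS2 hSne M₀
  have hεeq : ε / 16 = (384 * J : ℝ)⁻¹ := by
    rw [hε]; field_simp; norm_num
  rw [hεeq] at hsum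
  have hlogN : 0 ≤ Real.log (coveringNumber (polarBody L) ((384 * J : ℝ)⁻¹ • polarBody K)) :=
    Real.log_natCast_nonneg _
  calc (Real.log (coveringNumber K L)) ^ (1 - 1 / (J : ℝ))
      ≤ (∑ j ∈ Finset.range M, Real.log (s j).card) ^ (1 - 1 / (J : ℝ)) :=
        Real.rpow_le_rpow (Real.log_natCast_nonneg _) hN hα0.le
    _ ≤ ∑ j ∈ Finset.range M, (Real.log (s j).card) ^ (1 - 1 / (J : ℝ)) :=
        rpow_sum_le _ _ (fun i _ => Real.log_natCast_nonneg _) hα0 hα1
    _ ≤ ∑ j ∈ Finset.range M, 256 * J * Real.log (S j).card :=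
        Finset.sum_le_sum fun j _ => level_bound hK hL hJ (hs1 j) (hs2 j) (hS1 j) (hS3 j)
    _ = 256 * J * ∑ j ∈ Finset.range M, Real.log (S j).card := by rw [Finset.mul_sum]
    _ ≤ 256 * J * (q * Real.log
          (coveringNumber (polarBody L) ((384 * J : ℝ)⁻¹ • polarBody K))) := by (clear * - hsum hJ; gcongr)
    _ ≤ 256 * J * (18 * Real.log J * Real.log
          (coveringNumber (polarBody L) ((384 * J : ℝ)⁻¹ • polarBody K))) := by (clear * - hq3 hJ; gcongr)
    _ = _ := by ring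

end Vale.Agent.P126
end
end
end

section

section

section

open Finset Real Pointwise

namespace Vale.Agent.P126

variable {n : ℕ}

theorem cov_smul_iff {t : Finset (EuclideanSpace ℝ (Fin n))}
    {A B : Set (EuclideanSpace ℝ (Fin n))} {c : ℝ} (hc : c ≠ 0) (h : Cov t A B) :
    ∃ t' : Finset (EuclideanSpace ℝ (Fin n)), Cov t' (c • A) (c • B) ∧ t'.card ≤ t.card := by
  classical
  refine ⟨t.image fun x => c • x, ?_, Finset.card_image_le⟩
  rintro _ ⟨a, ha, rfl⟩
  obtain ⟨x, hx, hax⟩ := h a ha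
  exact ⟨c • x, Finset.mem_image.2 ⟨x, hx, rfl⟩, ⟨a - x, hax, smul_sub _ _ _⟩⟩

theorem coveringNumber_smul_le {A B : Set (EuclideanSpace ℝ (Fin n))} {c : ℝ} (hc : c ≠ 0)
    (h : ∃ t : Finset (EuclideanSpace ℝ (Fin n)), Cov t A B) :
    coveringNumber (c • A) (c • B) ≤ coveringNumber A B := by
  obtain ⟨t, ht, hcard⟩ := exists_cov_eq h
  obtain ⟨t', ht', hcard'⟩ := cov_smul_iff hc ht
  exact (coveringNumber_le ht').trans (hcard'.trans hcard.le)

theorem coveringNumber_anti {A B B' : Set (EuclideanSpace ℝ (Fin n))} (hBB : B' ⊆ B)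
    (h : ∃ t : Finset (EuclideanSpace ℝ (Fin n)), Cov t A B') :
    coveringNumber A B ≤ coveringNumber A B' := by
  obtain ⟨t, ht, hcard⟩ := exists_cov_eq h
  rw [← hcard]
  refine coveringNumber_le fun a ha => ?_
  obtain ⟨x, hx, hax⟩ := ht a ha
  exact ⟨x, hx, hBB hax⟩

theorem coveringNumber_pos {A B : Set (EuclideanSpace ℝ (Fin n))} (hA : IsSymmBody A)
    (hB : IsSymmBody B) : 0 < coveringNumber A B := by
  obtain ⟨t', ht', hcard⟩ := exists_cov_eq (exists_cov_of_compact hA.compact hB.zero_mem_interior)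
  rw [← hcard, Finset.card_pos]
  obtain ⟨x, hx, _⟩ := ht' 0 hA.zero_mem
  exact ⟨x, hx⟩

theorem log_covering_anti {A B : Set (EuclideanSpace ℝ (Fin n))} (hA : IsSymmBody A)
    (hB : IsSymmBody B) {c d : ℝ} (hc : 0 < c) (hcd : c ≤ d) :
    Real.log (coveringNumber A (d • B)) ≤ Real.log (coveringNumber A (c • B)) := by
  have hd : 0 < d := by linarith
  have hsub : c • B ⊆ d • B := by
    rintro _ ⟨b, hb, rfl⟩
    refine ⟨(c / d) • b, hB.smul_mem_of_le hb ?_, ?_⟩
    · rw [abs_of_pos (by positivity), div_le_one hd]; exact hcd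
    · simp only [smul_smul]; congr 1; field_simp
  have h1 := coveringNumber_anti hsub
    (exists_cov_of_compact hA.compact (hB.smul hc.ne').zero_mem_interior)
  have hpos := coveringNumber_pos hA (hB.smul hd.ne')
  exact Real.log_le_log (by exact_mod_cast hpos) (by exact_mod_cast h1)

/-- **Main theorem, both inequalities.** -/
theorem main_lower {K L : Set (EuclideanSpace ℝ (Fin n))} (hK : IsSymmBody K)
    (hL : IsSymmBody L) {J : ℕ} (hJ : 2 ≤ J) :
    (Real.log (coveringNumber (polarBody L) ((384 * J : ℝ) • polarBody K))) ^ (1 - 1 / (J : ℝ)) ≤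
      4608 * J * Real.log J * Real.log (coveringNumber K L) := by
  have hJ0 : (0 : ℝ) < J := by positivity
  have hJ2 : (2 : ℝ) ≤ J := by exact_mod_cast hJ
  have ha : (0 : ℝ) < 384 * J := by positivity
  have h := main_upper hL.polar (hK.polar.smul ha.ne') hJ
  rw [polar_smul _ ha, bipolar hK, bipolar hL] at h
  refine h.trans ?_
  have hlogJ : 0 ≤ Real.log J := Real.log_nonneg (by linarith only [hJ2])
  have h1 := coveringNumber_smul_le (A := K) (B := L) (inv_ne_zero ha.ne')
    (exists_cov_of_compact hK.compact hL.zero_mem_interior)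
  have hpos := coveringNumber_pos (hK.smul (inv_ne_zero ha.ne')) (hL.smul (inv_ne_zero ha.ne'))
  have h2 : Real.log (coveringNumber ((384 * J : ℝ)⁻¹ • K) ((384 * J : ℝ)⁻¹ • L)) ≤
      Real.log (coveringNumber K L) :=
    Real.log_le_log (by exact_mod_cast hpos) (by exact_mod_cast h1)
  (clear * - h2 hJ; gcongr)

theorem log_nat_dichotomy (N : ℕ) : Real.log N = 0 ∨ Real.log 2 ≤ Real.log N := by
  rcases Nat.lt_or_ge N 2 with h | h
  · left; interval_cases N <;> simp
  · right; exact Real.log_le_log (by norm_num) (by exact_mod_cast h)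

/-- passing from the exponent `1 - 1/J` on the left to `1 + κ` on the right -/
theorem pow_form {J : ℕ} (hJ : 2 ≤ J) {κ : ℝ} (hκ : 0 < κ) (hJκ : 1 + 1 / κ ≤ J) {x y B : ℝ}
    (hx : 0 ≤ x) (hB : 2 ≤ B) (hy : y = 0 ∨ Real.log 2 ≤ y)
    (h : x ^ (1 - 1 / (J : ℝ)) ≤ B * y) : x ≤ (B * y) ^ (1 + κ) := by
  have hJ0 : (0 : ℝ) < J := by positivity
  have hJ2 : (2 : ℝ) ≤ J := by exact_mod_cast hJ
  have hJinv : 1 / (J : ℝ) ≤ 1 / 2 := by
    apply one_div_le_one_div_of_le <;> linarith only [hJ2]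
  have hα : 0 < 1 - 1 / (J : ℝ) := by linarith only [hJinv]
  have hlog2 := Real.log_two_gt_d9
  rcases hy with hy | hy
  · rw [hy, mul_zero] at h
    have hx0 : x = 0 := by
      by_contra hne
      have : 0 < x := lt_of_le_of_ne hx (Ne.symm hne)
      have := Real.rpow_pos_of_pos this (1 - 1 / (J : ℝ))
      linarith only [h, this]
    rw [hx0, hy, mul_zero, Real.zero_rpow (by linarith only [hκ])]
  · have hBy : 1 ≤ B * y := by nlinarith only [hB, hlog2, hy]
    have h1 : x ≤ (B * y) ^ (1 / (1 - 1 / (J : ℝ))) := by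
      have h2 := Real.rpow_le_rpow (Real.rpow_nonneg hx _) h (z := 1 / (1 - 1 / (J : ℝ)))
        (by (clear * - hα; positivity))
      rw [← Real.rpow_mul hx, mul_one_div_cancel hα.ne', Real.rpow_one] at h2
      exact h2
    refine h1.trans (Real.rpow_le_rpow_of_exponent_le hBy ?_)
    rw [div_le_iff₀ hα]
    have h3 : (1 + κ) / J ≤ κ := by
      rw [div_le_iff₀ hJ0]
      have : κ * (1 + 1 / κ) ≤ κ * J := by gcongr
      have e : κ * (1 + 1 / κ) = κ + 1 := by (clear * - hκ; field_simp)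
      linarith only [this, e]
    have e : (1 + κ) * (1 - 1 / (J : ℝ)) = 1 + κ - (1 + κ) / J := by ring
    rw [e]; linarith only [h3]

/-- Power-loss form of the duality. -/
theorem power_loss {κ : ℝ} (hκ : 0 < κ) : ∃ a b : ℝ, 1 ≤ a ∧ 1 ≤ b ∧
    ∀ (n : ℕ) (K L : Set (EuclideanSpace ℝ (Fin n))), IsSymmBody K → IsSymmBody L →
      1 / b * (Real.log (coveringNumber (polarBody L) (a • polarBody K))) ^ (1 / (1 + κ)) ≤
          Real.log (coveringNumber K L) ∧
      Real.log (coveringNumber K L) ≤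
        b * (Real.log (coveringNumber (polarBody L) (a⁻¹ • polarBody K))) ^ (1 + κ) := by
  set J : ℕ := ⌈2 + 1 / κ⌉₊ with hJdef
  have hJle : 2 + 1 / κ ≤ J := Nat.le_ceil _
  have hκ' : 0 < 1 / κ := by positivity
  have hJ2 : (2 : ℝ) ≤ J := by linarith only [hJle, hκ']
  have hJ : 2 ≤ J := by exact_mod_cast hJ2
  have hJ0 : (0 : ℝ) < J := by linarith only [hJle, hκ']
  have hlog2 := Real.log_two_gt_d9
  have hlogJ : Real.log 2 ≤ Real.log J := Real.log_le_log (by norm_num) hJ2
  set B : ℝ := 4608 * J * Real.log J with hBdef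
  have hB : 2 ≤ B := by
    have : (4608:ℝ) * 2 * 0.6 ≤ 4608 * J * Real.log J := by
      gcongr
      linarith only [hlog2, hlogJ]
    linarith only [this]
  have hB1 : (1 : ℝ) ≤ B ^ (1 + κ) := Real.one_le_rpow (by linarith only [hB]) (by linarith only [hκ])
  have hBB : B ≤ B ^ (1 + κ) := by
    calc B = B ^ (1 : ℝ) := (Real.rpow_one B).symm
      _ ≤ B ^ (1 + κ) := Real.rpow_le_rpow_of_exponent_le (by linarith only [hB]) (by linarith only [hκ])
  refine ⟨384 * J, B ^ (1 + κ), by linarith only [hJle, hκ'], hB1, ?_⟩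
  intro n K L hK hL
  constructor
  · have h := main_lower hK hL hJ
    have h1 := pow_form hJ hκ (by linarith only [hJle]) (Real.log_natCast_nonneg _) hB
      (log_nat_dichotomy _) h
    have hy : 0 ≤ Real.log (coveringNumber K L) := Real.log_natCast_nonneg _
    have h2 := Real.rpow_le_rpow (Real.log_natCast_nonneg _) h1 (z := 1 / (1 + κ)) (by positivity)
    rw [← Real.rpow_mul (by (clear * - hB; positivity)), mul_one_div_cancel (by positivity), Real.rpow_one] at h2
    rw [one_div, inv_mul_le_iff₀ (by positivity)]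
    calc _ ≤ B * Real.log (coveringNumber K L) := h2
      _ ≤ _ := by (clear * - hBB; gcongr)
  · have h := main_upper hK hL hJ
    have h1 := pow_form hJ hκ (by linarith only [hJle]) (Real.log_natCast_nonneg _) hB
      (log_nat_dichotomy _) h
    rw [Real.mul_rpow (by linarith only [hB]) (Real.log_natCast_nonneg _)] at h1
    exact h1

/-- numerical part of the doubly logarithmic form -/
theorem loglog_numeric {x X y : ℝ} (hx : 0 ≤ x) (hxX : x ≤ X) (hy : 0 ≤ y) {J : ℕ}
    (hJ : J = ⌈2 + Real.log (1 + X)⌉₊)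
    (h : x ^ (1 - 1 / (J : ℝ)) ≤ 4608 * J * Real.log J * y) :
    x ≤ 40000 * (2 + Real.log (1 + X)) * Real.log (2 + Real.log (1 + X)) * y := by
  set s := 2 + Real.log (1 + X) with hs
  have hX : 0 ≤ Real.log (1 + X) := Real.log_nonneg (by linarith only [hx, hxX])
  have hs2 : 2 ≤ s := by linarith only [hX]
  have hJs : s ≤ J := by rw [hJ]; exact Nat.le_ceil _
  have hJs' : (J : ℝ) ≤ 3 / 2 * s := by
    have := Nat.ceil_lt_add_one (by linarith only [hX] : 0 ≤ s)
    rw [hJ]; linarith only [hX, this]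
  have hJ2 : (2 : ℝ) ≤ J := by linarith only [hX, hJs]
  have hJ0 : (0 : ℝ) < J := by linarith only [hX, hJs]
  have hJinv : 1 / (J : ℝ) ≤ 1 / 2 := by
    apply one_div_le_one_div_of_le <;> linarith only [hX, hJs]
  have hlog2 := Real.log_two_gt_d9
  have hlogs : Real.log 2 ≤ Real.log s := Real.log_le_log (by norm_num) hs2
  have hlogJ : Real.log J ≤ 8 / 5 * Real.log s := by
    have h1 : Real.log J ≤ Real.log (3 / 2 * s) := Real.log_le_log hJ0 hJs'
    rw [Real.log_mul (by norm_num) (by linarith only [hX])] at h1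
    have h2 : Real.log (3 / 2) ≤ 3 / 5 * Real.log 2 := by
      have h3 : Real.log ((3 / 2 : ℝ) ^ 5) ≤ Real.log ((2 : ℝ) ^ 3) :=
        Real.log_le_log (by norm_num) (by norm_num)
      rw [Real.log_pow, Real.log_pow] at h3
      push_cast at h3
      linarith only [h3]
    linarith only [hlogs, h1, h2]
  have hexp := Real.exp_one_lt_d9
  have hkey : x ≤ Real.exp 1 * x ^ (1 - 1 / (J : ℝ)) := by
    rcases le_total x 1 with hx1 | hx1
    · rcases eq_or_lt_of_le hx with hx0 | hx0
      · rw [← hx0]; (clear * -; positivity)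
      · have h1 : x ≤ x ^ (1 - 1 / (J : ℝ)) := by
          calc x = x ^ (1 : ℝ) := (Real.rpow_one x).symm
            _ ≤ x ^ (1 - 1 / (J : ℝ)) := by
                apply Real.rpow_le_rpow_of_exponent_ge hx0 hx1
                have : 0 < 1 / (J : ℝ) := by positivity
                linarith only [this]
        have h2 : 0 ≤ x ^ (1 - 1 / (J : ℝ)) := by positivity
        have h3 : (1 : ℝ) ≤ Real.exp 1 := Real.one_le_exp (by norm_num)
        nlinarith only [h1, hx, h3]
    · have hx0 : 0 < x := by linarith only [hx1]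
      have h1 : x ^ (1 / (J : ℝ)) ≤ Real.exp 1 := by
        rw [Real.rpow_def_of_pos hx0]
        apply Real.exp_le_exp.2
        have h2 : Real.log x ≤ Real.log (1 + X) := Real.log_le_log hx0 (by linarith only [hxX])
        rw [mul_one_div, div_le_one hJ0]
        linarith only [hJs, h2]
      have e : x = x ^ (1 / (J : ℝ)) * x ^ (1 - 1 / (J : ℝ)) := by
        rw [← Real.rpow_add hx0]; simp
      calc x = x ^ (1 / (J : ℝ)) * x ^ (1 - 1 / (J : ℝ)) := e
        _ ≤ _ := by (clear * - h1 hx1; gcongr)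
  calc x ≤ Real.exp 1 * x ^ (1 - 1 / (J : ℝ)) := hkey
    _ ≤ 2.72 * (4608 * (3 / 2 * s) * (8 / 5 * Real.log s) * y) := by
        gcongr
        · linarith only [hexp]
        · refine h.trans ?_
          have : 0 ≤ Real.log J := Real.log_nonneg (by linarith only [hX, hJs])
          (clear * - hJs' hlogJ hX hy; gcongr)
    _ = 30081.024 * (s * Real.log s * y) := by ring
    _ ≤ 40000 * (s * Real.log s * y) := by
        have : 0 ≤ s * Real.log s * y := by
          have : 0 ≤ Real.log s := by linarith only [hlog2, hlogs]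
          (clear * - hX this hy; positivity)
        nlinarith only [this]
    _ = _ := by ring

/-- Doubly logarithmic form of the duality. -/
theorem loglog_form {K L : Set (EuclideanSpace ℝ (Fin n))} (hK : IsSymmBody K)
    (hL : IsSymmBody L) {s : ℝ} (hs : s = 2 + Real.log (1 + Real.log (coveringNumber K L))) :
    Real.log (coveringNumber K L) ≤ 40000 * s * Real.log s *
      Real.log (coveringNumber (polarBody L) ((1000 * s)⁻¹ • polarBody K)) := by
  have hx : 0 ≤ Real.log (coveringNumber K L) := Real.log_natCast_nonneg _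
  have hX : 0 ≤ Real.log (1 + Real.log (coveringNumber K L)) := Real.log_nonneg (by linarith)
  have hs2 : 2 ≤ s := by linarith only [hs, hX]
  set J : ℕ := ⌈s⌉₊ with hJ
  have hJs : s ≤ J := Nat.le_ceil _
  have hJs' : (J : ℝ) ≤ 3 / 2 * s := by
    have := Nat.ceil_lt_add_one (by linarith only [hs, hX] : 0 ≤ s)
    linarith only [hs, hX, this]
  have hJ2 : (2 : ℝ) ≤ J := by linarith only [hs, hX, hJs]
  have hJ2' : 2 ≤ J := by exact_mod_cast hJ2
  have h := main_upper hK hL hJ2'
  have h1 := loglog_numeric hx le_rfl (Real.log_natCast_nonneg _) (J := J) (by rw [hJ, hs]) h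
  rw [← hs] at h1
  refine h1.trans ?_
  have hlogs : 0 ≤ Real.log s := Real.log_nonneg (by linarith only [hs, hX])
  have h2 : Real.log (coveringNumber (polarBody L) ((384 * J : ℝ)⁻¹ • polarBody K)) ≤
      Real.log (coveringNumber (polarBody L) ((1000 * s)⁻¹ • polarBody K)) := by
    apply log_covering_anti hL.polar hK.polar (by positivity)
    apply inv_anti₀ (by positivity)
    linarith only [hJs']
  (clear * - h2 hs2 hlogs; gcongr)

theorem loglog_form_dual {K L : Set (EuclideanSpace ℝ (Fin n))} (hK : IsSymmBody K)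
    (hL : IsSymmBody L) {s : ℝ}
    (hs : s = 2 + Real.log (1 + Real.log (coveringNumber (polarBody L) (polarBody K)))) :
    Real.log (coveringNumber (polarBody L) ((1000 * s) • polarBody K)) ≤
      40000 * s * Real.log s * Real.log (coveringNumber K L) := by
  have hx : 0 ≤ Real.log (coveringNumber (polarBody L) (polarBody K)) :=
    Real.log_natCast_nonneg _
  have hX : 0 ≤ Real.log (1 + Real.log (coveringNumber (polarBody L) (polarBody K))) :=
    Real.log_nonneg (by linarith)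
  have hs2 : 2 ≤ s := by linarith only [hs, hX]
  set J : ℕ := ⌈s⌉₊ with hJ
  have hJs : s ≤ J := Nat.le_ceil _
  have hJs' : (J : ℝ) ≤ 3 / 2 * s := by
    have := Nat.ceil_lt_add_one (by linarith only [hs, hX] : 0 ≤ s)
    linarith only [hs, hX, this]
  have hJ2 : (2 : ℝ) ≤ J := by linarith only [hs, hX, hJs]
  have hJ2' : 2 ≤ J := by exact_mod_cast hJ2
  have h := main_lower hK hL hJ2'
  have h0 : Real.log (coveringNumber (polarBody L) ((384 * J : ℝ) • polarBody K)) ≤
      Real.log (coveringNumber (polarBody L) (polarBody K)) := by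
    have := log_covering_anti hL.polar hK.polar (c := 1) (d := 384 * J) one_pos (by linarith only [hs, hX, hJs])
    rwa [one_smul] at this
  have h1 := loglog_numeric (Real.log_natCast_nonneg _) h0 (Real.log_natCast_nonneg _)
    (J := J) (by rw [hJ, hs]) h
  rw [← hs] at h1
  refine le_trans ?_ h1
  apply log_covering_anti hL.polar hK.polar (by positivity)
  linarith only [hJs']

end Vale.Agent.P126
end
end
end

section

section

section

/-!
# P126, quantitative counterexample: the power gap and the dimension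
-/

open Pointwise

namespace Vale.Agent.P126.CQ

open Vale.Agent.P126.CE

theorem final_exp_bound (a : ℝ) (ha : 1 ≤ a) :
    22 * (32 : ℝ) ^ (⌈12 * a⌉₊ + 1) ≤ Real.exp (60 * a) := by
  have h1 : ((⌈12 * a⌉₊ + 1 : ℕ) : ℝ) ≤ 12 * a + 2 := by
    have := Nat.ceil_lt_add_one (show 0 ≤ 12 * a by linarith)
    push_cast
    linarith only [this]
  have hlog : Real.log 32 ≤ 3.466 := by
    have h2 : Real.log 32 = 5 * Real.log 2 := by
      rw [show (32 : ℝ) = 2 ^ 5 by norm_num, Real.log_pow]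
      norm_num
    have := Real.log_two_lt_d9
    rw [h2]
    linarith only [this]
  have h0 : 0 < Real.log 32 := Real.log_pos (by norm_num)
  have h3 : (32 : ℝ) ^ (⌈12 * a⌉₊ + 1) ≤ Real.exp (3.466 * (12 * a + 2)) := by
    rw [← Real.rpow_natCast, Real.rpow_def_of_pos (by norm_num)]
    apply Real.exp_le_exp.mpr
    calc Real.log 32 * ((⌈12 * a⌉₊ + 1 : ℕ) : ℝ) ≤ 3.466 * ((⌈12 * a⌉₊ + 1 : ℕ) : ℝ) :=
          mul_le_mul_of_nonneg_right hlog (by positivity)
      _ ≤ 3.466 * (12 * a + 2) := by linarith only [h1]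
  have h4 : (22 : ℝ) ≤ Real.exp 4 := by
    have h5 := Real.exp_one_gt_d9
    have h6 : Real.exp 4 = Real.exp 1 ^ 4 := by
      rw [← Real.exp_nat_mul]
      norm_num
    rw [h6]
    calc (22 : ℝ) ≤ 2.7 ^ 4 := by norm_num
      _ ≤ Real.exp 1 ^ 4 := pow_le_pow_left₀ (by norm_num) (by linarith only [h5]) 4
  calc 22 * (32 : ℝ) ^ (⌈12 * a⌉₊ + 1) ≤ Real.exp 4 * Real.exp (3.466 * (12 * a + 2)) :=
        mul_le_mul h4 h3 (by positivity) (Real.exp_pos _).le
    _ = Real.exp (4 + 3.466 * (12 * a + 2)) := by rw [Real.exp_add]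
    _ ≤ Real.exp (60 * a) := by
        apply Real.exp_le_exp.mpr
        linarith only [ha]

/-- the numerical data extracted from the core -/
theorem final_data (h : Core2) (a : ℝ) (ha : 1 ≤ a) (m : ℕ)
    (hm : 32 * (⌈12 * a⌉₊ + 1) ^ 2 ≤ m) :
    ∃ (n : ℕ) (_ : 1 ≤ n) (K : Set (EuclideanSpace ℝ (Fin n))) (ρ y : ℝ), 0 < ρ ∧ IsSymmBody K ∧
      IsSymmBody {x : EuclideanSpace ℝ (Fin n) | ∀ i, |x i| ≤ ρ} ∧
      m * Real.log 2 ≤ y ∧ y ≤ (m + 1 : ℝ) ^ (10 * 32 ^ (⌈12 * a⌉₊ + 1)) * Real.log 2 ∧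
      y ≤ Real.log (coveringNumber K {x : EuclideanSpace ℝ (Fin n) | ∀ i, |x i| ≤ ρ}) ∧
      m * Real.log (coveringNumber (polarBody {x : EuclideanSpace ℝ (Fin n) | ∀ i, |x i| ≤ ρ})
        (a⁻¹ • polarBody K)) ≤ y ∧ Real.log n ≤ 2 * y := by
  obtain ⟨nW, nX, N, f, cls, hnW, hsep, hcls, hN, h2m, hnX, hnW2⟩ := h ⌈12 * a⌉₊ m hm
  obtain ⟨ρ, K, hρ, hK, hL, hlow, hup⟩ := geom_core a ha nW nX N f cls hnW ⌈12 * a⌉₊
    (Nat.le_ceil _) hsep hcls
  have hnX0 : 0 < nX := lt_of_lt_of_le (by positivity) h2m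
  have hnX0R : (0 : ℝ) < nX := by exact_mod_cast hnX0
  have hN0 : 0 < N := (Nat.zero_le _).trans_lt (cls 0).2
  have hN0R : (0 : ℝ) < N := by exact_mod_cast hN0
  refine ⟨nW, hnW, K, ρ, Real.log nX, hρ, hK, hL, ?_, ?_, ?_, ?_, ?_⟩
  · rw [← Real.log_pow]
    apply Real.log_le_log (by positivity)
    exact_mod_cast h2m
  · have h1 : (nX : ℝ) ≤ 2 ^ ((m + 1) ^ (10 * 32 ^ (⌈12 * a⌉₊ + 1))) := by exact_mod_cast hnX
    have h2 := Real.log_le_log hnX0R h1
    rw [Real.log_pow] at h2
    push_cast at h2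
    exact h2
  · apply Real.log_le_log hnX0R
    exact_mod_cast hlow
  · have h1 : Real.log (coveringNumber
        (polarBody {x : EuclideanSpace ℝ (Fin nW) | ∀ i, |x i| ≤ ρ}) (a⁻¹ • polarBody K)) ≤
        Real.log N := by
      rcases Nat.eq_zero_or_pos (coveringNumber
        (polarBody {x : EuclideanSpace ℝ (Fin nW) | ∀ i, |x i| ≤ ρ}) (a⁻¹ • polarBody K))
        with h0 | h0
      · rw [h0]
        simpa only [CharP.cast_eq_zero, Real.log_zero] using Real.log_natCast_nonneg N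
      · exact Real.log_le_log (by exact_mod_cast h0) (by exact_mod_cast hup)
    calc (m : ℝ) * Real.log (coveringNumber
          (polarBody {x : EuclideanSpace ℝ (Fin nW) | ∀ i, |x i| ≤ ρ}) (a⁻¹ • polarBody K))
        ≤ m * Real.log N := mul_le_mul_of_nonneg_left h1 (by (clear * -; positivity))
      _ = Real.log ((N : ℝ) ^ m) := (Real.log_pow _ _).symm
      _ ≤ Real.log nX := by
          apply Real.log_le_log (by positivity)
          exact_mod_cast hN
  · have h1 : (nW : ℝ) ≤ (nX : ℝ) ^ 2 := by exact_mod_cast hnW2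
    have h2 := Real.log_le_log (by exact_mod_cast hnW) h1
    rw [Real.log_pow] at h2
    exact_mod_cast h2

/-- the numerical step of the power gap -/
theorem final_power {y m Y ε : ℝ} {c : ℕ} (hc : 0 < c) (hm : 1 ≤ m) (hy : 2 ^ (2 * c) ≤ y)
    (hym : y ≤ (m + 1) ^ c) (hY : y ≤ Y) (hε : ε ≤ 1 / (2 * c)) :
    y / m ≤ Y ^ (1 - ε) := by
  have hcR : (0 : ℝ) < c := by exact_mod_cast hc
  have hy1 : 1 ≤ y := (one_le_pow₀ (by norm_num)).trans hy
  have hy0 : 0 < y := by linarith only [hy1]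
  set t := y ^ (1 / (2 * (c : ℝ))) with ht
  have ht2 : 2 ≤ t := by
    have h1 : ((2 : ℝ) ^ (2 * c)) ^ (1 / (2 * (c : ℝ))) ≤ t :=
      Real.rpow_le_rpow (by positivity) hy (by positivity)
    have h2 : ((2 : ℝ) ^ (2 * c)) ^ (1 / (2 * (c : ℝ))) = 2 := by
      rw [← Real.rpow_natCast, ← Real.rpow_mul (by norm_num)]
      push_cast
      rw [mul_one_div_cancel (by positivity), Real.rpow_one]
    rwa [h2] at h1
  have htt : t * t ≤ m + 1 := by
    have h1 : t * t = y ^ (1 / (c : ℝ)) := by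
      rw [ht, ← Real.rpow_add hy0]
      congr 1
      field_simp
      norm_num
    rw [h1]
    have h2 : y ^ (1 / (c : ℝ)) ≤ ((m + 1) ^ c) ^ (1 / (c : ℝ)) :=
      Real.rpow_le_rpow hy0.le hym (by positivity)
    refine h2.trans (le_of_eq ?_)
    rw [← Real.rpow_natCast, ← Real.rpow_mul (by positivity), mul_one_div_cancel hcR.ne',
      Real.rpow_one]
  have htm : t ≤ m := by nlinarith only [ht2, htt]
  have h3 : y = y ^ (1 - 1 / (2 * (c : ℝ))) * t := by
    rw [ht, ← Real.rpow_add hy0]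
    norm_num
  have h4 : y / m ≤ y ^ (1 - 1 / (2 * (c : ℝ))) := by
    rw [div_le_iff₀ (by linarith only [ht2, htm])]
    calc y = y ^ (1 - 1 / (2 * (c : ℝ))) * t := h3
      _ ≤ y ^ (1 - 1 / (2 * (c : ℝ))) * m :=
          mul_le_mul_of_nonneg_left htm (Real.rpow_nonneg hy0.le _)
  refine h4.trans ?_
  have h5 : 1 / (2 * (c : ℝ)) ≤ 1 := by
    rw [div_le_one (by positivity)]
    have : (1 : ℝ) ≤ c := by exact_mod_cast hc
    linarith only [this]
  calc y ^ (1 - 1 / (2 * (c : ℝ))) ≤ Y ^ (1 - 1 / (2 * (c : ℝ))) :=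
        Real.rpow_le_rpow hy0.le hY (by linarith only [h5])
    _ ≤ Y ^ (1 - ε) := Real.rpow_le_rpow_of_exponent_le (by linarith only [hY, hy1]) (by linarith only [hε])

/-- S8 (Final.lean). -/
theorem power_gap (h : Core2) (a : ℝ) (ha : 1 ≤ a) (M : ℝ) :
    ∃ (n : ℕ) (_ : 1 ≤ n) (K : Set (EuclideanSpace ℝ (Fin n))) (ρ : ℝ), 0 < ρ ∧ IsSymmBody K ∧
      IsSymmBody {x : EuclideanSpace ℝ (Fin n) | ∀ i, |x i| ≤ ρ} ∧
      M ≤ Real.log (coveringNumber K {x : EuclideanSpace ℝ (Fin n) | ∀ i, |x i| ≤ ρ}) ∧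
      Real.log (coveringNumber (polarBody {x : EuclideanSpace ℝ (Fin n) | ∀ i, |x i| ≤ ρ})
        (a⁻¹ • polarBody K)) ≤
        (Real.log (coveringNumber K {x : EuclideanSpace ℝ (Fin n) | ∀ i, |x i| ≤ ρ})) ^
          (1 - Real.exp (-(60 * a))) := by
  set κ := ⌈12 * a⌉₊ with hκ
  obtain ⟨c, hc⟩ : ∃ c : ℕ, c = 10 * 32 ^ (κ + 1) := ⟨_, rfl⟩
  have hc0 : 0 < c := by rw [hc]; positivity
  obtain ⟨m, hm⟩ : ∃ m : ℕ, m = max (32 * (κ + 1) ^ 2) (max (2 ^ (2 * c + 1)) ⌈2 * |M|⌉₊) :=
    ⟨_, rfl⟩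
  have hm1 : 32 * (κ + 1) ^ 2 ≤ m := by rw [hm]; exact le_max_left _ _
  have hm2 : 2 ^ (2 * c + 1) ≤ m := by
    rw [hm]; exact (le_max_left _ _).trans (le_max_right _ _)
  have hm3 : ⌈2 * |M|⌉₊ ≤ m := by
    rw [hm]; exact (le_max_right _ _).trans (le_max_right _ _)
  obtain ⟨n, hn, K, ρ, y, hρ, hK, hL, h1, h2, h3, h4, -⟩ := final_data h a ha m hm1
  have hl2 := Real.log_two_gt_d9
  have hl2' := Real.log_two_lt_d9
  have hm2R : (2 : ℝ) ^ (2 * c + 1) ≤ m := by exact_mod_cast hm2
  have hm0 : (0 : ℝ) < m := lt_of_lt_of_le (by positivity) hm2R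
  have hmy : (m : ℝ) / 2 ≤ y := by nlinarith only [h1, hl2]
  refine ⟨n, hn, K, ρ, hρ, hK, hL, ?_, ?_⟩
  · have h5 : 2 * |M| ≤ m := (Nat.le_ceil _).trans (by exact_mod_cast hm3)
    have := le_abs_self M
    linarith only [h3, hmy, h5, this]
  · have h5 : Real.log (coveringNumber
        (polarBody {x : EuclideanSpace ℝ (Fin n) | ∀ i, |x i| ≤ ρ}) (a⁻¹ • polarBody K)) ≤
        y / m := by
      rw [le_div_iff₀ hm0, mul_comm]
      exact h4
    refine h5.trans (final_power (c := c) hc0 ?_ ?_ ?_ h3 ?_)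
    · have : (1 : ℝ) ≤ 2 ^ (2 * c + 1) := one_le_pow₀ (by norm_num)
      linarith only [hm2R, this]
    · have : (2 : ℝ) ^ (2 * c + 1) = 2 * 2 ^ (2 * c) := by rw [pow_succ]; ring
      linarith only [hm2R, hmy, this]
    · rw [hc]
      refine h2.trans ?_
      have h6 : (0 : ℝ) < (m + 1 : ℝ) ^ (10 * 32 ^ (κ + 1)) := by (clear * - hm0; positivity)
      nlinarith only [h2, hl2', hl2, hm0, hmy]
    · have h6 := final_exp_bound a ha
      rw [Real.exp_neg, ← one_div]
      apply one_div_le_one_div_of_le (by positivity)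
      refine le_trans ?_ h6
      rw [hc]
      push_cast
      have h7 : (0 : ℝ) < 32 ^ (⌈12 * a⌉₊ + 1) := by positivity
      linarith only [h7]

/-- S9 (Final.lean). -/
theorem dim_bound (h : Core2) (a b : ℝ) (ha : 1 ≤ a) (hb : 1 ≤ b) :
    ∃ (n : ℕ) (_ : 1 ≤ n) (K : Set (EuclideanSpace ℝ (Fin n))) (ρ : ℝ), 0 < ρ ∧ IsSymmBody K ∧
      IsSymmBody {x : EuclideanSpace ℝ (Fin n) | ∀ i, |x i| ≤ ρ} ∧
      Real.log n ≤ (80 * a * b) ^ Real.exp (60 * a) ∧
      b * Real.log (coveringNumber (polarBody {x : EuclideanSpace ℝ (Fin n) | ∀ i, |x i| ≤ ρ})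
        (a⁻¹ • polarBody K)) <
        Real.log (coveringNumber K {x : EuclideanSpace ℝ (Fin n) | ∀ i, |x i| ≤ ρ}) := by
  set κ := ⌈12 * a⌉₊ with hκ
  obtain ⟨c, hc⟩ : ∃ c : ℕ, c = 10 * 32 ^ (κ + 1) := ⟨_, rfl⟩
  obtain ⟨m, hm⟩ : ∃ m : ℕ, m = ⌈b⌉₊ + 1 + 32 * (κ + 1) ^ 2 := ⟨_, rfl⟩
  have hm1 : 32 * (κ + 1) ^ 2 ≤ m := by omega
  obtain ⟨n, hn, K, ρ, y, hρ, hK, hL, h1, h2, h3, h4, h5⟩ := final_data h a ha m hm1
  have hl2 := Real.log_two_gt_d9
  have hl2' := Real.log_two_lt_d9
  have hbm : b < m := by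
    have h6 : b ≤ ⌈b⌉₊ := Nat.le_ceil b
    have h7 : ((⌈b⌉₊ + 1 : ℕ) : ℝ) ≤ m := by exact_mod_cast (by omega : ⌈b⌉₊ + 1 ≤ m)
    push_cast at h7
    linarith only [h6, h7]
  have hm0 : (0 : ℝ) < m := by linarith only [hb, hbm]
  have hy0 : 0 < y := lt_of_lt_of_le (mul_pos hm0 (by linarith only [hl2])) h1
  refine ⟨n, hn, K, ρ, hρ, hK, hL, ?_, ?_⟩
  · have hκR : (κ : ℝ) + 1 ≤ 12 * a + 2 := by
      have := Nat.ceil_lt_add_one (show 0 ≤ 12 * a by linarith only [ha])
      linarith only [this]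
    have hab : 1 ≤ a * b := by nlinarith only [ha, hb]
    have hmR : (m : ℝ) + 1 ≤ (80 * a * b) ^ 2 := by
      have h6 : (⌈b⌉₊ : ℝ) < b + 1 := Nat.ceil_lt_add_one (by linarith only [hb])
      have h7 : (m : ℝ) = ⌈b⌉₊ + 1 + 32 * ((κ : ℝ) + 1) ^ 2 := by
        rw [hm]; push_cast; ring
      have h8 : ((κ : ℝ) + 1) ^ 2 ≤ (14 * a) ^ 2 :=
        pow_le_pow_left₀ (by positivity) (by linarith only [ha, hκR]) 2
      have h9 : a ^ 2 ≤ (a * b) ^ 2 := pow_le_pow_left₀ (by linarith only [ha]) (by nlinarith only [hb, ha]) 2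
      have h10 : b ≤ a * b := by nlinarith only [ha, hb]
      have h11 : a * b ≤ (a * b) ^ 2 := by nlinarith only [hab]
      rw [h7]
      linarith
    have h80 : 1 ≤ 80 * a * b := by nlinarith only [hab]
    have hm2 : (2 : ℝ) ≤ (m : ℝ) + 1 := by linarith only [hb, hbm]
    calc Real.log n ≤ 2 * y := h5
      _ ≤ ((m : ℝ) + 1) * ((m : ℝ) + 1) ^ c := by
          rw [← hc] at h2
          have h6 : y ≤ ((m : ℝ) + 1) ^ c := by
            have h7 : (0 : ℝ) < ((m : ℝ) + 1) ^ c := by (clear * - hm0; positivity)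
            nlinarith only [h2, hl2, hl2', hy0]
          have h7 : (0 : ℝ) < ((m : ℝ) + 1) ^ c := by (clear * - hm0; positivity)
          nlinarith only [h6, hb, hy0, hbm]
      _ = ((m : ℝ) + 1) ^ (c + 1) := by rw [pow_succ]; ring
      _ ≤ ((80 * a * b) ^ 2) ^ (c + 1) := pow_le_pow_left₀ (by (clear * - hm0; positivity)) hmR _
      _ = (80 * a * b) ^ ((2 * (c + 1) : ℕ) : ℝ) := by
          rw [Real.rpow_natCast, pow_mul]
      _ ≤ (80 * a * b) ^ Real.exp (60 * a) := by
          apply Real.rpow_le_rpow_of_exponent_le h80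
          refine le_trans ?_ (final_exp_bound a ha)
          rw [hc]
          push_cast
          have h7 : (1 : ℝ) ≤ 32 ^ (⌈12 * a⌉₊ + 1) := one_le_pow₀ (by norm_num)
          linarith only [h7]
  · refine lt_of_lt_of_le ?_ h3
    have h6 : Real.log (coveringNumber
        (polarBody {x : EuclideanSpace ℝ (Fin n) | ∀ i, |x i| ≤ ρ}) (a⁻¹ • polarBody K)) ≤
        y / m := by
      rw [le_div_iff₀ hm0, mul_comm]
      exact h4
    calc b * Real.log (coveringNumber
          (polarBody {x : EuclideanSpace ℝ (Fin n) | ∀ i, |x i| ≤ ρ}) (a⁻¹ • polarBody K))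
        ≤ b * (y / m) := mul_le_mul_of_nonneg_left h6 (by linarith only [hb])
      _ = y * (b / m) := by ring
      _ < y * 1 := mul_lt_mul_of_pos_left ((div_lt_one hm0).mpr hbm) hy0
      _ = y := mul_one y

end Vale.Agent.P126.CQ
end
end
end

section

section

section

/-!
# P126, quantitative counterexample: the top step
-/

namespace Vale.Agent.P126.CQ

open Vale.Agent.P126.CE

section
variable {B J A A' S : Type} [Fintype B] [LinearOrder B] [Fintype J] [LinearOrder J]
  [Fintype A] [Fintype A'] [Fintype S]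

open Classical in
/-- The data of the top step and the estimate of the failure mass. -/
theorem top_data [Nonempty A] [Nonempty S] [Nonempty B] [Nonempty J]
    (c : A → S → A') (hinj : Function.Injective c) (e t n nh n2 : ℕ) (he : 0 < e) (ht : 0 < t)
    (hn : 0 < n) (hnh : 0 < nh) (hn2 : 0 < n2) (hS : Fintype.card S = e * t)
    (hc : ∀ a a', a ≠ a' → (Finset.univ.filter (fun s => c a s = c a' s)).card ≤ t)
    (lam : (B ×ₗ J) × ((B ×ₗ J) → A) → ℝ) (h0 : ∀ w, 0 ≤ lam w) :
    ∃ (σ : S) (y : Fin n → (B ×ₗ J) → A) (h : Fin nh → (B ×ₗ J))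
      (v : (B ×ₗ J) → Fin (2 * n2) → J → A), ∀ z : (B ×ₗ J) → A,
      (∑ w, if (top w z ∧ ¬ thTop c σ y h v w
        (evTop c n nh n2 (σ, fun q i => c (y q i) σ, fun k => (h k, v (h k))) z)) ∨
      (thTop c σ y h v w
        (evTop c n nh n2 (σ, fun q i => c (y q i) σ, fun k => (h k, v (h k))) z) ∧
        ¬ lift c top w z) then lam w else 0) ≤
      ((n : ℝ) / e + 1 / nh + 1 / n + 1 / n2) * ∑ w, lam w := by
  obtain ⟨y, hy⟩ := exists_cover (V := (B ×ₗ J) → A) (fun y w => Rw y w) n hn lam h0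
  obtain ⟨σ, hσ⟩ := exists_sigma c e t n he ht hS hc lam h0 y
  obtain ⟨h, hh⟩ := exists_cover (V := B ×ₗ J)
    (fun i (w : (B ×ₗ J) × ((B ×ₗ J) → A)) => w.1 = i) nh hnh lam h0
  choose v hv using exists_block_words (A := A) n2 hn2 lam h0
  refine ⟨σ, y, h, v, fun z => ?_⟩
  set T := ∑ w, lam w with hT
  -- the special column
  obtain ⟨i0, hi0⟩ : ∃ i0 : B ×ₗ J, ∀ i, ((∃ q, ∀ i' < i, z i' = y q i') ∧
      ∀ q, (∀ i' < i, z i' = y q i') → z i ≠ y q i) → i = i0 := by
    by_cases hex : ∃ i, ((∃ q, ∀ i' < i, z i' = y q i') ∧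
      ∀ q, (∀ i' < i, z i' = y q i') → z i ≠ y q i)
    · obtain ⟨i0, h1⟩ := hex
      refine ⟨i0, fun i h2 => ?_⟩
      rcases lt_trichotomy i i0 with hlt | heq | hgt
      · obtain ⟨q, hq⟩ := h1.1
        exact absurd (hq i hlt) (h2.2 q (fun i' hi' => hq i' (hi'.trans hlt)))
      · exact heq
      · obtain ⟨q, hq⟩ := h2.1
        exact absurd (hq i0 hgt) (h1.2 q (fun i' hi' => hq i' (hi'.trans hgt)))
    · exact ⟨Classical.arbitrary _, fun i hi => absurd ⟨i, hi⟩ hex⟩
  -- the pointwise estimate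
  set U1 : (B ×ₗ J) × ((B ×ₗ J) → A) → ℝ := fun w =>
    if Rw z w ∧ ∀ q, ¬ Rw (y q) w then lam w else 0 with hU1
  set U2 : (B ×ₗ J) × ((B ×ₗ J) → A) → ℝ := fun w =>
    ∑ q, if w.2 w.1 ≠ y q w.1 ∧ c (w.2 w.1) σ = c (y q w.1) σ then lam w else 0 with hU2
  set U3 : (B ×ₗ J) × ((B ×ₗ J) → A) → ℝ := fun w =>
    if w.1 = i0 ∧ ∀ k, ¬ w.1 = h k then lam w else 0 with hU3
  set U4 : (B ×ₗ J) × ((B ×ₗ J) → A) → ℝ := fun w =>
    (if Rlt (fun j => z (toLex (blk w, j))) w ∧ ∀ q, ¬ Rlt (v w.1 q) w then lam w else 0) +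
    (if Rle (fun j => z (toLex (blk w, j))) w ∧ ∀ q, ¬ Rle (v w.1 q) w then lam w else 0)
    with hU4
  have n1 : ∀ w, 0 ≤ U1 w := fun w => by
    simp only [hU1]; split_ifs
    · exact h0 w
    · exact le_rfl
  have n2' : ∀ w, 0 ≤ U2 w := fun w => Finset.sum_nonneg (fun q _ => by
    split_ifs
    · exact h0 w
    · exact le_rfl)
  have n3 : ∀ w, 0 ≤ U3 w := fun w => by
    simp only [hU3]; split_ifs
    · exact h0 w
    · exact le_rfl
  have n4 : ∀ w, 0 ≤ U4 w := fun w => by
    simp only [hU4]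
    refine add_nonneg ?_ ?_ <;> split_ifs
    · exact h0 w
    · exact le_rfl
    · exact h0 w
    · exact le_rfl
  have key : ∀ w, (if (top w z ∧ ¬ thTop c σ y h v w
      (evTop c n nh n2 (σ, fun q i => c (y q i) σ, fun k => (h k, v (h k))) z)) ∨
    (thTop c σ y h v w
      (evTop c n nh n2 (σ, fun q i => c (y q i) σ, fun k => (h k, v (h k))) z) ∧
      ¬ lift c top w z) then lam w else 0) ≤ U2 w + U3 w + U1 w + U4 w := by
    intro w
    split_ifs with hf
    · by_cases hk : ∃ k, h k = w.1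
      · have h4 : lam w ≤ U4 w := by
          simp only [hU4]
          rcases heavy_fail c hinj σ y h v w z hk hf with h1 | h1
          · rw [if_pos h1]
            have : 0 ≤ (if Rle (fun j => z (toLex (blk w, j))) w ∧ ∀ q, ¬ Rle (v w.1 q) w
              then lam w else 0) := by
              split_ifs
              · exact h0 w
              · exact le_rfl
            linarith only [this]
          · rw [if_pos h1]
            have : 0 ≤ (if Rlt (fun j => z (toLex (blk w, j))) w ∧ ∀ q, ¬ Rlt (v w.1 q) w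
              then lam w else 0) := by
              split_ifs
              · exact h0 w
              · exact le_rfl
            linarith only [this]
        have := n1 w
        have := n2' w
        have := n3 w
        (clear e t he ht hn hnh hn2 hS hc hv T hy hh hT hi0 hσ hU2 n4; linarith)
      · have hk' : ∀ k, h k ≠ w.1 := fun k hk2 => hk ⟨k, hk2⟩
        rcases light_fail c σ y h v w z hk' hf with h1 | ⟨q, h1⟩ | h1
        · have h5 : lam w ≤ U1 w := by
            simp only [hU1]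
            rw [if_pos h1]
          have := n2' w
          have := n3 w
          have := n4 w
          (clear hinj e t he ht hn hnh hn2 hS hc hv T hy hh hT hi0 hσ hU2 n1 hf hk hk'; linarith)
        · have h5 : lam w ≤ U2 w := by
            simp only [hU2]
            have h6 : lam w = (if w.2 w.1 ≠ y q w.1 ∧ c (w.2 w.1) σ = c (y q w.1) σ
              then lam w else 0) := by rw [if_pos h1]
            conv_lhs => rw [h6]
            refine Finset.single_le_sum (f := fun q => if w.2 w.1 ≠ y q w.1 ∧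
              c (w.2 w.1) σ = c (y q w.1) σ then lam w else 0) (fun q' _ => ?_)
              (Finset.mem_univ q)
            split_ifs
            · exact h0 w
            · exact le_rfl
          have := n1 w
          have := n3 w
          have := n4 w
          (clear hinj e t he ht hn hnh hn2 hS hc hv T hy hh hT hi0 hσ n2' hf hk hk'; linarith)
        · have h5 : lam w ≤ U3 w := by
            simp only [hU3]
            rw [if_pos ⟨hi0 _ h1, fun k hk2 => hk' k hk2.symm⟩]
          have := n1 w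
          have := n2' w
          have := n4 w
          (clear hinj e t he ht hn hnh hn2 hS hc hv T hy hh hT hσ hU2 n3 hf; linarith)
    · have := n1 w
      have := n2' w
      have := n3 w
      have := n4 w
      (clear hinj e t he ht hn hnh hn2 hS hc hv T hy hh hT hi0 hσ hU2 hf; linarith)
  -- the sums
  have s1 : ∑ w, U1 w ≤ T / n := hy z
  have s2 : ∑ w, U2 w ≤ (n : ℝ) / e * T := hσ
  have s3 : ∑ w, U3 w ≤ T / nh := by
    refine le_trans (le_of_eq (Finset.sum_congr rfl (fun w _ => ?_))) (hh i0)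
    simp only [hU3]
    congr
  have s4 : ∑ w, U4 w ≤ T / n2 := by
    have h1 : ∀ F : (B ×ₗ J) × ((B ×ₗ J) → A) → ℝ,
        ∑ w, F w = ∑ i, ∑ w, if w.1 = i then F w else 0 := by
      intro F
      rw [Finset.sum_comm]
      refine Finset.sum_congr rfl (fun w _ => ?_)
      rw [Finset.sum_ite_eq]
      simp
    rw [h1 U4, hT, h1 lam, Finset.sum_div]
    refine Finset.sum_le_sum (fun i _ => ?_)
    refine le_trans (le_of_eq ?_) (hv i (fun j => z (toLex ((ofLex i).1, j))))
    refine Finset.sum_congr rfl (fun w _ => ?_)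
    by_cases hw : w.1 = i
    · subst hw
      rfl
    · rw [if_neg hw, if_neg hw]
  calc _ ≤ ∑ w, (U2 w + U3 w + U1 w + U4 w) := Finset.sum_le_sum (fun w _ => key w)
    _ = ∑ w, U2 w + ∑ w, U3 w + ∑ w, U1 w + ∑ w, U4 w := by
      rw [Finset.sum_add_distrib, Finset.sum_add_distrib, Finset.sum_add_distrib]
    _ ≤ (n : ℝ) / e * T + T / nh + T / n + T / n2 := by linarith only [hσ, s1, s3, s4]
    _ = _ := by ring

/-- The type of a test. -/
abbrev TopT (B J : Type) (n nh n2 : ℕ) : Type :=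
  (Fin nh × (Fin (2 * n2) → Bool × Bool)) ⊕ ((B ×ₗ J) × (Fin n → Bool))

/-- The outcome of a test of type `t` for the observation `o`. -/
def topVal {n nh n2 : ℕ} (t : TopT B J n nh n2)
    (o : ((B ×ₗ J) → Fin n → Bool) × (Fin nh → Fin (2 * n2) → Bool × Bool)) : Prop :=
  Sum.elim
    (fun ka => (∃ q, (o.2 ka.1 q).1 = true ∧ (ka.2 q).1 = true) ∧
      ¬ (∃ q, (o.2 ka.1 q).2 = true ∧ (ka.2 q).2 = true))
    (fun ia => ∃ q, o.1 ia.1 q = true ∧ ia.2 q = true) t

open Classical in
/-- The type of the test for `w`. -/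
noncomputable def topTau (c : A → S → A') {n nh n2 : ℕ} (σ : S) (y : Fin n → (B ×ₗ J) → A)
    (h : Fin nh → (B ×ₗ J)) (v : (B ×ₗ J) → Fin (2 * n2) → J → A)
    (w : (B ×ₗ J) × ((B ×ₗ J) → A)) : TopT B J n nh n2 :=
  if hk : ∃ k, h k = w.1 then
    Sum.inl (hk.choose, fun q => (decide (Rlt (v w.1 q) w), decide (Rle (v w.1 q) w)))
  else Sum.inr (w.1, fun q => decide (
    (∀ j < pos w, c (w.2 (toLex (blk w, j))) σ = c (y q (toLex (blk w, j))) σ) ∧
      c (w.2 w.1) σ ≠ c (y q w.1) σ))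

open Classical in
theorem thTop_iff (c : A → S → A') {n nh n2 : ℕ} (σ : S) (y : Fin n → (B ×ₗ J) → A)
    (h : Fin nh → (B ×ₗ J)) (v : (B ×ₗ J) → Fin (2 * n2) → J → A)
    (w : (B ×ₗ J) × ((B ×ₗ J) → A))
    (o : ((B ×ₗ J) → Fin n → Bool) × (Fin nh → Fin (2 * n2) → Bool × Bool)) :
    topVal (topTau c σ y h v w) o ↔ thTop c σ y h v w o := by
  unfold topVal topTau thTop
  by_cases hk : ∃ k, h k = w.1
  · rw [dif_pos hk, dif_pos hk]
    simp only [Sum.elim_inl, decide_eq_true_eq]
  · rw [dif_neg hk, dif_neg hk]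
    simp only [Sum.elim_inr, decide_eq_true_eq]

open Classical in
/-- The top step, with a bound for the number of types of tests. -/
theorem interp_top2 [Nonempty A] [Nonempty A'] [Nonempty S] [Nonempty B] [Nonempty J]
    (c : A → S → A') (hinj : Function.Injective c) (e t n nh n2 : ℕ) (he : 0 < e) (ht : 0 < t)
    (hn : 0 < n) (hnh : 0 < nh) (hn2 : 0 < n2) (hS : Fintype.card S = e * t)
    (hc : ∀ a a', a ≠ a' → (Finset.univ.filter (fun s => c a s = c a' s)).card ≤ t) :
    Interp2 (top (I := B ×ₗ J) (A := A)) (lift (B := B) c top)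
      ((n : ℝ) / e + 1 / nh + 1 / n + 1 / n2)
      (2 ^ (n * Fintype.card (B ×ₗ J) + 4 * nh * n2))
      (Fintype.card S * Fintype.card A' ^ (n * Fintype.card (B ×ₗ J)) *
        (Fintype.card (B ×ₗ J) * Fintype.card A ^ (2 * n2 * Fintype.card J)) ^ nh)
      (nh * 2 ^ (4 * n2) + Fintype.card (B ×ₗ J) * 2 ^ n) := by
  refine ⟨S × (Fin n → (B ×ₗ J) → A') × (Fin nh → (B ×ₗ J) × (Fin (2 * n2) → J → A)),
    ((B ×ₗ J) → Fin n → Bool) × (Fin nh → Fin (2 * n2) → Bool × Bool), TopT B J n nh n2,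
    inferInstance, inferInstance, inferInstance, evTop c n nh n2, topVal, ?_, ?_, ?_, ?_⟩
  · apply le_of_eq
    simp only [Fintype.card_prod, Fintype.card_fun, Fintype.card_fin]
    ring
  · apply le_of_eq
    simp only [Fintype.card_prod, Fintype.card_fun, Fintype.card_fin, Fintype.card_bool]
    rw [pow_add, pow_mul, ← pow_mul, ← pow_mul, ← pow_mul]
    congr 1
    rw [show (2 * 2 : ℕ) = 2 ^ 2 from rfl, ← pow_mul]
    congr 1
    ring
  · apply le_of_eq
    simp only [TopT, Fintype.card_sum, Fintype.card_prod, Fintype.card_fun, Fintype.card_fin,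
      Fintype.card_bool]
    rw [show (2 * 2 : ℕ) = 2 ^ 2 from rfl, ← pow_mul]
    congr 3
    ring
  · intro lam h0
    obtain ⟨σ, y, h, v, hz⟩ := top_data c hinj e t n nh n2 he ht hn hnh hn2 hS hc lam h0
    refine ⟨(σ, fun q i => c (y q i) σ, fun k => (h k, v (h k))), topTau c σ y h v, fun z => ?_⟩
    simp only [thTop_iff]
    exact hz z

end

end Vale.Agent.P126.CQ
end
end
end

section

section

section

/-!
# P126, quantitative counterexample: the inductive claim
-/

namespace Vale.Agent.P126.CQ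

open Vale.Agent.P126.CE

theorem c2_pow {x : ℕ} (hx : 2 ≤ x) {a b : ℕ} (h : a ≤ b) : x ^ a ≤ x ^ b :=
  Nat.pow_le_pow_right (by omega) h

/-- sizes of the parameters of the inductive step -/
theorem c2_sizes (D β : ℕ) (hD : 0 < D) (hβ : 0 < β) :
    2 ≤ 2 * D * β ∧ 4 * D ≤ (2 * D * β) ^ 3 ∧ 16 * D ^ 2 ≤ (2 * D * β) ^ 6 ∧
      4 * (4 * D) * β ≤ (2 * D * β) ^ 6 ∧
      16 * D ^ 2 * (4 * (4 * D) * β) ≤ (2 * D * β) ^ 12 ∧
      8 * β * (4 * D) * (4 * D) ≤ (2 * D * β) ^ 10 ∧
      2 * (D * (16 * D ^ 2 * (4 * (4 * D) * β))) * (β * (16 * D ^ 2)) ≤ (2 * D * β) ^ 19 ∧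
      4 * β ≤ (2 * D * β) ^ 3 := by
  have hDx : D ≤ 2 * D * β := by nlinarith only [hβ]
  have hβx : β ≤ 2 * D * β := by nlinarith only [hD]
  have h2 : 2 ≤ 2 * D * β := by
    have : 1 ≤ D * β := Nat.mul_pos hD hβ
    nlinarith only [this]
  obtain ⟨x, hx⟩ : ∃ x, x = 2 * D * β := ⟨_, rfl⟩
  rw [← hx] at hDx hβx h2 ⊢
  have h4 : 4 ≤ x ^ 2 := by nlinarith only [h2]
  have h8 : 8 ≤ x ^ 3 := by
    calc 8 = 2 ^ 3 := by norm_num
      _ ≤ x ^ 3 := Nat.pow_le_pow_left h2 3
  have h16 : 16 ≤ x ^ 4 := by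
    calc 16 = 2 ^ 4 := by norm_num
      _ ≤ x ^ 4 := Nat.pow_le_pow_left h2 4
  have hn : 4 * D ≤ x ^ 3 := by
    calc 4 * D ≤ x ^ 2 * x := Nat.mul_le_mul h4 hDx
      _ = x ^ 3 := by ring
  have he : 16 * D ^ 2 ≤ x ^ 6 := by
    calc 16 * D ^ 2 ≤ x ^ 4 * x ^ 2 := Nat.mul_le_mul h16 (Nat.pow_le_pow_left hDx 2)
      _ = x ^ 6 := by ring
  have ht : 4 * (4 * D) * β ≤ x ^ 6 := by
    calc 4 * (4 * D) * β ≤ x ^ 2 * x ^ 3 * x := Nat.mul_le_mul (Nat.mul_le_mul h4 hn) hβx
      _ = x ^ 6 := by ring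
  have hr : 16 * D ^ 2 * (4 * (4 * D) * β) ≤ x ^ 12 := by
    calc 16 * D ^ 2 * (4 * (4 * D) * β) ≤ x ^ 6 * x ^ 6 := Nat.mul_le_mul he ht
      _ = x ^ 12 := by ring
  refine ⟨h2, hn, he, ht, hr, ?_, ?_, ?_⟩
  · calc 8 * β * (4 * D) * (4 * D) ≤ x ^ 3 * x * x ^ 3 * x ^ 3 :=
        Nat.mul_le_mul (Nat.mul_le_mul (Nat.mul_le_mul h8 hβx) hn) hn
      _ = x ^ 10 := by ring
  · calc 2 * (D * (16 * D ^ 2 * (4 * (4 * D) * β))) * (β * (16 * D ^ 2)) =
        (2 * D * β) * ((16 * D ^ 2 * (4 * (4 * D) * β)) * (16 * D ^ 2)) := by ring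
      _ = x * ((16 * D ^ 2 * (4 * (4 * D) * β)) * (16 * D ^ 2)) := by rw [← hx]
      _ ≤ x * (x ^ 12 * x ^ 6) := Nat.mul_le_mul_left _ (Nat.mul_le_mul hr he)
      _ = x ^ 19 := by ring
  · calc 4 * β ≤ x ^ 2 * x := Nat.mul_le_mul h4 hβx
      _ = x ^ 3 := by ring

/-- S5 (Claim.lean). -/
theorem claim2_zero : Claim2 0 := by
  intro D β q hD hβ hq
  have hx := (c2_sizes D β hD hβ).1
  have hP : 1 ≤ (2 * D * β) ^ 32 ^ (0 + 1) := Nat.one_le_pow _ _ (by omega)
  refine ⟨Fin 1, inferInstance, inferInstance, inferInstance, Fin (2 ^ (q * 1)), inferInstance,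
    1, 1, 1, 1, ?_, one_pos, hP, by simp, Nat.one_le_pow _ _ (by norm_num),
    Nat.one_le_pow _ _ (by norm_num), le_rfl, ?_, ⟨?_⟩⟩
  · rw [Fintype.card_fin]
    exact hP
  · rw [one_pow, Fintype.card_fin]
    exact Nat.one_le_pow _ _ (pow_pos (by norm_num) _)
  · exact
      { b := fun _ => top
        top_iff := fun _ _ => Iff.rfl
        mono := fun j hj => absurd hj (Nat.not_lt_zero j)
        diff := fun _ _ _ _ h => h.2
        interp := fun j hj => absurd hj (Nat.not_lt_zero j) }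

/-- S5 (Claim.lean). -/
theorem claim2_succ (k : ℕ) (h : Claim2 k) : Claim2 (k + 1) := by
  classical
  intro D β q hD hβ hq
  obtain ⟨hx2, hnx, hex, htx, hrx, hMx, hx', hβ4⟩ := c2_sizes D β hD hβ
  obtain ⟨x, hxdef⟩ : ∃ x, x = 2 * D * β := ⟨_, rfl⟩
  obtain ⟨c, hc⟩ : ∃ c, c = 32 ^ (k + 1) := ⟨_, rfl⟩
  have hc32 : 32 ≤ c := by
    rw [hc]
    calc 32 = 32 ^ 1 := by norm_num
      _ ≤ 32 ^ (k + 1) := Nat.pow_le_pow_right (by norm_num) (by omega)
  have hcc : 32 ^ (k + 1 + 1) = 32 * c := by rw [hc]; ring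
  rw [← hxdef] at hq hx2 hnx hex htx hrx hMx hx' hβ4 ⊢
  rw [hcc] at hq ⊢
  obtain ⟨n, hn⟩ : ∃ n, n = 4 * D := ⟨_, rfl⟩
  obtain ⟨e, he⟩ : ∃ e, e = 16 * D ^ 2 := ⟨_, rfl⟩
  rw [← hn] at hnx
  rw [← he] at hex
  obtain ⟨t, ht⟩ : ∃ t, t = 4 * n * β := ⟨_, rfl⟩
  rw [← hn, ← ht] at htx
  obtain ⟨r, hr⟩ : ∃ r, r = e * t := ⟨_, rfl⟩
  rw [← hn, ← ht, ← he, ← hr] at hrx
  obtain ⟨M, hM⟩ : ∃ M, M = 8 * β * n * n := ⟨_, rfl⟩
  rw [← hn, ← hM] at hMx
  rw [← hn, ← ht, ← he, ← hr] at hx'
  have hn0 : 0 < n := by rw [hn]; positivity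
  have he0 : 0 < e := by rw [he]; positivity
  have he1 : 1 < e := by
    rw [he]
    have : 1 ≤ D ^ 2 := Nat.one_le_pow _ _ hD
    omega
  have ht0 : 0 < t := by rw [ht]; (clear * - hn0 hβ; positivity)
  have hr0 : 0 < r := by rw [hr]; (clear * - he0 ht0; positivity)
  have hM0 : 0 < M := by rw [hM]; (clear * - hβ hn0; positivity)
  have htr : t < r := by
    rw [hr]
    calc t = 1 * t := (one_mul t).symm
      _ < e * t := Nat.mul_lt_mul_of_pos_right he1 ht0
  -- the inductive hypothesis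
  obtain ⟨P', hP'⟩ : ∃ P', P' = (2 * (D * r) * (β * e)) ^ 32 ^ (k + 1) := ⟨_, rfl⟩
  have hP'x : P' ≤ x ^ (19 * c) := by
    rw [hP', ← hc, pow_mul]
    exact Nat.pow_le_pow_left hx' c
  have hqP' : (2 * (D * r) * (β * e)) ^ 32 ^ (k + 1) ≤ q := by
    rw [← hP']
    exact hP'x.trans ((c2_pow hx2 (by omega)).trans hq)
  obtain ⟨J, iJ1, iJ2, iJ3, A', iA', t', K', N', H', hJ, ht'0, ht', hA', hK', hH', hN'1, hN',
    ⟨Sy⟩⟩ := h (D * r) (β * e) q (by (clear * - hD hr0; positivity)) (by positivity) hqP'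
  rw [← hP'] at hJ ht' hK' hH'
  have : NeZero M := ⟨hM0.ne'⟩
  have : NeZero r := ⟨hr0.ne'⟩
  have hI : Nonempty (Fin M ×ₗ J) := ⟨toLex (0, Classical.choice iJ3)⟩
  have hcardI : Fintype.card (Fin M ×ₗ J) = M * Fintype.card J := by
    rw [Fintype.card_lex, Fintype.card_prod, Fintype.card_fin]
  have hIx : Fintype.card (Fin M ×ₗ J) ≤ x ^ (19 * c + 10) := by
    rw [hcardI]
    calc M * Fintype.card J ≤ x ^ 10 * x ^ (19 * c) := Nat.mul_le_mul hMx (hJ.trans hP'x)
      _ = x ^ (19 * c + 10) := by ring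
  -- the code
  have hrq : r ≤ q := hrx.trans ((c2_pow hx2 (by omega)).trans hq)
  have h2r : 2 ^ r ≤ Fintype.card A' := by
    rw [hA']
    exact Nat.pow_le_pow_right (by norm_num) (hrq.trans (Nat.le_mul_of_pos_right _ ht'0))
  have hA'0 : 0 < Fintype.card A' := (pow_pos (by norm_num) r).trans_le h2r
  obtain ⟨C0, hC01, hC02⟩ := exists_code r t htr A' h2r
  obtain ⟨C, hCs, hC1⟩ := Finset.exists_subset_card_eq hC01
  have hC2 : ∀ x ∈ C, ∀ y ∈ C, x ≠ y → (Finset.univ.filter (fun s => x s = y s)).card ≤ t :=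
    fun a ha b hb hab => hC02 a (hCs ha) b (hCs hb) hab
  have hAcard : Fintype.card {x // x ∈ C} = Fintype.card A' ^ t := by
    rw [Fintype.card_coe, hC1]
  have hA2 : Fintype.card {x // x ∈ C} = 2 ^ (q * (t' * t)) := by
    rw [hAcard, hA', ← pow_mul, mul_assoc]
  have hA't : Fintype.card A' ≤ Fintype.card A' ^ t := Nat.le_self_pow ht0.ne' _
  have hA0 : 0 < Fintype.card {x // x ∈ C} := by
    rw [hAcard]
    exact pow_pos hA'0 t
  have : Nonempty A' := Fintype.card_pos_iff.1 hA'0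
  have : Nonempty {x // x ∈ C} := Fintype.card_pos_iff.1 hA0
  have hi0 : 0 < Fintype.card (Fin M ×ₗ J) := Fintype.card_pos
  let c' : {x // x ∈ C} → Fin r → A' := fun a => a.1
  have hinj : Function.Injective c' := Subtype.val_injective
  have hc1 : ∀ a a', a ≠ a' → ∃ s, c' a s ≠ c' a' s := by
    intro a a' haa
    by_contra hcon
    push Not at hcon
    exact haa (Subtype.ext (funext hcon))
  have hc2 : ∀ a a', a ≠ a' → (Finset.univ.filter (fun s => c' a s = c' a' s)).card ≤ t :=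
    fun a a' haa => hC2 a.1 a.2 a'.1 a'.2 (fun h => haa (Subtype.ext h))
  -- numerical conditions
  have hnI : n * Fintype.card (Fin M ×ₗ J) ≤ x ^ (19 * c + 13) := by
    calc n * Fintype.card (Fin M ×ₗ J) ≤ x ^ 3 * x ^ (19 * c + 10) := Nat.mul_le_mul hnx hIx
      _ = x ^ (19 * c + 13) := by ring
  have hQ : (r * Fintype.card (Fin M ×ₗ J) ^ n) ^ (4 * β) ≤ Fintype.card {x // x ∈ C} := by
    have h1 : (r * Fintype.card (Fin M ×ₗ J) ^ n) ^ (4 * β) ≤
        2 ^ ((r + n * Fintype.card (Fin M ×ₗ J)) * (4 * β)) := by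
      rw [pow_mul 2]
      refine Nat.pow_le_pow_left ?_ _
      rw [pow_add, mul_comm n, pow_mul]
      exact Nat.mul_le_mul Nat.lt_two_pow_self.le (Nat.pow_le_pow_left Nat.lt_two_pow_self.le n)
    have h2 : (r + n * Fintype.card (Fin M ×ₗ J)) * (4 * β) ≤ x ^ (32 * c) := by
      calc (r + n * Fintype.card (Fin M ×ₗ J)) * (4 * β) ≤
          (x ^ (19 * c + 13) + x ^ (19 * c + 13)) * x ^ 3 :=
            Nat.mul_le_mul (Nat.add_le_add (hrx.trans (c2_pow hx2 (by omega))) hnI) hβ4
        _ = 2 * x ^ (19 * c + 16) := by ring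
        _ ≤ x * x ^ (19 * c + 16) := Nat.mul_le_mul_right _ hx2
        _ = x ^ (19 * c + 17) := by ring
        _ ≤ x ^ (32 * c) := c2_pow hx2 (by omega)
    rw [hA2]
    refine h1.trans (Nat.pow_le_pow_right (by norm_num) (h2.trans (hq.trans ?_)))
    exact Nat.le_mul_of_pos_right _ (Nat.mul_pos ht'0 ht0)
  refine ⟨Fin M ×ₗ J, inferInstance, inferInstance, hI, {x // x ∈ C}, inferInstance, t' * t,
    max (K' ^ (r * M)) (2 ^ (n * Fintype.card (Fin M ×ₗ J) + 4 * n * n)),
    max (N' ^ (r * M)) (r * Fintype.card A' ^ (n * Fintype.card (Fin M ×ₗ J)) *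
        (Fintype.card (Fin M ×ₗ J) * Fintype.card {x // x ∈ C} ^ (2 * n * Fintype.card J)) ^ n),
    max (M * H' ^ r) (n * 2 ^ (4 * n) + Fintype.card (Fin M ×ₗ J) * 2 ^ n),
    hIx.trans (c2_pow hx2 (by (clear * - hc hc32; omega))), Nat.mul_pos ht'0 ht0, ?_, hA2, ?_, ?_,
    (Nat.one_le_pow _ _ hN'1).trans (le_max_left _ _), ?_, ⟨?_⟩⟩
  · calc t' * t ≤ x ^ (19 * c) * x ^ 6 := Nat.mul_le_mul (ht'.trans hP'x) htx
      _ = x ^ (19 * c + 6) := by ring
      _ ≤ x ^ (32 * c) := c2_pow hx2 (by (clear * - hc hc32; omega))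
  · refine max_le ?_ (Nat.pow_le_pow_right (by norm_num) ?_)
    · calc K' ^ (r * M) ≤ (2 ^ P') ^ (r * M) := Nat.pow_le_pow_left hK' _
        _ = 2 ^ (P' * (r * M)) := by rw [← pow_mul]
        _ ≤ 2 ^ (x ^ (32 * c)) := Nat.pow_le_pow_right (by norm_num) ?_
      calc P' * (r * M) ≤ x ^ (19 * c) * (x ^ 12 * x ^ 10) :=
            Nat.mul_le_mul hP'x (Nat.mul_le_mul hrx hMx)
        _ = x ^ (19 * c + 22) := by ring
        _ ≤ x ^ (32 * c) := c2_pow hx2 (by (clear * - hc hc32; omega))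
    · calc n * Fintype.card (Fin M ×ₗ J) + 4 * n * n ≤ x ^ (19 * c + 13) + x ^ 3 * x ^ 3 * x ^ 3 :=
            Nat.add_le_add hnI (Nat.mul_le_mul (Nat.mul_le_mul
              ((Nat.le_mul_of_pos_right 4 hβ).trans hβ4) hnx) hnx)
        _ = x ^ (19 * c + 13) + x ^ 9 := by ring
        _ ≤ x ^ (19 * c + 13) + x ^ (19 * c + 13) :=
            Nat.add_le_add_left (c2_pow hx2 (by (clear * - hc hc32; omega))) _
        _ = 2 * x ^ (19 * c + 13) := by ring
        _ ≤ x * x ^ (19 * c + 13) := Nat.mul_le_mul_right _ hx2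
        _ = x ^ (19 * c + 14) := by ring
        _ ≤ x ^ (32 * c) := c2_pow hx2 (by (clear * - hc hc32; omega))
  · refine max_le ?_ ?_
    · calc M * H' ^ r ≤ 2 ^ M * (2 ^ P') ^ r :=
            Nat.mul_le_mul Nat.lt_two_pow_self.le (Nat.pow_le_pow_left hH' _)
        _ = 2 ^ (M + P' * r) := by rw [← pow_mul, ← pow_add]
        _ ≤ 2 ^ (x ^ (32 * c)) := Nat.pow_le_pow_right (by norm_num) ?_
      calc M + P' * r ≤ x ^ 10 + x ^ (19 * c) * x ^ 12 :=
            Nat.add_le_add hMx (Nat.mul_le_mul hP'x hrx)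
        _ = x ^ 10 + x ^ (19 * c + 12) := by ring
        _ ≤ x ^ (19 * c + 12) + x ^ (19 * c + 12) :=
            Nat.add_le_add_right (c2_pow hx2 (by omega)) _
        _ = 2 * x ^ (19 * c + 12) := by ring
        _ ≤ x * x ^ (19 * c + 12) := Nat.mul_le_mul_right _ hx2
        _ = x ^ (19 * c + 13) := by ring
        _ ≤ x ^ (32 * c) := c2_pow hx2 (by omega)
    · have h1 : n * 2 ^ (4 * n) ≤ 2 ^ (n + 4 * n) := by
        rw [pow_add]
        exact Nat.mul_le_mul_right _ Nat.lt_two_pow_self.le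
      have h2 : Fintype.card (Fin M ×ₗ J) * 2 ^ n ≤ 2 ^ (Fintype.card (Fin M ×ₗ J) + n) := by
        rw [pow_add]
        exact Nat.mul_le_mul_right _ Nat.lt_two_pow_self.le
      have h3 : n * 2 ^ (4 * n) + Fintype.card (Fin M ×ₗ J) * 2 ^ n ≤
          2 ^ (5 * n + Fintype.card (Fin M ×ₗ J) + 1) := by
        rw [pow_succ, mul_two]
        exact Nat.add_le_add (h1.trans (Nat.pow_le_pow_right (by norm_num) (by (clear * - hcardI hi0; omega))))
          (h2.trans (Nat.pow_le_pow_right (by norm_num) (by (clear * - hn hn0; omega))))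
      refine h3.trans (Nat.pow_le_pow_right (by norm_num) ?_)
      have h4 : 5 * n + 1 ≤ x ^ 6 := by
        have h5 : 6 ≤ x ^ 3 := by
          calc 6 ≤ 2 ^ 3 := by norm_num
            _ ≤ x ^ 3 := Nat.pow_le_pow_left hx2 3
        calc 5 * n + 1 ≤ 6 * n := by (clear * - hn hn0; omega)
          _ ≤ x ^ 3 * x ^ 3 := Nat.mul_le_mul h5 hnx
          _ = x ^ 6 := by ring
      calc 5 * n + Fintype.card (Fin M ×ₗ J) + 1 = (5 * n + 1) + Fintype.card (Fin M ×ₗ J) := by
            ring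
        _ ≤ x ^ 6 + x ^ (19 * c + 10) := Nat.add_le_add h4 hIx
        _ ≤ x ^ (19 * c + 10) + x ^ (19 * c + 10) :=
            Nat.add_le_add_right (c2_pow hx2 (by (clear * - hc hc32; omega))) _
        _ = 2 * x ^ (19 * c + 10) := by ring
        _ ≤ x * x ^ (19 * c + 10) := Nat.mul_le_mul_right _ hx2
        _ = x ^ (19 * c + 11) := by ring
        _ ≤ x ^ (32 * c) := c2_pow hx2 (by (clear * - hc hc32; omega))
  · rcases le_total (N' ^ (r * M)) (r * Fintype.card A' ^ (n * Fintype.card (Fin M ×ₗ J)) *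
        (Fintype.card (Fin M ×ₗ J) * Fintype.card {x // x ∈ C} ^ (2 * n * Fintype.card J)) ^ n)
      with hle | hle
    · rw [max_eq_right hle]
      exact claim_arith2 r n n n M β t _ _ _ (Fintype.card J) hβ ht hM hcardI hi0 hA0 hQ
        hAcard.ge
    · rw [max_eq_left hle, hcardI]
      exact claim_arith1 N' r M β e t _ _ _ hr hN' hAcard.ge
  · have htopk : Sy.b k = top := by
      funext w z
      exact propext (Sy.top_iff w z)
    refine
      { b := fun j => if j ≤ k then lift c' (Sy.b j) else top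
        top_iff := ?_
        mono := ?_
        diff := ?_
        interp := ?_ }
    · intro w z
      rw [if_neg (by omega)]
    · intro j hj w z hw
      rcases Nat.lt_or_ge j k with hjk | hjk
      · rw [if_pos (by omega)] at hw ⊢
        exact claim_lift_mono c' (Sy.mono j hjk) w z hw
      · have hjk' : j = k := by (clear * - hj hjk; omega)
        subst hjk'
        rw [if_neg (by omega)] at hw
        rw [if_pos le_rfl, htopk]
        exact claim_top_lift c' hc1 w z hw
    · intro j hj w z hw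
      rcases Nat.lt_or_ge k j with hjk | hjk
      · rw [if_neg (by omega)] at hw
        exact hw.2
      · rw [if_pos hjk] at hw
        exact claim_lift_diff c' (Sy.diff j hjk) w z hw
    · intro j hj
      rcases Nat.lt_or_ge j k with hjk | hjk
      · simp only [if_pos hjk.le, if_pos (show j + 1 ≤ k by omega)]
        have h1 := interp_lift2 (B := Fin M) c' (Sy.b (j + 1)) (Sy.b j) _ K' N' H'
          (Sy.interp j hjk)
        refine h1.mono ?_ ?_ ?_ ?_
        · rw [Fintype.card_fin]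
          have hD' : (D : ℝ) ≠ 0 := by positivity
          have hr' : (r : ℝ) ≠ 0 := by positivity
          push_cast
          rw [show (r : ℝ) * (1 / (D * r)) = 1 / D by field_simp]
        · rw [Fintype.card_fin, Fintype.card_fin]
          exact le_max_left _ _
        · rw [Fintype.card_fin, Fintype.card_fin]
          exact le_max_left _ _
        · rw [Fintype.card_fin, Fintype.card_fin]
          exact le_max_left _ _
      · have hjk' : j = k := by omega
        subst hjk'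
        simp only [if_pos le_rfl, if_neg (show ¬ (j + 1 ≤ j) by omega), htopk]
        have h1 := interp_top2 (B := Fin M) (J := J) c' hinj e t n n n he0 ht0 hn0 hn0 hn0
          (by rw [Fintype.card_fin, hr]) hc2
        refine h1.mono ?_ ?_ ?_ ?_
        · have hD' : (D : ℝ) ≠ 0 := by positivity
          rw [hn, he]
          push_cast
          rw [show 4 * (D : ℝ) / (16 * D ^ 2) + 1 / (4 * D) + 1 / (4 * D) + 1 / (4 * D) = 1 / D by
            field_simp; norm_num]
        · exact le_max_right _ _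
        · rw [Fintype.card_fin]
          exact le_max_right _ _
        · exact le_max_right _ _

end Vale.Agent.P126.CQ
end
end
end

section

section

section

/-!
# P126, quantitative counterexample: the claim implies the combinatorial core, counting
-/

namespace Vale.Agent.P126.CQ

open Vale.Agent.P126.CE Finset Classical

/-- The statement of the class map for one interpolation. -/
def ClassMapStmt : Prop :=
  ∀ {W X : Type} [Fintype W] {b bp : W → X → Prop} {δ : ℝ} {K N H : ℕ}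
    (_ : Interp2 b bp δ K N H) (_ : 0 ≤ δ) (R s : ℕ) (_ : 0 < R) (_ : 0 < s)
    (_ : 16 * (R : ℝ) ^ 2 * Real.log (2 * K) ≤ s),
    ∃ cl : (W → ℝ) → Fin (N * (H + 1) ^ s), ∀ lam mu : W → ℝ,
      (∀ w, 0 ≤ lam w) → (∀ w, 0 ≤ mu w) → ∑ w, lam w ≤ 1 → ∑ w, mu w ≤ 1 →
      cl lam = cl mu → ∀ z, ∃ g : ℝ,
        mass lam b z - δ ≤ g + 1 / R ∧ g ≤ mass lam bp z + δ ∧
        mass mu b z - δ ≤ g + 1 / R ∧ g ≤ mass mu bp z + δ

/-- The number of classes of all the interpolations of a system is small. -/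
theorem pow_card_le2 (k m N S β x : ℕ) (hN : 1 ≤ N) (hS : 1 ≤ S)
    (hβ : β = 4 * (k + 1) * (m + 1))
    (h1 : N ^ β ≤ x) (h2 : S ^ β ≤ x) :
    ((N * S) ^ k * (N * S) ^ k) ^ m ≤ x := by
  set y := ((N * S) ^ k * (N * S) ^ k) ^ m with hy
  have hy' : y = (N * S) ^ (2 * k * m) := by
    rw [hy, ← pow_add, ← pow_mul]
    ring_nf
  have hle : 2 * (2 * k * m) ≤ β := by
    rw [hβ]
    nlinarith only []
  have h3 : y ^ 2 ≤ x ^ 2 := by
    calc y ^ 2 = N ^ (2 * (2 * k * m)) * S ^ (2 * (2 * k * m)) := by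
          rw [hy', ← pow_mul, mul_pow]
          ring_nf
      _ ≤ N ^ β * S ^ β :=
          Nat.mul_le_mul (Nat.pow_le_pow_right hN hle) (Nat.pow_le_pow_right hS hle)
      _ ≤ x * x := Nat.mul_le_mul h1 h2
      _ = x ^ 2 := by ring
  exact (Nat.pow_le_pow_iff_left (by norm_num)).1 h3

theorem all_of_top2 {I A : Type} [Fintype I] [LinearOrder I] [Fintype A] {k K N H : ℕ} {δ : ℝ}
    (s : Sys2 k I A δ K N H) (w : I × (I → A)) (z : I → A) (h : top w z) :
    ∀ d ≤ k, s.b (k - d) w z := by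
  intro d
  induction d with
  | zero =>
    intro _
    exact (s.top_iff w z).2 h
  | succ d ih =>
    intro hd
    have h1 := ih (by omega)
    have h2 : k - d = (k - (d + 1)) + 1 := by omega
    rw [h2] at h1
    exact s.mono _ (by omega) w z h1

/-- The class map of a system for nonnegative weights. -/
theorem class_pos2 (hcm : ClassMapStmt) {I A : Type} [Fintype I] [LinearOrder I] [Fintype A]
    {k K N H : ℕ}
    (s : Sys2 k I A (1 / ((4 * k + 4 : ℕ) : ℝ)) K N H) (r : ℕ) (hr0 : 0 < r)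
    (hr : 16 * ((2 * k + 1 : ℕ) : ℝ) ^ 2 * Real.log (2 * K) ≤ r) :
    ∃ cl : (I × (I → A) → ℝ) → (Fin k → Fin (N * (H + 1) ^ r)),
      ∀ lam mu : I × (I → A) → ℝ,
        (∀ w, 0 ≤ lam w) → (∀ w, 0 ≤ mu w) → ∑ w, lam w ≤ 1 → ∑ w, mu w ≤ 1 →
        cl lam = cl mu → ∀ z,
          (∑ j ∈ range (k + 1), mass lam (s.b j) z) - ∑ j ∈ range (k + 1), mass mu (s.b j) z
            ≤ 2 := by
  have hδ : (0 : ℝ) ≤ 1 / ((4 * k + 4 : ℕ) : ℝ) := by positivity
  have hcm := fun j : Fin k => hcm (s.interp j j.2) hδ (2 * k + 1) r (by omega) hr0 hr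
  choose cl hcl using hcm
  refine ⟨fun lam j => cl j lam, ?_⟩
  intro lam mu hl hm hl1 hm1 hc z
  have hk : ∀ j ∈ range k, mass lam (s.b (j + 1)) z - mass mu (s.b j) z
      ≤ 2 * (1 / ((4 * k + 4 : ℕ) : ℝ)) + 1 / ((2 * k + 1 : ℕ) : ℝ) := by
    intro j hj
    have hj' : j < k := Finset.mem_range.mp hj
    obtain ⟨g, h1, _, _, h4⟩ := hcl ⟨j, hj'⟩ lam mu hl hm hl1 hm1 (congrFun hc ⟨j, hj'⟩) z
    simp only at h1 h4
    linarith only [h1, h4]
  have hsum := Finset.sum_le_sum hk
  rw [Finset.sum_sub_distrib, Finset.sum_const, Finset.card_range, nsmul_eq_mul] at hsum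
  rw [Finset.sum_range_succ' (fun j => mass lam (s.b j) z),
    Finset.sum_range_succ (fun j => mass mu (s.b j) z)]
  have h0 : mass lam (s.b 0) z ≤ 1 := le_trans (mass_le lam hl _ z) hl1
  have hkk : 0 ≤ mass mu (s.b k) z := mass_nonneg mu hm _ z
  have hb : (k : ℝ) * (2 * (1 / ((4 * k + 4 : ℕ) : ℝ)) + 1 / ((2 * k + 1 : ℕ) : ℝ)) ≤ 1 := by
    have hk0 : (0 : ℝ) ≤ k := Nat.cast_nonneg k
    have e1 : (k : ℝ) * (2 * (1 / ((4 * k + 4 : ℕ) : ℝ))) ≤ 1 / 2 := by
      rw [mul_one_div, mul_div_assoc', div_le_div_iff₀ (by (clear * -; positivity)) (by norm_num)]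
      push_cast
      linarith only []
    have e2 : (k : ℝ) * (1 / ((2 * k + 1 : ℕ) : ℝ)) ≤ 1 / 2 := by
      rw [mul_one_div, div_le_div_iff₀ (by positivity) (by norm_num)]
      push_cast
      linarith only []
    rw [mul_add]
    linarith only [e1, e2]
  linarith only [hsum, h0, hkk, hb]

/-- The combinatorial core for one system. -/
theorem core_of_sys2 (hcm : ClassMapStmt) {I A : Type} [Fintype I] [LinearOrder I] [Fintype A]
    [Nonempty I] [Nonempty A] {κ K N H : ℕ}
    (s : Sys2 κ I A (1 / ((4 * κ + 4 : ℕ) : ℝ)) K N H) (r : ℕ) (hr0 : 0 < r)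
    (hr : 16 * ((2 * κ + 1 : ℕ) : ℝ) ^ 2 * Real.log (2 * K) ≤ r) :
    ∃ (f : Fin (Fintype.card (I × (I → A))) → Fin (Fintype.card (I → A)) → ℝ)
      (cls : (Fin (Fintype.card (I × (I → A))) → ℝ) →
        Fin ((N * (H + 1) ^ r) ^ κ * (N * (H + 1) ^ r) ^ κ)),
    (∀ x y : Fin (Fintype.card (I → A)), x ≠ y → ∃ w, (κ : ℝ) ≤ |f w x - f w y|) ∧
    (∀ lam mu : Fin (Fintype.card (I × (I → A))) → ℝ, ∑ w, |lam w| ≤ 1 → ∑ w, |mu w| ≤ 1 →
      cls lam = cls mu → ∀ x, |∑ w, (lam w - mu w) * f w x| ≤ 4) := by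
  obtain ⟨cl, hcl⟩ := class_pos2 hcm s r hr0 hr
  -- the class map on signed weights
  let Cl := (Fin κ → Fin (N * (H + 1) ^ r)) × (Fin κ → Fin (N * (H + 1) ^ r))
  have hcard : Fintype.card Cl = (N * (H + 1) ^ r) ^ κ * (N * (H + 1) ^ r) ^ κ := by
    simp only [Cl, Fintype.card_prod, Fintype.card_fun, Fintype.card_fin]
  let pos : (I × (I → A) → ℝ) → (I × (I → A) → ℝ) := fun lam w => max (lam w) 0
  let neg : (I × (I → A) → ℝ) → (I × (I → A) → ℝ) := fun lam w => max (-lam w) 0
  let f : I × (I → A) → (I → A) → ℝ := fun w z => ∑ j ∈ range (κ + 1), if s.b j w z then 1 else 0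
  have hmass : ∀ (lam : I × (I → A) → ℝ) (z : I → A),
      ∑ w, lam w * f w z = ∑ j ∈ range (κ + 1), mass lam (s.b j) z := by
    intro lam z
    simp only [f, mass, Finset.mul_sum]
    rw [Finset.sum_comm]
    refine Finset.sum_congr rfl fun j _ => Finset.sum_congr rfl fun w _ => ?_
    split_ifs <;> simp
  have hpn : ∀ lam : I × (I → A) → ℝ, ∀ w, lam w = pos lam w - neg lam w := by
    intro lam w
    simp only [pos, neg]
    rcases le_total (lam w) 0 with h | h
    · rw [max_eq_right h, max_eq_left (by linarith only [h])]; ring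
    · rw [max_eq_left h, max_eq_right (by linarith only [h])]; ring
  have hp0 : ∀ lam : I × (I → A) → ℝ, ∀ w, 0 ≤ pos lam w := fun lam w => le_max_right _ _
  have hn0 : ∀ lam : I × (I → A) → ℝ, ∀ w, 0 ≤ neg lam w := fun lam w => le_max_right _ _
  have hp1 : ∀ lam : I × (I → A) → ℝ, ∑ w, |lam w| ≤ 1 → ∑ w, pos lam w ≤ 1 := by
    intro lam h
    refine le_trans (Finset.sum_le_sum fun w _ => ?_) h
    exact max_le (le_abs_self _) (abs_nonneg _)
  have hn1 : ∀ lam : I × (I → A) → ℝ, ∑ w, |lam w| ≤ 1 → ∑ w, neg lam w ≤ 1 := by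
    intro lam h
    refine le_trans (Finset.sum_le_sum fun w _ => ?_) h
    exact max_le (neg_le_abs _) (abs_nonneg _)
  let eW := Fintype.equivFin (I × (I → A))
  let eX := Fintype.equivFin (I → A)
  let eC := Fintype.equivFinOfCardEq hcard
  refine ⟨fun w x => f (eW.symm w) (eX.symm x),
    fun lam => eC (cl (pos fun w => lam (eW w)), cl (neg fun w => lam (eW w))), ?_, ?_⟩
  · intro x y hxy
    have hne : eX.symm x ≠ eX.symm y := fun h => hxy (eX.symm.injective h)
    set x' := eX.symm x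
    set y' := eX.symm y
    have hS : (univ.filter (fun i => x' i ≠ y' i)).Nonempty := by
      obtain ⟨i, hi⟩ := Function.ne_iff.1 hne
      exact ⟨i, by simpa using hi⟩
    set i := (univ.filter (fun i => x' i ≠ y' i)).min' hS with hidef
    have hi : x' i ≠ y' i := by
      have := Finset.min'_mem _ hS
      simpa using this
    have hlt : ∀ i' < i, x' i' = y' i' := by
      intro i' hi'
      by_contra hcon
      have : i ≤ i' := Finset.min'_le _ _ (by simpa using hcon)
      exact absurd hi' (not_lt.2 this)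
    refine ⟨eW (i, x'), ?_⟩
    simp only [Equiv.symm_apply_apply]
    have h1 : f (i, x') x' = 0 := by
      simp only [f]
      refine Finset.sum_eq_zero fun j hj => ?_
      rw [if_neg]
      intro hb
      exact s.diff j (by simpa using Nat.lt_succ_iff.1 (Finset.mem_range.1 hj)) (i, x') x' hb rfl
    have h2 : f (i, x') y' = κ + 1 := by
      simp only [f]
      have : ∀ j ∈ range (κ + 1), (if s.b j (i, x') y' then (1 : ℝ) else 0) = 1 := by
        intro j hj
        rw [if_pos]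
        have hj' : j ≤ κ := Nat.lt_succ_iff.1 (Finset.mem_range.1 hj)
        have := all_of_top2 s (i, x') y' ⟨hlt, hi⟩ (κ - j) (by omega)
        rwa [show κ - (κ - j) = j by omega] at this
      rw [Finset.sum_congr rfl this]
      simp only [sum_const, card_range, nsmul_eq_mul, Nat.cast_add, Nat.cast_one, mul_one]
    change (κ : ℝ) ≤ |f (i, x') x' - f (i, x') y'|
    rw [h1, h2, zero_sub, abs_neg, abs_of_nonneg (by (clear * -; positivity))]
    linarith only []
  · intro lam mu hl hm hc x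
    have hc' := eC.injective hc
    have hc1 := (Prod.mk.inj hc').1
    have hc2 := (Prod.mk.inj hc').2
    set lam' : I × (I → A) → ℝ := fun w => lam (eW w) with hlam'
    set mu' : I × (I → A) → ℝ := fun w => mu (eW w) with hmu'
    have hl' : ∑ w, |lam' w| ≤ 1 := by
      have : ∑ w, |lam' w| = ∑ w, |lam w| := eW.sum_comp (fun w => |lam w|)
      rw [this]; exact hl
    have hm' : ∑ w, |mu' w| ≤ 1 := by
      have : ∑ w, |mu' w| = ∑ w, |mu w| := eW.sum_comp (fun w => |mu w|)
      rw [this]; exact hm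
    set z := eX.symm x
    have hsum : ∑ w, (lam w - mu w) * f (eW.symm w) z = ∑ w, (lam' w - mu' w) * f w z := by
      rw [← eW.sum_comp]
      refine Finset.sum_congr rfl fun w _ => ?_
      simp [hlam', hmu']
    have hsplit : ∑ w, (lam' w - mu' w) * f w z
        = ((∑ w, pos lam' w * f w z) - ∑ w, pos mu' w * f w z)
          - ((∑ w, neg lam' w * f w z) - ∑ w, neg mu' w * f w z) := by
      rw [← Finset.sum_sub_distrib, ← Finset.sum_sub_distrib, ← Finset.sum_sub_distrib]
      refine Finset.sum_congr rfl fun w _ => ?_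
      rw [hpn lam' w, hpn mu' w]
      ring
    change |∑ w, (lam w - mu w) * f (eW.symm w) z| ≤ 4
    rw [hsum, hsplit, hmass, hmass, hmass, hmass]
    have a1 := hcl (pos lam') (pos mu') (hp0 _) (hp0 _) (hp1 _ hl') (hp1 _ hm') hc1 z
    have a2 := hcl (pos mu') (pos lam') (hp0 _) (hp0 _) (hp1 _ hm') (hp1 _ hl') hc1.symm z
    have a3 := hcl (neg lam') (neg mu') (hn0 _) (hn0 _) (hn1 _ hl') (hn1 _ hm') hc2 z
    have a4 := hcl (neg mu') (neg lam') (hn0 _) (hn0 _) (hn1 _ hm') (hn1 _ hl') hc2.symm z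
    rw [abs_le]
    constructor <;> linarith only [a1, a4, a2, a3]

/-- Bound for the size of the parameters. -/
theorem param_bound (κ m P r q : ℕ) (hm : 32 * (κ + 1) ^ 2 ≤ m)
    (hP : P = (2 * (4 * κ + 4) * (4 * (κ + 1) * (m + 1))) ^ 32 ^ (κ + 1))
    (hr : r = 16 * (2 * κ + 1) ^ 2 * (P + 1))
    (hq : q = (P + 1) * r * (4 * (κ + 1) * (m + 1)) + P) :
    q * P * P ≤ (m + 1) ^ (10 * 32 ^ (κ + 1)) := by
  set y := m + 1 with hy
  set c := 32 ^ (κ + 1) with hc
  have hc32 : 32 ≤ c := by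
    rw [hc, pow_succ]
    have : 1 ≤ 32 ^ κ := Nat.one_le_pow _ _ (by norm_num)
    omega
  have hk1 : 1 ≤ κ + 1 := by omega
  have hk2 : κ + 1 ≤ (κ + 1) ^ 2 := by nlinarith only []
  have hy33 : 33 ≤ y := by nlinarith only [hm, hy, hk2]
  have hx : 2 * (4 * κ + 4) * (4 * (κ + 1) * y) ≤ y ^ 2 := by
    have : 2 * (4 * κ + 4) * (4 * (κ + 1) * y) = 32 * (κ + 1) ^ 2 * y := by ring
    rw [this, pow_two y]
    exact Nat.mul_le_mul_right _ (by omega)
  have hPy : P ≤ y ^ (2 * c) := by
    rw [hP, pow_mul]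
    exact Nat.pow_le_pow_left hx _
  have hP1 : 1 ≤ P := by
    rw [hP]
    exact Nat.one_le_pow _ _ (by (clear * -; positivity))
  have hR : 16 * (2 * κ + 1) ^ 2 ≤ 2 * y := by linarith
  have hr' : r ≤ 4 * y * P := by
    rw [hr]
    calc 16 * (2 * κ + 1) ^ 2 * (P + 1) ≤ 2 * y * (2 * P) := Nat.mul_le_mul hR (by omega)
      _ = 4 * y * P := by ring
  have hβ : 4 * (κ + 1) * y ≤ y ^ 2 := by
    rw [pow_two y]
    exact Nat.mul_le_mul_right _ (by nlinarith only [hm, hy])
  have hq' : q ≤ y ^ 4 * P ^ 2 := by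
    rw [hq]
    have h1 : (P + 1) * r * (4 * (κ + 1) * y) ≤ 2 * P * (4 * y * P) * y ^ 2 :=
      Nat.mul_le_mul (Nat.mul_le_mul (by omega) hr') hβ
    have h2 : P ≤ y ^ 3 * P ^ 2 := by
      have : 1 ≤ y ^ 3 := Nat.one_le_pow _ _ (by omega)
      nlinarith only [this, hP1]
    calc (P + 1) * r * (4 * (κ + 1) * y) + P
        ≤ 2 * P * (4 * y * P) * y ^ 2 + y ^ 3 * P ^ 2 := Nat.add_le_add h1 h2
      _ = 9 * (y ^ 3 * P ^ 2) := by ring
      _ ≤ y * (y ^ 3 * P ^ 2) := Nat.mul_le_mul_right _ (by omega)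
      _ = y ^ 4 * P ^ 2 := by ring
  calc q * P * P ≤ y ^ 4 * P ^ 2 * P * P :=
        Nat.mul_le_mul_right _ (Nat.mul_le_mul_right _ hq')
    _ = y ^ 4 * P ^ 4 := by ring
    _ ≤ y ^ 4 * (y ^ (2 * c)) ^ 4 := Nat.mul_le_mul_left _ (Nat.pow_le_pow_left hPy _)
    _ = y ^ (4 + 8 * c) := by rw [← pow_mul, ← pow_add]; ring_nf
    _ ≤ y ^ (10 * c) := Nat.pow_le_pow_right (by omega) (by (clear * - hc32; omega))

/-- The claim implies the combinatorial core, given the class map. -/
theorem core2_of_claim2_aux (hcm : ClassMapStmt) (h : ∀ k, Claim2 k) : Core2 := by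
  intro κ m hm
  obtain ⟨P, hP⟩ : ∃ P, P = (2 * (4 * κ + 4) * (4 * (κ + 1) * (m + 1))) ^ 32 ^ (κ + 1) :=
    ⟨_, rfl⟩
  obtain ⟨r, hr⟩ : ∃ r, r = 16 * (2 * κ + 1) ^ 2 * (P + 1) := ⟨_, rfl⟩
  obtain ⟨q, hq⟩ : ∃ q, q = (P + 1) * r * (4 * (κ + 1) * (m + 1)) + P := ⟨_, rfl⟩
  have hP1 : 1 ≤ P := by
    rw [hP]
    exact Nat.one_le_pow _ _ (by (clear * -; positivity))
  have hr1 : 0 < r := by rw [hr]; (clear * - hP1; positivity)
  have hclaim := h κ (4 * κ + 4) (4 * (κ + 1) * (m + 1)) q (by omega) (by (clear * -; positivity))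
    (by rw [← hP]; omega)
  rw [← hP] at hclaim
  obtain ⟨I, _, _, _, A, _, t, K, N, H, hI, ht0, ht, hA, hK, hH, hN, hNβ, ⟨s⟩⟩ := hclaim
  have hqt : q ≤ q * t := Nat.le_mul_of_pos_right _ ht0
  have hq1 : 1 ≤ q := by omega
  have hA2 : 2 ≤ Fintype.card A := by
    rw [hA]
    calc 2 = 2 ^ 1 := by norm_num
      _ ≤ 2 ^ (q * t) := Nat.pow_le_pow_right (by norm_num) (by omega)
  have hAne : Nonempty A := Fintype.card_pos_iff.1 (by omega)
  have hX : Fintype.card A ≤ Fintype.card A ^ Fintype.card I :=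
    Nat.le_self_pow (Fintype.card_pos.ne') _
  have h2q : 2 ^ q ≤ Fintype.card A ^ Fintype.card I := by
    refine le_trans ?_ hX
    rw [hA]
    exact Nat.pow_le_pow_right (by norm_num) hqt
  have hlog : 16 * ((2 * κ + 1 : ℕ) : ℝ) ^ 2 * Real.log (2 * K) ≤ r := by
    have h1 : Real.log (2 * K) ≤ (P + 1 : ℕ) := by
      rcases Nat.eq_zero_or_pos K with h0 | h0
      · rw [h0]
        simp only [Nat.cast_zero, mul_zero, Real.log_zero]
        positivity
      · have h2 : (2 * K : ℝ) ≤ 2 ^ (P + 1) := by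
          have : 2 * K ≤ 2 ^ (P + 1) := by rw [pow_succ]; omega
          exact_mod_cast this
        have h3 : (0 : ℝ) < 2 * K := by (clear * - h0; positivity)
        calc Real.log (2 * K) ≤ Real.log (2 ^ (P + 1)) := Real.log_le_log h3 h2
          _ = (P + 1 : ℕ) * Real.log 2 := by rw [Real.log_pow]
          _ ≤ (P + 1 : ℕ) * 1 := by
            refine mul_le_mul_of_nonneg_left ?_ (by positivity)
            linarith only [Real.log_two_lt_d9]
          _ = (P + 1 : ℕ) := by ring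
    rw [hr]
    push_cast at h1 ⊢
    exact mul_le_mul_of_nonneg_left h1 (by positivity)
  obtain ⟨f, cls, hsep, hcls⟩ := core_of_sys2 hcm s r hr1 hlog
  refine ⟨_, _, _, f, cls, Fintype.card_pos, hsep, hcls, ?_, ?_, ?_, ?_⟩
  · rw [Fintype.card_fun]
    refine pow_card_le2 κ m N ((H + 1) ^ r) _ _ hN (Nat.one_le_pow _ _ (by omega)) rfl hNβ ?_
    refine le_trans ?_ h2q
    have hH1 : H + 1 ≤ 2 ^ (P + 1) := by
      rw [pow_succ]
      have : 1 ≤ 2 ^ P := Nat.one_le_pow _ _ (by norm_num)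
      omega
    calc ((H + 1) ^ r) ^ (4 * (κ + 1) * (m + 1))
        ≤ ((2 ^ (P + 1)) ^ r) ^ (4 * (κ + 1) * (m + 1)) :=
          Nat.pow_le_pow_left (Nat.pow_le_pow_left hH1 _) _
      _ = 2 ^ ((P + 1) * r * (4 * (κ + 1) * (m + 1))) := by
          rw [← pow_mul, ← pow_mul, ← mul_assoc (P + 1)]
      _ ≤ 2 ^ q := Nat.pow_le_pow_right (by norm_num) (by (clear * - hP hq hP1; omega))
  · rw [Fintype.card_fun]
    refine le_trans (Nat.pow_le_pow_right (by norm_num) ?_) h2q
    rw [hq]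
    have h1 : m ≤ 4 * (κ + 1) * (m + 1) := by nlinarith only []
    have h2 : 1 * (4 * (κ + 1) * (m + 1)) ≤ (P + 1) * r * (4 * (κ + 1) * (m + 1)) :=
      Nat.mul_le_mul_right _ (Nat.succ_le_of_lt (by (clear * - hP1 hr1; positivity)))
    omega
  · rw [Fintype.card_fun, hA, ← pow_mul]
    refine Nat.pow_le_pow_right (by norm_num) ?_
    refine le_trans ?_ (param_bound κ m P r q hm hP hr hq)
    exact Nat.mul_le_mul (Nat.mul_le_mul_left _ ht) hI
  · rw [Fintype.card_prod, Fintype.card_fun, pow_two]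
    refine Nat.mul_le_mul_right _ ?_
    calc Fintype.card I ≤ 2 ^ Fintype.card I := Nat.lt_two_pow_self.le
      _ ≤ Fintype.card A ^ Fintype.card I := Nat.pow_le_pow_left hA2 _

end Vale.Agent.P126.CQ
end
end
end

section

section

section

/-!
# P126, quantitative counterexample: the claim implies the combinatorial core
-/

namespace Vale.Agent.P126.CQ

open Vale.Agent.P126.CE

/-- S6: the claim implies the combinatorial core. -/
theorem core2_of_claim2 (h : ∀ k, Claim2 k) : Core2 :=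
  core2_of_claim2_aux (fun h hδ R s hR hs0 hs => class_map2 h hδ R s hR hs0 hs) h

end Vale.Agent.P126.CQ
end
end
end
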